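import Crest.Agent.S0170Lib.FlowAux

/-!
# S0170: the flow of a plan (owner: helper8; proof in `FlowAux.lean`)
-/

set_option autoImplicit false
open scoped ContDiff
open Crest.AnalysisR.BoxFlow

namespace Crest.Agent.S0170

/-- Every well-formed plan is realised by a smooth, compactly supported, effective,
divergence-free field active only in `[1/4, 3/4]`, whose flow moves every valid point to its
planned final position. -/
theorem flow_exists (Ms : List Move) (hWF : ∀ M ∈ Ms, M.WF) :
    ∃ (U : Field) (Φ : ℝ → (Fin 3 → ℝ) → (Fin 3 → ℝ)),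
      ContDiff ℝ ∞ U ∧ HasCompactSupport U ∧ Effective U ∧
      (∀ p : ℝ × (Fin 3 → ℝ), p.1 ∉ Set.Icc (1 / 4 : ℝ) (3 / 4) → U p = 0) ∧
      (∀ p : ℝ × (Fin 3 → ℝ), spaceDiv U p = 0) ∧ IsFlow U Φ ∧
      ∀ x : Fin 3 → ℝ, planValid Ms x → Φ 1 x = planFinal Ms x := by
  exact flow_exists_aux Ms hWF

end Crest.Agent.S0170
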