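import Crest.Agent.S0170Lib.PlanRescale

/-!
# S0170: the motion plan

`plan_exists` assembled from `park_exists` (for the sources and for the targets), `rescale_exists`
and `planValid_reverse`: plan = park sources ++ rescale ++ reversed parking plan of the targets.
-/

set_option autoImplicit false
open Crest.AnalysisR.BoxFlow

namespace Crest.Agent.S0170

/-- Disjoint closed boxes are strictly separated along some axis. -/
theorem plan_sep_of_disjoint (a h a' h' : Fin 3 → ℚ) (hh : ∀ j, 0 < h j) (hh' : ∀ j, 0 < h' j)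
    (hd : Disjoint (box a h) (box a' h')) : ∃ j, h j + h' j < |a j - a' j| := by
  by_contra hcon
  simp only [not_exists, not_lt] at hcon
  have hmem : (fun j => (((a j * h' j + a' j * h j) / (h j + h' j) : ℚ) : ℝ)) ∈ box a h ∩ box a' h' := by
    constructor
    · intro j
      have h1 : (0 : ℚ) < h j + h' j := add_pos (hh j) (hh' j)
      have h2 : (a j * h' j + a' j * h j) / (h j + h' j) - a j = (a' j - a j) * h j / (h j + h' j) := by
        field_simp; ring
      have h3 : |(a j * h' j + a' j * h j) / (h j + h' j) - a j| ≤ h j := by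
        rw [h2, abs_div, abs_mul, abs_of_pos h1, abs_of_pos (hh j), div_le_iff₀ h1, abs_sub_comm]
        exact mul_le_mul_of_nonneg_right (hcon j) (hh j).le |>.trans (le_of_eq (by ring))
      show |(((a j * h' j + a' j * h j) / (h j + h' j) : ℚ) : ℝ) - (a j : ℝ)| ≤ (h j : ℝ)
      exact_mod_cast h3
    · intro j
      have h1 : (0 : ℚ) < h j + h' j := add_pos (hh j) (hh' j)
      have h2 : (a j * h' j + a' j * h j) / (h j + h' j) - a' j = (a j - a' j) * h' j / (h j + h' j) := by
        field_simp; ring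
      have h3 : |(a j * h' j + a' j * h j) / (h j + h' j) - a' j| ≤ h' j := by
        rw [h2, abs_div, abs_mul, abs_of_pos h1, abs_of_pos (hh' j), div_le_iff₀ h1]
        exact mul_le_mul_of_nonneg_right (hcon j) (hh' j).le |>.trans (le_of_eq (by ring))
      show |(((a j * h' j + a' j * h j) / (h j + h' j) : ℚ) : ℝ) - (a' j : ℝ)| ≤ (h' j : ℝ)
      exact_mod_cast h3
  exact (Set.disjoint_iff.mp hd) hmem

theorem plan_exists_pos_le {ι : Type*} [Finite ι] (G : ι → ℚ) (hG : ∀ p, 0 < G p) :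
    ∃ g : ℚ, 0 < g ∧ ∀ p, g ≤ G p := by
  cases isEmpty_or_nonempty ι
  · exact ⟨1, one_pos, fun p => isEmptyElim p⟩
  · obtain ⟨p₀, hp₀⟩ := Finite.exists_min G
    exact ⟨G p₀, hG p₀, hp₀⟩

theorem plan_exists_pos_ge {ι : Type*} [Finite ι] (G : ι → ℚ) :
    ∃ H : ℚ, 0 < H ∧ ∀ p, G p ≤ H := by
  obtain ⟨H, hH⟩ := (Set.finite_range G).bddAbove
  exact ⟨max H 1, lt_of_lt_of_le one_pos (le_max_right _ _),
    fun p => (hH (Set.mem_range_self p)).trans (le_max_left _ _)⟩

/-- A uniform gap for a family of pairwise disjoint boxes. -/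
theorem plan_uniform_gap (n : ℕ) (a h : Fin n → Fin 3 → ℚ) (hh : ∀ i j, 0 < h i j)
    (ha : Pairwise fun i i' => Disjoint (box (a i) (h i)) (box (a i') (h i'))) :
    ∃ g : ℚ, 0 < g ∧ ∀ i i', i ≠ i' → ∃ j, h i j + h i' j + g ≤ |a i j - a i' j| := by
  have key : ∀ p : Fin n × Fin n, ∃ g : ℚ, 0 < g ∧
      (p.1 ≠ p.2 → ∃ j, h p.1 j + h p.2 j + g ≤ |a p.1 j - a p.2 j|) := by
    intro p
    by_cases hp : p.1 = p.2
    · exact ⟨1, one_pos, fun h' => absurd hp h'⟩
    · obtain ⟨j, hj⟩ := plan_sep_of_disjoint (a p.1) (h p.1) (a p.2) (h p.2) (hh p.1) (hh p.2) (ha hp)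
      exact ⟨|a p.1 j - a p.2 j| - (h p.1 j + h p.2 j), by linarith, fun _ => ⟨j, by linarith⟩⟩
  choose G hG0 hG using key
  obtain ⟨g, hg0, hg⟩ := plan_exists_pos_le G hG0
  refine ⟨g, hg0, fun i i' hii' => ?_⟩
  obtain ⟨j, hj⟩ := hG (i, i') hii'
  exact ⟨j, by linarith [hg (i, i')]⟩

/-- There is a well-formed plan moving (a neighbourhood of) every source box onto its target box
by the prescribed affine map. -/
theorem plan_exists (n : ℕ) (a b h k : Fin n → Fin 3 → ℚ)
    (hh : ∀ i j, 0 < h i j) (hk : ∀ i j, 0 < k i j)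
    (ha : Pairwise fun i i' => Disjoint (box (a i) (h i)) (box (a i') (h i')))
    (hb : Pairwise fun i i' => Disjoint (box (b i) (k i)) (box (b i') (k i')))
    (hvol : ∀ i, ∏ j : Fin 3, k i j / h i j = 1) :
    ∃ (Ms : List Move) (ε : ℚ), 0 < ε ∧ (∀ M ∈ Ms, M.WF) ∧
      ∀ (i : Fin n) (x : Fin 3 → ℝ), (∀ j, |x j - (a i j : ℝ)| < (1 + (ε : ℝ)) * (h i j : ℝ)) →
        planValid Ms x ∧
        planFinal Ms x = fun j => (b i j : ℝ) + ((k i j / h i j : ℚ) : ℝ) * (x j - (a i j : ℝ)) := by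
  -- uniform gaps and an upper bound for the half-widths
  obtain ⟨ga, hga0, hga⟩ := plan_uniform_gap n a h hh ha
  obtain ⟨gb, hgb0, hgb⟩ := plan_uniform_gap n b k hk hb
  obtain ⟨H, hH0, hH⟩ := plan_exists_pos_ge (fun p : Fin n × Fin 3 => max (h p.1 p.2) (k p.1 p.2))
  have hHh : ∀ i j, h i j ≤ H := fun i j => (le_max_left _ _).trans (hH (i, j))
  have hHk : ∀ i j, k i j ≤ H := fun i j => (le_max_right _ _).trans (hH (i, j))
  set g : ℚ := min ga gb with hg
  have hg0 : 0 < g := lt_min hga0 hgb0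
  set ε : ℚ := g / (4 * H) with hε
  have hε0 : 0 < ε := by positivity
  set δ : ℚ := g / 2 with hδ
  have hδ0 : 0 < δ := by positivity
  have hεH : ε * (2 * H) = g / 2 := by rw [hε]; field_simp; ring
  set wa : Fin n → Fin 3 → ℚ := fun i j => (1 + ε) * h i j with hwa
  set wb : Fin n → Fin 3 → ℚ := fun i j => (1 + ε) * k i j with hwb
  set d : Fin n → Fin 3 → ℚ := fun i j => k i j / h i j with hd
  have hwa0 : ∀ i j, 0 < wa i j := fun i j => mul_pos (by linarith) (hh i j)
  have hwb0 : ∀ i j, 0 < wb i j := fun i j => mul_pos (by linarith) (hk i j)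
  have hd0 : ∀ i j, 0 < d i j := fun i j => div_pos (hk i j) (hh i j)
  have hdvol : ∀ i, d i 0 * d i 1 * d i 2 = 1 := by
    intro i
    have := hvol i
    rw [Fin.prod_univ_three] at this
    exact this
  have hsepa : ∀ i i', i ≠ i' → ∃ j, wa i j + wa i' j + δ ≤ |a i j - a i' j| := by
    intro i i' hii'
    obtain ⟨j, hj⟩ := hga i i' hii'
    refine ⟨j, le_trans ?_ hj⟩
    have h1 : ε * (h i j + h i' j) ≤ ε * (2 * H) :=
      mul_le_mul_of_nonneg_left (by linarith [hHh i j, hHh i' j]) hε0.le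
    have h2 : g ≤ ga := min_le_left _ _
    simp only [hwa]
    linarith
  have hsepb : ∀ i i', i ≠ i' → ∃ j, wb i j + wb i' j + δ ≤ |b i j - b i' j| := by
    intro i i' hii'
    obtain ⟨j, hj⟩ := hgb i i' hii'
    refine ⟨j, le_trans ?_ hj⟩
    have h1 : ε * (k i j + k i' j) ≤ ε * (2 * H) :=
      mul_le_mul_of_nonneg_left (by linarith [hHk i j, hHk i' j]) hε0.le
    have h2 : g ≤ gb := min_le_right _ _
    simp only [hwb]
    linarith
  obtain ⟨D₀, hD₀⟩ := rescale_exists n wa d hwa0 hd0 hdvol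
  set D : ℚ := max D₀ (2 * (1 + ε) * H + δ) with hD
  have hDa : ∀ i i' j, wa i j + wa i' j + δ ≤ D := by
    intro i i' j
    refine le_trans ?_ (le_max_right _ _)
    have h1 : (1 + ε) * h i j ≤ (1 + ε) * H := mul_le_mul_of_nonneg_left (hHh i j) (by linarith)
    have h2 : (1 + ε) * h i' j ≤ (1 + ε) * H := mul_le_mul_of_nonneg_left (hHh i' j) (by linarith)
    simp only [hwa]
    linarith
  have hDb : ∀ i i' j, wb i j + wb i' j + δ ≤ D := by
    intro i i' j
    refine le_trans ?_ (le_max_right _ _)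
    have h1 : (1 + ε) * k i j ≤ (1 + ε) * H := mul_le_mul_of_nonneg_left (hHk i j) (by linarith)
    have h2 : (1 + ε) * k i' j ≤ (1 + ε) * H := mul_le_mul_of_nonneg_left (hHk i' j) (by linarith)
    simp only [hwb]
    linarith
  obtain ⟨Pa, hPaWF, hPa⟩ := park_exists n a wa δ D hwa0 hδ0 hsepa hDa
  obtain ⟨Pb, hPbWF, hPb⟩ := park_exists n b wb δ D hwb0 hδ0 hsepb hDb
  obtain ⟨R, hRWF, hR⟩ := hD₀ D (le_max_left _ _)
  refine ⟨Pa ++ (R ++ Pb.reverse.map Move.rev), ε, hε0, ?_, ?_⟩
  · intro M hM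
    rcases List.mem_append.mp hM with hM | hM
    · exact hPaWF M hM
    · rcases List.mem_append.mp hM with hM | hM
      · exact hRWF M hM
      · obtain ⟨M', hM', rfl⟩ := List.mem_map.mp hM
        exact Move.rev_WF M' (hPbWF M' (List.mem_reverse.mp hM'))
  · intro i x hx
    set ξ : Fin 3 → ℝ := fun j => x j - (a i j : ℝ) with hξ
    have hxξ : x = fun j => (a i j : ℝ) + ξ j := by funext j; simp [hξ]
    have hξw : ∀ j, |ξ j| < (wa i j : ℝ) := by
      intro j
      have := hx j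
      simp only [hwa, hξ]
      push_cast
      exact this
    set η : Fin 3 → ℝ := fun j => (d i j : ℝ) * ξ j with hη
    have hηw : ∀ j, |η j| < (wb i j : ℝ) := by
      intro j
      have h1 : (0 : ℝ) < (d i j : ℝ) := by exact_mod_cast hd0 i j
      have h2 : (wb i j : ℝ) = (d i j : ℝ) * (wa i j : ℝ) := by
        have h3 : wb i j = d i j * wa i j := by
          simp only [hwb, hwa, hd]
          have := (hh i j).ne'
          field_simp
        exact_mod_cast h3
      rw [hη, h2]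
      simp only [abs_mul, abs_of_pos h1]
      exact mul_lt_mul_of_pos_left (hξw j) h1
    obtain ⟨hPav, hPaf⟩ := hPa i ξ hξw
    obtain ⟨hRv, hRf⟩ := hR i ξ hξw
    obtain ⟨hPbv, hPbf⟩ := hPb i η hηw
    obtain ⟨hrv, hrf⟩ := planValid_reverse Pb hPbWF _ _ hPbv hPbf
    rw [← hxξ] at hPav hPaf
    constructor
    · rw [planValid_append, planValid_append, hPaf, hRf]
      exact ⟨hPav, hRv, hrv⟩
    · rw [planFinal_append, planFinal_append, hPaf, hRf, hrf]

end Crest.Agent.S0170
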