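import Crest.Agent.S0170Lib.Defs

/-!
# S0170: closure properties of `RApprox` (primitive-recursive approximability)
-/

set_option autoImplicit false

namespace Crest.Agent.S0170

variable {α β : Type*} [Primcodable α] [Primcodable β]

theorem RApprox.of_eq {f g : α → ℝ} (hf : RApprox f) (h : ∀ a, f a = g a) : RApprox g := by
  have : f = g := funext h
  rw [← this]; exact hf

theorem RApprox.comp {f : α → ℝ} (hf : RApprox f) {g : β → α} (hg : Primrec g) :
    RApprox (fun b => f (g b)) := by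
  obtain ⟨A, hA, hfA⟩ := hf
  exact ⟨fun b n => A (g b) n, hA.comp (hg.comp Primrec.fst) Primrec.snd, fun b n => hfA (g b) n⟩

theorem RApprox.of_primrec {g : α → ℚ} (hg : Primrec g) : RApprox (fun a => (g a : ℝ)) := by
  refine ⟨fun a _ => g a, hg.comp Primrec.fst, fun a n => ?_⟩
  simp only [sub_self, abs_zero]
  positivity

theorem RApprox.const (c : ℚ) : RApprox (fun _ : α => (c : ℝ)) :=
  RApprox.of_primrec (Primrec.const c)

theorem approx_aux_half (n : ℕ) : (1 : ℝ) / (((2 * n + 1 : ℕ) : ℝ) + 1) = 1 / ((n : ℝ) + 1) / 2 := by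
  have h : ((n : ℝ) + 1) ≠ 0 := by positivity
  push_cast
  field_simp
  ring

theorem RApprox.add {f g : α → ℝ} (hf : RApprox f) (hg : RApprox g) :
    RApprox (fun a => f a + g a) := by
  obtain ⟨A, hA, hfA⟩ := hf
  obtain ⟨B, hB, hgB⟩ := hg
  refine ⟨fun a n => A a (2 * n + 1) + B a (2 * n + 1), ?_, fun a n => ?_⟩
  · have h1 : Primrec₂ (fun (a : α) (n : ℕ) => A a (2 * n + 1)) :=
      hA.comp Primrec.fst (Primrec.nat_double_succ.comp Primrec.snd)
    have h2 : Primrec₂ (fun (a : α) (n : ℕ) => B a (2 * n + 1)) :=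
      hB.comp Primrec.fst (Primrec.nat_double_succ.comp Primrec.snd)
    exact ratComp_primrec_add.comp h1 h2
  · have h1 := hfA a (2 * n + 1)
    have h2 := hgB a (2 * n + 1)
    rw [approx_aux_half] at h1 h2
    push_cast
    have : f a + g a - ((A a (2 * n + 1) : ℝ) + (B a (2 * n + 1) : ℝ))
        = (f a - A a (2 * n + 1)) + (g a - B a (2 * n + 1)) := by ring
    rw [this]
    calc |(f a - A a (2 * n + 1)) + (g a - B a (2 * n + 1))|
        ≤ |f a - A a (2 * n + 1)| + |g a - B a (2 * n + 1)| := abs_add_le _ _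
      _ ≤ 1 / ((n : ℝ) + 1) / 2 + 1 / ((n : ℝ) + 1) / 2 := add_le_add h1 h2
      _ = 1 / ((n : ℝ) + 1) := by ring

theorem RApprox.neg {f : α → ℝ} (hf : RApprox f) : RApprox (fun a => - f a) := by
  obtain ⟨A, hA, hfA⟩ := hf
  refine ⟨fun a n => - A a n, ratComp_primrec_neg.comp hA, fun a n => ?_⟩
  have := hfA a n
  push_cast
  rw [show -f a - -(A a n : ℝ) = -(f a - A a n) by ring, abs_neg]
  exact this

theorem RApprox.sub {f g : α → ℝ} (hf : RApprox f) (hg : RApprox g) :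
    RApprox (fun a => f a - g a) :=
  (hf.add hg.neg).of_eq fun a => by ring

/-- An approximable function has a primitive recursive bound. -/
theorem RApprox.exists_bound {f : α → ℝ} (hf : RApprox f) :
    ∃ B : α → ℕ, Primrec B ∧ ∀ a, |f a| ≤ (B a : ℝ) := by
  obtain ⟨A, hA, hfA⟩ := hf
  refine ⟨fun a => ratUB (A a 0) + 1, ?_, fun a => ?_⟩
  · exact Primrec.succ.comp (ratComp_primrec_UB.comp (hA.comp Primrec.id (Primrec.const 0)))
  · have h1 := hfA a 0
    simp only [Nat.cast_zero, zero_add, div_one] at h1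
    have h2 : |(A a 0 : ℝ)| ≤ (ratUB (A a 0) : ℝ) := by
      have := ratComp_abs_le_UB (A a 0)
      have h3 : ((|A a 0| : ℚ) : ℝ) ≤ ((ratUB (A a 0) : ℚ) : ℝ) := by exact_mod_cast this
      simpa using h3
    have h3 : |f a| ≤ |f a - A a 0| + |(A a 0 : ℝ)| := by
      have := abs_add_le (f a - A a 0) (A a 0 : ℝ)
      simpa using this
    push_cast
    linarith

theorem RApprox.mul {f g : α → ℝ} (hf : RApprox f) (hg : RApprox g) :
    RApprox (fun a => f a * g a) := by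
  obtain ⟨Bf, hBf, hfB⟩ := hf.exists_bound
  obtain ⟨Bg, hBg, hgB⟩ := hg.exists_bound
  obtain ⟨A, hA, hfA⟩ := hf
  obtain ⟨B, hB, hgB'⟩ := hg
  have hm : Primrec₂ (fun (a : α) (n : ℕ) => (n + 1) * (Bf a + Bg a + 1) - 1) :=
    Primrec.nat_sub.comp
      (Primrec.nat_mul.comp (Primrec.succ.comp Primrec.snd)
        (Primrec.succ.comp (Primrec.nat_add.comp (hBf.comp Primrec.fst) (hBg.comp Primrec.fst))))
      (Primrec.const 1)
  refine ⟨fun a n => A a ((n + 1) * (Bf a + Bg a + 1) - 1) * B a ((n + 1) * (Bf a + Bg a + 1) - 1),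
    ?_, fun a n => ?_⟩
  · exact ratComp_primrec_mul.comp (hA.comp Primrec.fst hm) (hB.comp Primrec.fst hm)
  · set m := (n + 1) * (Bf a + Bg a + 1) - 1 with hmdef
    have hm1 : ((m : ℝ) + 1) = ((n : ℝ) + 1) * ((Bf a : ℝ) + Bg a + 1) := by
      have : 1 ≤ (n + 1) * (Bf a + Bg a + 1) := Nat.succ_le_of_lt (Nat.mul_pos (by omega) (by omega))
      rw [hmdef, Nat.cast_sub this]; push_cast; ring
    have h1 := hfA a m
    have h2 := hgB' a m
    rw [hm1] at h1 h2
    have hK : (0 : ℝ) < (Bf a : ℝ) + Bg a + 1 := by positivity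
    have hn : (0 : ℝ) < (n : ℝ) + 1 := by positivity
    set e := 1 / (((n : ℝ) + 1) * ((Bf a : ℝ) + Bg a + 1)) with he
    have he_pos : 0 < e := by positivity
    have he_le : e ≤ 1 := by
      rw [he, div_le_one (by positivity)]
      have h3 : (1 : ℝ) ≤ (n : ℝ) + 1 := by linarith [(Nat.cast_nonneg n : (0 : ℝ) ≤ n)]
      have h4 : (1 : ℝ) ≤ (Bf a : ℝ) + Bg a + 1 := by
        linarith [(Nat.cast_nonneg (Bf a) : (0 : ℝ) ≤ Bf a), (Nat.cast_nonneg (Bg a) : (0 : ℝ) ≤ Bg a)]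
      nlinarith
    have hB1 : |(B a m : ℝ)| ≤ Bg a + 1 := by
      have h3 : |(B a m : ℝ)| ≤ |g a - B a m| + |g a| := by
        have := abs_sub_le (B a m : ℝ) (g a) 0
        simp only [sub_zero] at this
        rw [abs_sub_comm] at this
        exact this
      linarith [hgB a]
    push_cast
    have key : f a * g a - (A a m : ℝ) * (B a m : ℝ)
        = f a * (g a - B a m) + (f a - A a m) * (B a m : ℝ) := by ring
    rw [key]
    calc |f a * (g a - B a m) + (f a - A a m) * (B a m : ℝ)|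
        ≤ |f a| * |g a - B a m| + |f a - A a m| * |(B a m : ℝ)| := by
          rw [← abs_mul, ← abs_mul]; exact abs_add_le _ _
      _ ≤ (Bf a : ℝ) * e + e * ((Bg a : ℝ) + 1) := by
          apply add_le_add
          · exact mul_le_mul (hfB a) h2 (abs_nonneg _) (Nat.cast_nonneg _)
          · exact mul_le_mul h1 hB1 (abs_nonneg _) he_pos.le
      _ = e * ((Bf a : ℝ) + Bg a + 1) := by ring
      _ = 1 / ((n : ℝ) + 1) := by
          rw [he]; field_simp

theorem RApprox.inv_of_le {g : α → ℝ} (hg : RApprox g) {c : ℚ} (hc : 0 < c)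
    (h : ∀ a, (c : ℝ) ≤ g a) : RApprox (fun a => (g a)⁻¹) := by
  obtain ⟨B, hB, hgB⟩ := hg
  have hcR : (0 : ℝ) < (c : ℝ) := by exact_mod_cast hc
  obtain ⟨K, hK⟩ := exists_nat_ge (max (2 / (c : ℝ)) (2 / (c : ℝ) ^ 2))
  have hK1 : 2 / (c : ℝ) ≤ K := le_trans (le_max_left _ _) hK
  have hK2 : 2 / (c : ℝ) ^ 2 ≤ K := le_trans (le_max_right _ _) hK
  have hKpos : (0 : ℝ) < K := lt_of_lt_of_le (by positivity) hK1
  have hKnat : 0 < K := by exact_mod_cast hKpos
  refine ⟨fun a n => (B a (K * (n + 1) - 1))⁻¹, ?_, fun a n => ?_⟩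
  · refine ratComp_primrec_inv.comp (hB.comp Primrec.fst ?_)
    exact Primrec.nat_sub.comp
      (Primrec.nat_mul.comp (Primrec.const K) (Primrec.succ.comp Primrec.snd)) (Primrec.const 1)
  · set m := K * (n + 1) - 1 with hmdef
    have hm1 : ((m : ℝ) + 1) = (K : ℝ) * ((n : ℝ) + 1) := by
      have : 1 ≤ K * (n + 1) := Nat.succ_le_of_lt (Nat.mul_pos hKnat (by omega))
      rw [hmdef, Nat.cast_sub this]; push_cast; ring
    have h1 := hgB a m
    rw [hm1] at h1
    have hn : (0 : ℝ) < (n : ℝ) + 1 := by positivity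
    have hn1 : (1 : ℝ) ≤ (n : ℝ) + 1 := by linarith [(Nat.cast_nonneg n : (0 : ℝ) ≤ n)]
    set e := 1 / ((K : ℝ) * ((n : ℝ) + 1)) with he
    have he_pos : 0 < e := by positivity
    have hKc : (2 : ℝ) ≤ K * c := by
      rw [div_le_iff₀ hcR] at hK1; exact hK1
    have he1 : e ≤ c / 2 := by
      rw [he, div_le_iff₀ (by positivity)]
      have h5 : (1 : ℝ) ≤ (K * c / 2) * ((n : ℝ) + 1) :=
        one_le_mul_of_one_le_of_one_le (by linarith) hn1
      linarith [h5]
    have hKc2 : (2 : ℝ) ≤ K * (c : ℝ) ^ 2 := by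
      rw [div_le_iff₀ (by positivity)] at hK2; exact hK2
    have he2 : e * (2 / (c : ℝ) ^ 2) ≤ 1 / ((n : ℝ) + 1) := by
      rw [he]
      have hc2 : (0 : ℝ) < (c : ℝ) ^ 2 := by positivity
      rw [div_mul_div_comm, one_mul, div_le_div_iff₀ (by positivity) hn]
      nlinarith
    have hg_pos : (0 : ℝ) < g a := lt_of_lt_of_le hcR (h a)
    have hB_ge : (c : ℝ) / 2 ≤ (B a m : ℝ) := by
      have := abs_le.mp h1
      linarith [h a]
    have hB_pos : (0 : ℝ) < (B a m : ℝ) := by linarith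
    push_cast
    have key : (g a)⁻¹ - (B a m : ℝ)⁻¹ = ((B a m : ℝ) - g a) / (g a * B a m) := by
      field_simp
    rw [key, abs_div, abs_sub_comm, abs_of_pos (mul_pos hg_pos hB_pos)]
    have hden : (c : ℝ) ^ 2 / 2 ≤ g a * B a m := by
      have := h a
      nlinarith
    calc |g a - (B a m : ℝ)| / (g a * B a m)
        ≤ e / ((c : ℝ) ^ 2 / 2) := div_le_div₀ he_pos.le h1 (by positivity) hden
      _ = e * (2 / (c : ℝ) ^ 2) := by field_simp
      _ ≤ 1 / ((n : ℝ) + 1) := he2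

theorem RApprox.div_of_le {f g : α → ℝ} (hf : RApprox f) (hg : RApprox g) {c : ℚ} (hc : 0 < c)
    (h : ∀ a, (c : ℝ) ≤ g a) : RApprox (fun a => f a / g a) :=
  (hf.mul (hg.inv_of_le hc h)).of_eq fun a => (div_eq_mul_inv _ _).symm

theorem RApprox.ite {p : α → Prop} [DecidablePred p] (hp : PrimrecPred p) {f g : α → ℝ}
    (hf : RApprox f) (hg : RApprox g) : RApprox (fun a => if p a then f a else g a) := by
  obtain ⟨A, hA, hfA⟩ := hf
  obtain ⟨B, hB, hgB⟩ := hg
  refine ⟨fun a n => if p a then A a n else B a n, ?_, fun a n => ?_⟩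
  · exact Primrec.ite (hp.comp Primrec.fst) hA hB
  · by_cases hpa : p a
    · simp only [hpa, if_true]; exact hfA a n
    · simp only [hpa, if_false]; exact hgB a n

/-- Sums of variable length. -/
theorem RApprox.sum_range {f : α → ℕ → ℝ} (hf : RApprox (fun p : α × ℕ => f p.1 p.2)) :
    RApprox (fun p : α × ℕ => ∑ i ∈ Finset.range p.2, f p.1 i) := by
  obtain ⟨A, hA, hfA⟩ := hf
  -- `G ((a, N), k) = ∑_{i<k} A (a, i) N`
  have hG : Primrec (fun x : (α × ℕ) × ℕ =>
      Nat.rec (motive := fun _ => ℚ) 0 (fun i ih => ih + A (x.1.1, i) x.1.2) x.2) := by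
    refine Primrec.nat_rec' (f := fun x : (α × ℕ) × ℕ => x.2) (g := fun _ => (0 : ℚ))
      (h := fun (x : (α × ℕ) × ℕ) (r : ℕ × ℚ) => r.2 + A (x.1.1, r.1) x.1.2)
      Primrec.snd (Primrec.const 0) ?_
    refine ratComp_primrec_add.comp₂ (Primrec.snd.comp₂ Primrec₂.right) ?_
    have h1 : Primrec₂ (fun (x : (α × ℕ) × ℕ) (r : ℕ × ℚ) => (x.1.1, r.1)) :=
      Primrec₂.pair.comp₂ (Primrec.fst.comp₂ (Primrec.fst.comp₂ Primrec₂.left))
        (Primrec.fst.comp₂ Primrec₂.right)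
    have h2 : Primrec₂ (fun (x : (α × ℕ) × ℕ) (_ : ℕ × ℚ) => x.1.2) :=
      Primrec.snd.comp₂ (Primrec.fst.comp₂ Primrec₂.left)
    exact hA.comp₂ h1 h2
  have hGeq : ∀ (a : α) (N k : ℕ),
      Nat.rec (motive := fun _ => ℚ) 0 (fun i ih => ih + A (a, i) N) k
        = ∑ i ∈ Finset.range k, A (a, i) N := by
    intro a N k
    induction k with
    | zero => simp
    | succ k ih => rw [Finset.sum_range_succ, ← ih]
  refine ⟨fun p n => ∑ i ∈ Finset.range p.2, A (p.1, i) (p.2 * (n + 1)), ?_, fun p n => ?_⟩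
  · have h3 : Primrec₂ (fun (p : α × ℕ) (n : ℕ) => ((p.1, p.2 * (n + 1)), p.2)) :=
      Primrec₂.pair.comp₂
        (Primrec₂.pair.comp₂ (Primrec.fst.comp₂ Primrec₂.left)
          (Primrec.nat_mul.comp₂ (Primrec.snd.comp₂ Primrec₂.left)
            (Primrec.succ.comp₂ Primrec₂.right)))
        (Primrec.snd.comp₂ Primrec₂.left)
    have := hG.comp₂ h3
    exact this.of_eq fun p n => hGeq p.1 (p.2 * (n + 1)) p.2
  · obtain ⟨a, k⟩ := p
    simp only
    push_cast
    rw [← Finset.sum_sub_distrib]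
    have hn : (0 : ℝ) < (n : ℝ) + 1 := by positivity
    calc |∑ i ∈ Finset.range k, (f a i - (A (a, i) (k * (n + 1)) : ℝ))|
        ≤ ∑ i ∈ Finset.range k, |f a i - (A (a, i) (k * (n + 1)) : ℝ)| :=
          Finset.abs_sum_le_sum_abs _ _
      _ ≤ ∑ _i ∈ Finset.range k, 1 / (((k * (n + 1) : ℕ) : ℝ) + 1) :=
          Finset.sum_le_sum fun i _ => hfA (a, i) (k * (n + 1))
      _ = k * (1 / (((k * (n + 1) : ℕ) : ℝ) + 1)) := by simp
      _ ≤ 1 / ((n : ℝ) + 1) := by
          rw [mul_one_div, div_le_div_iff₀ (by positivity) hn]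
          push_cast
          nlinarith [(Nat.cast_nonneg k : (0 : ℝ) ≤ k)]

end Crest.Agent.S0170
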