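import Mathlib.Computability.Partrec
import Mathlib.Computability.Primrec.List
import Mathlib.Data.Rat.Denumerable
import Mathlib.Tactic

/-!
# Primitive recursiveness of rational arithmetic (for S0170, `Effective`)

`Primcodable ℚ` in Mathlib is `Primcodable.ofDenumerable ℚ`, where `Denumerable ℚ` is the
re-indexing (`Denumerable.ofEncodableOfInfinite`) of the encoding of `ℚ` as a pair
(numerator, denominator).  We show that numerator/denominator extraction and the construction
of a rational from natural-number data are primitive recursive w.r.t. this encoding, and derive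
primitive recursiveness of the field operations and of the order on `ℚ`.
-/

set_option autoImplicit false

namespace Crest.Agent.S0170

open Encodable Denumerable

/-! ### The encoding of `ℤ` -/

theorem ratComp_enc_ofNat (n : ℕ) : encode (Int.ofNat n) = 2 * n := by
  show Nat.bit false n = 2 * n
  simp [Nat.bit]

theorem ratComp_enc_negSucc (n : ℕ) : encode (Int.negSucc n) = 2 * n + 1 := by
  show Nat.bit true n = 2 * n + 1
  simp [Nat.bit]

theorem ratComp_natAbs_eq_enc (z : ℤ) : z.natAbs = (encode z + 1) / 2 := by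
  match z with
  | Int.ofNat n => rw [ratComp_enc_ofNat]; simp; omega
  | Int.negSucc n => rw [ratComp_enc_negSucc]; simp; omega

theorem ratComp_toNat_eq_enc (z : ℤ) : z.toNat = if encode z % 2 = 0 then encode z / 2 else 0 := by
  match z with
  | Int.ofNat n => rw [ratComp_enc_ofNat]; simp
  | Int.negSucc n => rw [ratComp_enc_negSucc]; simp

theorem ratComp_neg_toNat_eq_enc (z : ℤ) :
    (-z).toNat = if encode z % 2 = 0 then 0 else (encode z + 1) / 2 := by
  match z with
  | Int.ofNat n => rw [ratComp_enc_ofNat]; simp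
  | Int.negSucc n =>
    rw [ratComp_enc_negSucc]
    have : (2 * n + 1) % 2 ≠ 0 := by omega
    simp only [this, if_false]
    rw [Int.neg_negSucc]
    simp; omega

/-! ### The range of the pair-encoding of `ℚ` -/

theorem ratComp_rat_enc (q : ℚ) :
    @Encodable.encode ℚ Rat.instEncodable q = Nat.pair (encode q.num) q.den := rfl

/-- The range of the pair-encoding of `ℚ`. -/
abbrev ratS : Set ℕ := Set.range (@Encodable.encode ℚ Rat.instEncodable)

instance ratSdec : DecidablePred (· ∈ ratS) := @Encodable.decidableRangeEncode ℚ Rat.instEncodable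

instance ratSinf : Infinite ratS :=
  Infinite.of_injective _
    (Equiv.ofInjective _ (@Encodable.encode_injective ℚ Rat.instEncodable)).injective

theorem ratComp_mem_ratS (m : ℕ) :
    m ∈ ratS ↔ 0 < m.unpair.2 ∧ Nat.gcd ((m.unpair.1 + 1) / 2) m.unpair.2 = 1 := by
  constructor
  · rintro ⟨q, rfl⟩
    rw [ratComp_rat_enc, Nat.unpair_pair]
    refine ⟨q.den_pos, ?_⟩
    have := q.reduced
    rw [ratComp_natAbs_eq_enc] at this
    exact this
  · rintro ⟨h1, h2⟩
    have hz : encode (Denumerable.ofNat ℤ m.unpair.1) = m.unpair.1 := Denumerable.encode_ofNat _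
    refine ⟨⟨Denumerable.ofNat ℤ m.unpair.1, m.unpair.2, Nat.pos_iff_ne_zero.mp h1, ?_⟩, ?_⟩
    · rw [ratComp_natAbs_eq_enc, hz]; exact h2
    · rw [ratComp_rat_enc]
      show Nat.pair (encode (Denumerable.ofNat ℤ m.unpair.1)) m.unpair.2 = m
      rw [hz, Nat.pair_unpair]

/-! ### Primitive recursiveness of `gcd`, membership, rank and enumeration -/

theorem ratComp_primrec_dvd : PrimrecRel (fun a b : ℕ => a ∣ b) := by
  have h : PrimrecRel (fun a b : ℕ => b % a = 0) :=
    Primrec.eq.comp (Primrec.nat_mod.comp Primrec.snd Primrec.fst) (Primrec.const 0)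
  exact h.of_eq fun a b => (Nat.dvd_iff_mod_eq_zero).symm

theorem ratComp_gcd_eq (a b : ℕ) :
    Nat.gcd a b = Nat.findGreatest (fun g => g ∣ a ∧ g ∣ b) (a + b) := by
  symm
  rw [Nat.findGreatest_eq_iff]
  refine ⟨?_, fun _ => ⟨Nat.gcd_dvd_left a b, Nat.gcd_dvd_right a b⟩, ?_⟩
  · rcases Nat.eq_zero_or_pos a with h | h
    · subst h; simp
    · exact (Nat.gcd_le_left b h).trans (Nat.le_add_right a b)
  · intro n hn hn' ⟨h1, h2⟩
    have hd : n ∣ Nat.gcd a b := Nat.dvd_gcd h1 h2
    rcases Nat.eq_zero_or_pos (Nat.gcd a b) with h | h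
    · rw [Nat.gcd_eq_zero_iff] at h
      omega
    · exact absurd (Nat.le_of_dvd h hd) (by omega)

theorem ratComp_primrec_gcd : Primrec₂ Nat.gcd := by
  have hrel : PrimrecRel (fun (p : ℕ × ℕ) (g : ℕ) => g ∣ p.1 ∧ g ∣ p.2) := by
    have h1 : PrimrecRel (fun (p : ℕ × ℕ) (g : ℕ) => g ∣ p.1) :=
      ratComp_primrec_dvd.comp₂ Primrec₂.right (Primrec.fst.comp₂ Primrec₂.left)
    have h2 : PrimrecRel (fun (p : ℕ × ℕ) (g : ℕ) => g ∣ p.2) :=
      ratComp_primrec_dvd.comp₂ Primrec₂.right (Primrec.snd.comp₂ Primrec₂.left)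
    exact PrimrecPred.and h1 h2
  have hf : Primrec (fun p : ℕ × ℕ => p.1 + p.2) := Primrec.nat_add.comp Primrec.fst Primrec.snd
  have := Primrec.nat_findGreatest hf hrel
  exact this.of_eq fun p => (ratComp_gcd_eq p.1 p.2).symm

theorem ratComp_primrec_mem : PrimrecPred (· ∈ ratS) := by
  have h1 : PrimrecPred (fun m : ℕ => 0 < m.unpair.2) :=
    Primrec.nat_lt.comp (Primrec.const 0) (Primrec.snd.comp Primrec.unpair)
  have h2 : PrimrecPred (fun m : ℕ => Nat.gcd ((m.unpair.1 + 1) / 2) m.unpair.2 = 1) := by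
    refine Primrec.eq.comp (ratComp_primrec_gcd.comp ?_ (Primrec.snd.comp Primrec.unpair))
      (Primrec.const 1)
    exact Primrec.nat_div.comp (Primrec.succ.comp (Primrec.fst.comp Primrec.unpair))
      (Primrec.const 2)
  exact (PrimrecPred.and h1 h2).of_eq fun m => (ratComp_mem_ratS m).symm

/-- The number of valid codes below `m`. -/
def ratRank (m : ℕ) : ℕ := (List.range m).countP (· ∈ ratS)

theorem ratComp_primrec_rank : Primrec ratRank := by
  have : Primrec (fun m : ℕ => ((List.range m).filter (· ∈ ratS)).length) :=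
    Primrec.list_length.comp ((Primrec.listFilter ratComp_primrec_mem).comp Primrec.list_range)
  exact this.of_eq fun m => by simp [ratRank, List.countP_eq_length_filter]

theorem ratComp_rank_mono {a b : ℕ} (h : a ≤ b) : ratRank a ≤ ratRank b := by
  unfold ratRank
  obtain ⟨c, rfl⟩ := Nat.exists_eq_add_of_le h
  rw [List.range_add, List.countP_append]
  exact Nat.le_add_right _ _

theorem ratComp_rank_succ (a : ℕ) : ratRank (a + 1) = ratRank a + if a ∈ ratS then 1 else 0 := by
  unfold ratRank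
  rw [List.range_succ, List.countP_append]
  by_cases h : a ∈ ratS <;> simp [h]

theorem ratComp_rank_lt {a b : ℕ} (h : a < b) (ha : a ∈ ratS) : ratRank a < ratRank b := by
  have h1 : ratRank (a + 1) ≤ ratRank b := ratComp_rank_mono h
  rw [ratComp_rank_succ, if_pos ha] at h1
  omega

/-- The `n`-th valid code. -/
def ratNth (n : ℕ) : ℕ := (Nat.Subtype.ofNat ratS n : ℕ)

theorem ratComp_nth_mem (n : ℕ) : ratNth n ∈ ratS := (Nat.Subtype.ofNat ratS n).2

theorem ratComp_rank_nth (n : ℕ) : ratRank (ratNth n) = n := by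
  have h : @encode ↥ratS (Nat.Subtype.denumerable ratS).toEncodable (Nat.Subtype.ofNat ratS n) = n :=
    @Denumerable.encode_ofNat ↥ratS (Nat.Subtype.denumerable ratS) n
  exact h

theorem ratComp_pair_one_mem (i : ℕ) : Nat.pair i 1 ∈ ratS := by
  rw [ratComp_mem_ratS, Nat.unpair_pair]
  simp

theorem ratComp_rank_pair_one (n : ℕ) : n ≤ ratRank (Nat.pair n 1) := by
  induction n with
  | zero => exact Nat.zero_le _
  | succ n ih =>
    have hlt : Nat.pair n 1 < Nat.pair (n + 1) 1 := Nat.pair_lt_pair_left 1 (Nat.lt_succ_self n)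
    have := ratComp_rank_lt hlt (ratComp_pair_one_mem n)
    omega

theorem ratComp_nth_le (n : ℕ) : ratNth n ≤ Nat.pair n 1 := by
  by_contra h
  rw [not_le] at h
  have h1 := ratComp_rank_lt h (ratComp_pair_one_mem n)
  rw [ratComp_rank_nth] at h1
  have h2 := ratComp_rank_pair_one n
  omega

theorem ratComp_nth_eq (n : ℕ) :
    ratNth n = Nat.findGreatest (fun y => ratRank y ≤ n) (Nat.pair n 1) := by
  symm
  rw [Nat.findGreatest_eq_iff]
  refine ⟨ratComp_nth_le n, fun _ => (ratComp_rank_nth n).le, ?_⟩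
  intro y hy _ hle
  have := ratComp_rank_lt hy (ratComp_nth_mem n)
  rw [ratComp_rank_nth] at this
  omega

theorem ratComp_primrec_nth : Primrec ratNth := by
  have hrel : PrimrecRel (fun (n y : ℕ) => ratRank y ≤ n) :=
    Primrec.nat_le.comp₂ (ratComp_primrec_rank.comp₂ Primrec₂.right) Primrec₂.left
  have hf : Primrec (fun n : ℕ => Nat.pair n 1) :=
    (Primrec₂.natPair).comp Primrec.id (Primrec.const 1)
  exact (Primrec.nat_findGreatest hf hrel).of_eq fun n => (ratComp_nth_eq n).symm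

/-! ### Interface with `ℚ` -/

theorem ratComp_ofNat_enc (n : ℕ) :
    @Encodable.encode ℚ Rat.instEncodable (Denumerable.ofNat ℚ n) = ratNth n := by
  have h : Denumerable.ofNat ℚ n =
      (@Encodable.equivRangeEncode ℚ Rat.instEncodable).symm (Nat.Subtype.ofNat ratS n) := rfl
  rw [h]
  exact congrArg Subtype.val
    ((@Encodable.equivRangeEncode ℚ Rat.instEncodable).apply_symm_apply (Nat.Subtype.ofNat ratS n))

theorem ratComp_enc_rank (q : ℚ) :
    @encode ℚ Rat.instDenumerable.toEncodable q = ratRank (Nat.pair (encode q.num) q.den) := rfl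

theorem ratComp_primrec_numCode : Primrec (fun q : ℚ => encode q.num) := by
  refine Primrec.ofNat_iff.2 ?_
  have : Primrec (fun n : ℕ => (ratNth n).unpair.1) :=
    Primrec.fst.comp (Primrec.unpair.comp ratComp_primrec_nth)
  refine this.of_eq fun n => ?_
  have h := ratComp_ofNat_enc n
  rw [ratComp_rat_enc] at h
  rw [← h, Nat.unpair_pair]

theorem ratComp_primrec_den : Primrec (fun q : ℚ => q.den) := by
  refine Primrec.ofNat_iff.2 ?_
  have : Primrec (fun n : ℕ => (ratNth n).unpair.2) :=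
    Primrec.snd.comp (Primrec.unpair.comp ratComp_primrec_nth)
  refine this.of_eq fun n => ?_
  have h := ratComp_ofNat_enc n
  rw [ratComp_rat_enc] at h
  rw [← h, Nat.unpair_pair]

/-- Positive part of the numerator. -/
def ratP (q : ℚ) : ℕ := q.num.toNat
/-- Negative part of the numerator. -/
def ratN (q : ℚ) : ℕ := (-q.num).toNat
/-- Denominator minus one. -/
def ratD (q : ℚ) : ℕ := q.den - 1

theorem ratComp_primrec_P : Primrec ratP := by
  have hc := ratComp_primrec_numCode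
  have : Primrec (fun q : ℚ => if encode q.num % 2 = 0 then encode q.num / 2 else 0) :=
    Primrec.ite (Primrec.eq.comp (Primrec.nat_mod.comp hc (Primrec.const 2)) (Primrec.const 0))
      (Primrec.nat_div.comp hc (Primrec.const 2)) (Primrec.const 0)
  exact this.of_eq fun q => (ratComp_toNat_eq_enc q.num).symm

theorem ratComp_primrec_N : Primrec ratN := by
  have hc := ratComp_primrec_numCode
  have : Primrec (fun q : ℚ => if encode q.num % 2 = 0 then 0 else (encode q.num + 1) / 2) :=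
    Primrec.ite (Primrec.eq.comp (Primrec.nat_mod.comp hc (Primrec.const 2)) (Primrec.const 0))
      (Primrec.const 0) (Primrec.nat_div.comp (Primrec.succ.comp hc) (Primrec.const 2))
  exact this.of_eq fun q => (ratComp_neg_toNat_eq_enc q.num).symm

theorem ratComp_primrec_D : Primrec ratD :=
  Primrec.nat_sub.comp ratComp_primrec_den (Primrec.const 1)

/-- The rational `(a - b) / (c + 1)`. -/
def ratMk (a b c : ℕ) : ℚ := ((a : ℚ) - b) / ((c : ℚ) + 1)

theorem ratComp_mk_PND (q : ℚ) : ratMk (ratP q) (ratN q) (ratD q) = q := by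
  unfold ratMk ratP ratN ratD
  have h1 : ((q.num.toNat : ℤ) : ℚ) - (((-q.num).toNat : ℤ) : ℚ) = (q.num : ℚ) := by
    rw [← Int.cast_sub, Int.toNat_sub_toNat_neg]
  have h2 : ((q.den - 1 : ℕ) : ℚ) + 1 = (q.den : ℚ) := by
    have := q.den_pos
    rw [Nat.cast_sub this]; simp
  have h1' : ((q.num.toNat : ℕ) : ℚ) - (((-q.num).toNat : ℕ) : ℚ) = (q.num : ℚ) := by
    exact_mod_cast h1
  rw [h1', h2]
  exact Rat.num_div_den q

theorem ratComp_mk_eq (a b c : ℕ) : ratMk a b c = mkRat ((a : ℤ) - b) (c + 1) := by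
  rw [Rat.mkRat_eq_div]
  simp [ratMk]

/-- The pair-code of `ratMk a b c`. -/
def ratMkCode (a b c : ℕ) : ℕ :=
  Nat.pair
    (if b ≤ a then 2 * ((a - b) / Nat.gcd (c + 1) (a - b))
      else 2 * ((b - a) / Nat.gcd (c + 1) (b - a)) - 1)
    ((c + 1) / Nat.gcd (c + 1) (if b ≤ a then a - b else b - a))

theorem ratComp_mk_enc (a b c : ℕ) :
    @Encodable.encode ℚ Rat.instEncodable (ratMk a b c) = ratMkCode a b c := by
  rw [ratComp_rat_enc, ratComp_mk_eq, Rat.num_mkRat, Rat.den_mkRat]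
  have hc : c + 1 ≠ 0 := Nat.succ_ne_zero c
  simp only [hc, if_false]
  unfold ratMkCode
  by_cases hab : b ≤ a
  · have h1 : ((a : ℤ) - b) = ((a - b : ℕ) : ℤ) := by omega
    rw [h1, Int.natAbs_natCast, if_pos hab, if_pos hab]
    refine congrArg₂ Nat.pair ?_ rfl
    have h2 : ((a - b : ℕ) : ℤ) / ((Nat.gcd (c + 1) (a - b) : ℕ) : ℤ)
        = Int.ofNat ((a - b) / Nat.gcd (c + 1) (a - b)) := by
      simp
    rw [h2, ratComp_enc_ofNat]
  · have hab' : a < b := not_le.mp hab
    have h1 : ((a : ℤ) - b) = -((b - a : ℕ) : ℤ) := by omega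
    rw [h1, Int.natAbs_neg, Int.natAbs_natCast, if_neg hab, if_neg hab]
    refine congrArg₂ Nat.pair ?_ rfl
    set g := Nat.gcd (c + 1) (b - a) with hg
    have hgpos : 0 < g := Nat.gcd_pos_of_pos_left _ (Nat.succ_pos c)
    have hgd : g ∣ (b - a) := Nat.gcd_dvd_right _ _
    obtain ⟨k, hk⟩ := hgd
    have hkpos : 0 < k := by
      rcases Nat.eq_zero_or_pos k with h | h
      · subst h; omega
      · exact h
    have h3 : (b - a) / g = k := by rw [hk]; exact Nat.mul_div_cancel_left k hgpos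
    have h2 : -((b - a : ℕ) : ℤ) / ((g : ℕ) : ℤ) = Int.negSucc (k - 1) := by
      rw [hk]
      have : -(((g * k : ℕ)) : ℤ) = ((g : ℕ) : ℤ) * (-(k : ℤ)) := by push_cast; ring
      rw [this, Int.mul_ediv_cancel_left _ (by exact_mod_cast hgpos.ne')]
      rw [Int.negSucc_eq]
      have : ((k - 1 : ℕ) : ℤ) = (k : ℤ) - 1 := by omega
      rw [this]; ring
    rw [h2, ratComp_enc_negSucc, h3]
    omega

theorem ratComp_primrec_mkCode : Primrec (fun p : ℕ × ℕ × ℕ => ratMkCode p.1 p.2.1 p.2.2) := by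
  have ha : Primrec (fun p : ℕ × ℕ × ℕ => p.1) := Primrec.fst
  have hb : Primrec (fun p : ℕ × ℕ × ℕ => p.2.1) := Primrec.fst.comp Primrec.snd
  have hc : Primrec (fun p : ℕ × ℕ × ℕ => p.2.2 + 1) :=
    Primrec.succ.comp (Primrec.snd.comp Primrec.snd)
  have hle : PrimrecPred (fun p : ℕ × ℕ × ℕ => p.2.1 ≤ p.1) := Primrec.nat_le.comp hb ha
  have hab : Primrec (fun p : ℕ × ℕ × ℕ => p.1 - p.2.1) := Primrec.nat_sub.comp ha hb
  have hba : Primrec (fun p : ℕ × ℕ × ℕ => p.2.1 - p.1) := Primrec.nat_sub.comp hb ha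
  have hg1 : Primrec (fun p : ℕ × ℕ × ℕ => Nat.gcd (p.2.2 + 1) (p.1 - p.2.1)) :=
    ratComp_primrec_gcd.comp hc hab
  have hg2 : Primrec (fun p : ℕ × ℕ × ℕ => Nat.gcd (p.2.2 + 1) (p.2.1 - p.1)) :=
    ratComp_primrec_gcd.comp hc hba
  have h1 : Primrec (fun p : ℕ × ℕ × ℕ =>
      if p.2.1 ≤ p.1 then 2 * ((p.1 - p.2.1) / Nat.gcd (p.2.2 + 1) (p.1 - p.2.1))
        else 2 * ((p.2.1 - p.1) / Nat.gcd (p.2.2 + 1) (p.2.1 - p.1)) - 1) :=
    Primrec.ite hle (Primrec.nat_double.comp (Primrec.nat_div.comp hab hg1))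
      (Primrec.nat_sub.comp (Primrec.nat_double.comp (Primrec.nat_div.comp hba hg2))
        (Primrec.const 1))
  have h2 : Primrec (fun p : ℕ × ℕ × ℕ =>
      (p.2.2 + 1) / Nat.gcd (p.2.2 + 1) (if p.2.1 ≤ p.1 then p.1 - p.2.1 else p.2.1 - p.1)) :=
    Primrec.nat_div.comp hc (ratComp_primrec_gcd.comp hc (Primrec.ite hle hab hba))
  exact Primrec₂.natPair.comp h1 h2

theorem ratComp_primrec_mk : Primrec (fun p : ℕ × ℕ × ℕ => ratMk p.1 p.2.1 p.2.2) := by
  refine Primrec.encode_iff.1 ?_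
  have : Primrec (fun p : ℕ × ℕ × ℕ => ratRank (ratMkCode p.1 p.2.1 p.2.2)) :=
    ratComp_primrec_rank.comp ratComp_primrec_mkCode
  refine this.of_eq fun p => ?_
  show _ = @encode ℚ Rat.instDenumerable.toEncodable (ratMk p.1 p.2.1 p.2.2)
  rw [ratComp_enc_rank, ← ratComp_rat_enc, ratComp_mk_enc]

theorem ratComp_primrec_mk' {α : Type*} [Primcodable α] {f g h : α → ℕ} (hf : Primrec f)
    (hg : Primrec g) (hh : Primrec h) : Primrec (fun x => ratMk (f x) (g x) (h x)) :=
  ratComp_primrec_mk.comp (hf.pair (hg.pair hh))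

/-! ### Arithmetic on `ratMk` -/

theorem ratComp_mk_add (a b c a' b' c' : ℕ) :
    ratMk a b c + ratMk a' b' c' =
      ratMk (a * (c' + 1) + a' * (c + 1)) (b * (c' + 1) + b' * (c + 1))
        ((c + 1) * (c' + 1) - 1) := by
  unfold ratMk
  have h : (((c + 1) * (c' + 1) - 1 : ℕ) : ℚ) + 1 = ((c : ℚ) + 1) * ((c' : ℚ) + 1) := by
    have : 1 ≤ (c + 1) * (c' + 1) := Nat.succ_le_of_lt (Nat.mul_pos (Nat.succ_pos c) (Nat.succ_pos c'))
    rw [Nat.cast_sub this]; push_cast; ring
  rw [h]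
  have h1 : ((c : ℚ) + 1) ≠ 0 := by positivity
  have h2 : ((c' : ℚ) + 1) ≠ 0 := by positivity
  field_simp
  push_cast
  ring

theorem ratComp_mk_mul (a b c a' b' c' : ℕ) :
    ratMk a b c * ratMk a' b' c' =
      ratMk (a * a' + b * b') (a * b' + b * a') ((c + 1) * (c' + 1) - 1) := by
  unfold ratMk
  have h : (((c + 1) * (c' + 1) - 1 : ℕ) : ℚ) + 1 = ((c : ℚ) + 1) * ((c' : ℚ) + 1) := by
    have : 1 ≤ (c + 1) * (c' + 1) := Nat.succ_le_of_lt (Nat.mul_pos (Nat.succ_pos c) (Nat.succ_pos c'))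
    rw [Nat.cast_sub this]; push_cast; ring
  rw [h]
  have h1 : ((c : ℚ) + 1) ≠ 0 := by positivity
  have h2 : ((c' : ℚ) + 1) ≠ 0 := by positivity
  field_simp
  push_cast
  ring

theorem ratComp_mk_neg (a b c : ℕ) : -ratMk a b c = ratMk b a c := by
  unfold ratMk
  ring

theorem ratComp_mk_natCast (n : ℕ) : (n : ℚ) = ratMk n 0 0 := by
  simp [ratMk]

theorem ratComp_mk_inv (a b c : ℕ) :
    (ratMk a b c)⁻¹ = if b < a then ratMk (c + 1) 0 (a - b - 1)
      else if a < b then ratMk 0 (c + 1) (b - a - 1) else ratMk 0 0 0 := by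
  have hc : ((c : ℚ) + 1) ≠ 0 := by positivity
  by_cases h1 : b < a
  · rw [if_pos h1]
    unfold ratMk
    have h : ((a - b - 1 : ℕ) : ℚ) + 1 = (a : ℚ) - b := by
      have h2 : 1 ≤ a - b := by omega
      rw [Nat.cast_sub h2, Nat.cast_sub h1.le]; simp
    rw [h, inv_div]
    simp
  · rw [if_neg h1]
    by_cases h2 : a < b
    · rw [if_pos h2]
      unfold ratMk
      have h : ((b - a - 1 : ℕ) : ℚ) + 1 = (b : ℚ) - a := by
        have h3 : 1 ≤ b - a := by omega
        rw [Nat.cast_sub h3, Nat.cast_sub h2.le]; simp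
      rw [h, inv_div]
      have hba : ((b : ℚ) - a) ≠ 0 := by
        have : (a : ℚ) < b := by exact_mod_cast h2
        linarith
      have hab : ((a : ℚ) - b) ≠ 0 := by
        have : (a : ℚ) < b := by exact_mod_cast h2
        linarith
      field_simp
      push_cast
      ring
    · rw [if_neg h2]
      have hab : a = b := by omega
      subst hab
      simp [ratMk]

theorem ratComp_mk_le (a b c a' b' c' : ℕ) :
    ratMk a b c ≤ ratMk a' b' c' ↔
      a * (c' + 1) + b' * (c + 1) ≤ a' * (c + 1) + b * (c' + 1) := by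
  unfold ratMk
  have h1 : (0 : ℚ) < (c : ℚ) + 1 := by positivity
  have h2 : (0 : ℚ) < (c' : ℚ) + 1 := by positivity
  rw [div_le_div_iff₀ h1 h2]
  constructor
  · intro h
    have : ((a * (c' + 1) + b' * (c + 1) : ℕ) : ℚ) ≤ ((a' * (c + 1) + b * (c' + 1) : ℕ) : ℚ) := by
      push_cast; linarith
    exact_mod_cast this
  · intro h
    have : ((a * (c' + 1) + b' * (c + 1) : ℕ) : ℚ) ≤ ((a' * (c + 1) + b * (c' + 1) : ℕ) : ℚ) := by
      exact_mod_cast h
    push_cast at this; linarith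

/-! ### Primitive recursiveness of the operations of `ℚ` -/

section ops

variable {α : Type*} [Primcodable α]

theorem ratComp_primrec_natCast : Primrec (fun n : ℕ => (n : ℚ)) :=
  (ratComp_primrec_mk' Primrec.id (Primrec.const 0) (Primrec.const 0)).of_eq
    fun n => (ratComp_mk_natCast n).symm

theorem ratComp_primrec_add : Primrec₂ ((· + ·) : ℚ → ℚ → ℚ) := by
  have hP1 : Primrec (fun p : ℚ × ℚ => ratP p.1) := ratComp_primrec_P.comp Primrec.fst
  have hN1 : Primrec (fun p : ℚ × ℚ => ratN p.1) := ratComp_primrec_N.comp Primrec.fst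
  have hD1 : Primrec (fun p : ℚ × ℚ => ratD p.1 + 1) :=
    Primrec.succ.comp (ratComp_primrec_D.comp Primrec.fst)
  have hP2 : Primrec (fun p : ℚ × ℚ => ratP p.2) := ratComp_primrec_P.comp Primrec.snd
  have hN2 : Primrec (fun p : ℚ × ℚ => ratN p.2) := ratComp_primrec_N.comp Primrec.snd
  have hD2 : Primrec (fun p : ℚ × ℚ => ratD p.2 + 1) :=
    Primrec.succ.comp (ratComp_primrec_D.comp Primrec.snd)
  have := ratComp_primrec_mk'
    (Primrec.nat_add.comp (Primrec.nat_mul.comp hP1 hD2) (Primrec.nat_mul.comp hP2 hD1))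
    (Primrec.nat_add.comp (Primrec.nat_mul.comp hN1 hD2) (Primrec.nat_mul.comp hN2 hD1))
    (Primrec.nat_sub.comp (Primrec.nat_mul.comp hD1 hD2) (Primrec.const 1))
  refine this.of_eq fun p => ?_
  rw [← ratComp_mk_add, ratComp_mk_PND, ratComp_mk_PND]

theorem ratComp_primrec_mul : Primrec₂ ((· * ·) : ℚ → ℚ → ℚ) := by
  have hP1 : Primrec (fun p : ℚ × ℚ => ratP p.1) := ratComp_primrec_P.comp Primrec.fst
  have hN1 : Primrec (fun p : ℚ × ℚ => ratN p.1) := ratComp_primrec_N.comp Primrec.fst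
  have hD1 : Primrec (fun p : ℚ × ℚ => ratD p.1 + 1) :=
    Primrec.succ.comp (ratComp_primrec_D.comp Primrec.fst)
  have hP2 : Primrec (fun p : ℚ × ℚ => ratP p.2) := ratComp_primrec_P.comp Primrec.snd
  have hN2 : Primrec (fun p : ℚ × ℚ => ratN p.2) := ratComp_primrec_N.comp Primrec.snd
  have hD2 : Primrec (fun p : ℚ × ℚ => ratD p.2 + 1) :=
    Primrec.succ.comp (ratComp_primrec_D.comp Primrec.snd)
  have := ratComp_primrec_mk'
    (Primrec.nat_add.comp (Primrec.nat_mul.comp hP1 hP2) (Primrec.nat_mul.comp hN1 hN2))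
    (Primrec.nat_add.comp (Primrec.nat_mul.comp hP1 hN2) (Primrec.nat_mul.comp hN1 hP2))
    (Primrec.nat_sub.comp (Primrec.nat_mul.comp hD1 hD2) (Primrec.const 1))
  refine this.of_eq fun p => ?_
  rw [← ratComp_mk_mul, ratComp_mk_PND, ratComp_mk_PND]

theorem ratComp_primrec_neg : Primrec (fun q : ℚ => -q) := by
  have := ratComp_primrec_mk' ratComp_primrec_N ratComp_primrec_P ratComp_primrec_D
  refine this.of_eq fun q => ?_
  rw [← ratComp_mk_neg, ratComp_mk_PND]

theorem ratComp_primrec_sub : Primrec₂ ((· - ·) : ℚ → ℚ → ℚ) := by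
  have : Primrec₂ (fun a b : ℚ => a + -b) :=
    ratComp_primrec_add.comp₂ Primrec₂.left (ratComp_primrec_neg.comp₂ Primrec₂.right)
  exact this.of_eq fun a b => (sub_eq_add_neg a b).symm

theorem ratComp_primrec_inv : Primrec (fun q : ℚ => q⁻¹) := by
  have hP := ratComp_primrec_P
  have hN := ratComp_primrec_N
  have hD1 : Primrec (fun q : ℚ => ratD q + 1) := Primrec.succ.comp ratComp_primrec_D
  have h1 : Primrec (fun q : ℚ => ratMk (ratD q + 1) 0 (ratP q - ratN q - 1)) :=
    ratComp_primrec_mk' hD1 (Primrec.const 0)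
      (Primrec.nat_sub.comp (Primrec.nat_sub.comp hP hN) (Primrec.const 1))
  have h2 : Primrec (fun q : ℚ => ratMk 0 (ratD q + 1) (ratN q - ratP q - 1)) :=
    ratComp_primrec_mk' (Primrec.const 0) hD1
      (Primrec.nat_sub.comp (Primrec.nat_sub.comp hN hP) (Primrec.const 1))
  have h3 : Primrec (fun q : ℚ => if ratN q < ratP q then ratMk (ratD q + 1) 0 (ratP q - ratN q - 1)
      else if ratP q < ratN q then ratMk 0 (ratD q + 1) (ratN q - ratP q - 1) else ratMk 0 0 0) :=
    Primrec.ite (Primrec.nat_lt.comp hN hP) h1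
      (Primrec.ite (Primrec.nat_lt.comp hP hN) h2 (Primrec.const _))
  refine h3.of_eq fun q => ?_
  rw [← ratComp_mk_inv, ratComp_mk_PND]

theorem ratComp_primrec_div : Primrec₂ ((· / ·) : ℚ → ℚ → ℚ) := by
  have : Primrec₂ (fun a b : ℚ => a * b⁻¹) :=
    ratComp_primrec_mul.comp₂ Primrec₂.left (ratComp_primrec_inv.comp₂ Primrec₂.right)
  exact this.of_eq fun a b => (div_eq_mul_inv a b).symm

theorem ratComp_primrec_le : PrimrecRel ((· ≤ ·) : ℚ → ℚ → Prop) := by
  have hP1 : Primrec (fun p : ℚ × ℚ => ratP p.1) := ratComp_primrec_P.comp Primrec.fst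
  have hN1 : Primrec (fun p : ℚ × ℚ => ratN p.1) := ratComp_primrec_N.comp Primrec.fst
  have hD1 : Primrec (fun p : ℚ × ℚ => ratD p.1 + 1) :=
    Primrec.succ.comp (ratComp_primrec_D.comp Primrec.fst)
  have hP2 : Primrec (fun p : ℚ × ℚ => ratP p.2) := ratComp_primrec_P.comp Primrec.snd
  have hN2 : Primrec (fun p : ℚ × ℚ => ratN p.2) := ratComp_primrec_N.comp Primrec.snd
  have hD2 : Primrec (fun p : ℚ × ℚ => ratD p.2 + 1) :=
    Primrec.succ.comp (ratComp_primrec_D.comp Primrec.snd)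
  have h : PrimrecPred (fun p : ℚ × ℚ =>
      ratP p.1 * (ratD p.2 + 1) + ratN p.2 * (ratD p.1 + 1) ≤
        ratP p.2 * (ratD p.1 + 1) + ratN p.1 * (ratD p.2 + 1)) :=
    Primrec.nat_le.comp
      (Primrec.nat_add.comp (Primrec.nat_mul.comp hP1 hD2) (Primrec.nat_mul.comp hN2 hD1))
      (Primrec.nat_add.comp (Primrec.nat_mul.comp hP2 hD1) (Primrec.nat_mul.comp hN1 hD2))
  refine PrimrecPred.of_eq h fun p => ?_
  rw [← ratComp_mk_le, ratComp_mk_PND, ratComp_mk_PND]

theorem ratComp_primrec_lt : PrimrecRel ((· < ·) : ℚ → ℚ → Prop) :=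
  (ratComp_primrec_le.comp₂ Primrec₂.right Primrec₂.left).not.of_eq fun a b => by simp

theorem ratComp_primrec_pow : Primrec₂ (fun (q : ℚ) (n : ℕ) => q ^ n) := by
  have h : Primrec₂ (fun (q : ℚ) (n : ℕ) => Nat.rec (motive := fun _ => ℚ) 1 (fun _ r => r * q) n) :=
    Primrec.nat_rec' (f := fun p : ℚ × ℕ => p.2) (g := fun _ => (1 : ℚ))
      (h := fun (p : ℚ × ℕ) (r : ℕ × ℚ) => r.2 * p.1) Primrec.snd (Primrec.const 1)
      (ratComp_primrec_mul.comp₂ (Primrec.snd.comp₂ Primrec₂.right)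
        (Primrec.fst.comp₂ Primrec₂.left))
  refine h.of_eq fun q n => ?_
  induction n with
  | zero => simp
  | succ n ih => simp only [ih, pow_succ]

theorem ratComp_primrec_abs : Primrec (fun q : ℚ => |q|) := by
  have : Primrec (fun q : ℚ => if q ≤ 0 then -q else q) :=
    Primrec.ite (ratComp_primrec_le.comp Primrec.id (Primrec.const 0)) ratComp_primrec_neg
      Primrec.id
  refine this.of_eq fun q => ?_
  split_ifs with h
  · exact (abs_of_nonpos h).symm
  · exact (abs_of_pos (not_le.mp h)).symm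

/-- A primitive recursive natural upper bound for `|q|`. -/
def ratUB (q : ℚ) : ℕ := ratP q + ratN q

theorem ratComp_primrec_UB : Primrec ratUB :=
  Primrec.nat_add.comp ratComp_primrec_P ratComp_primrec_N

theorem ratComp_abs_le_UB (q : ℚ) : |q| ≤ (ratUB q : ℚ) := by
  have h := ratComp_mk_PND q
  have hd : (1 : ℚ) ≤ (ratD q : ℚ) + 1 := by
    have : (0 : ℚ) ≤ (ratD q : ℚ) := Nat.cast_nonneg _
    linarith
  have hP : (0 : ℚ) ≤ (ratP q : ℚ) := Nat.cast_nonneg _
  have hN : (0 : ℚ) ≤ (ratN q : ℚ) := Nat.cast_nonneg _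
  have hq : |q| = |(ratP q : ℚ) - (ratN q : ℚ)| / ((ratD q : ℚ) + 1) := by
    conv_lhs => rw [← h]
    unfold ratMk
    rw [abs_div, abs_of_pos (by linarith : (0 : ℚ) < (ratD q : ℚ) + 1)]
  rw [hq]
  unfold ratUB
  have h1 : |(ratP q : ℚ) - (ratN q : ℚ)| ≤ (ratP q : ℚ) + (ratN q : ℚ) := by
    rw [abs_le]; constructor <;> linarith
  calc |(ratP q : ℚ) - (ratN q : ℚ)| / ((ratD q : ℚ) + 1)
      ≤ |(ratP q : ℚ) - (ratN q : ℚ)| / 1 :=
        div_le_div_of_nonneg_left (abs_nonneg _) one_pos hd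
    _ ≤ ((ratP q + ratN q : ℕ) : ℚ) := by rw [div_one]; push_cast; exact h1

end ops

end Crest.Agent.S0170
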