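import Mathlib
import Crest.Prelude.Def_BoxFlow
import Crest.Agent.S0170Lib.RatComp

/-!
# S0170 (box flows): shared definitions

See `Crest/Agent/S0170Lib/README.md` for the plan.  Nothing here is proved; the files
`Approx`, `ExpApprox`, `StepBound`, `FinDiff`, `Eff1`, `Sep`, `MoveField`, `Flow`, `Plan*`
prove the interface lemmas stated against these definitions.
-/

set_option autoImplicit false
open scoped ContDiff
open Crest.AnalysisR.BoxFlow

namespace Crest.Agent.S0170

/-! ### Primitive-recursive approximation of real-valued functions -/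

/-- `f : α → ℝ` is approximable by a primitive recursive rational function:
`|f a - A a n| ≤ 1/(n+1)`. -/
def RApprox {α : Type*} [Primcodable α] (f : α → ℝ) : Prop :=
  ∃ A : α → ℕ → ℚ, Primrec₂ A ∧ ∀ a n, |f a - (A a n : ℝ)| ≤ 1 / ((n : ℝ) + 1)

/-- An effective smooth function of one real variable: smooth, all iterated derivatives bounded
by a primitive recursive sequence, values at rational points primitive-recursively approximable. -/
structure Eff1 (f : ℝ → ℝ) : Prop where
  smooth : ContDiff ℝ ∞ f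
  bound : ∃ B : ℕ → ℕ, Primrec B ∧ ∀ k x, |iteratedDeriv k f x| ≤ (B k : ℝ)
  approx : RApprox (fun q : ℚ => f (q : ℝ))

/-! ### Scalar functions on space-time -/

/-- Space-time `ℝ × (Fin 3 → ℝ)`. -/
abbrev ST : Type := ℝ × (Fin 3 → ℝ)

/-- Scalar version of `mixedDeriv`. -/
noncomputable def mixedDerivR : List (Fin 4) → (ST → ℝ) → (ST → ℝ)
  | [], u => u
  | d :: ds, u => fun p => fderiv ℝ (mixedDerivR ds u) p (direction d)

/-- An effective smooth scalar function on space-time. -/
structure EffR (u : ST → ℝ) : Prop where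
  smooth : ContDiff ℝ ∞ u
  eff : ∃ (E : List (Fin 4) × (ℚ × (Fin 3 → ℚ)) × ℕ → ℚ) (B : List (Fin 4) → ℕ),
    Primrec E ∧ Primrec B ∧
    (∀ (ds : List (Fin 4)) (t : ℚ) (q : Fin 3 → ℚ) (n : ℕ),
      |mixedDerivR ds u ((t : ℝ), ratPoint q) - (E (ds, (t, q), n) : ℝ)| ≤ 1 / ((n : ℝ) + 1)) ∧
    (∀ (ds : List (Fin 4)) (p : ST), |mixedDerivR ds u p| ≤ (B ds : ℝ))

/-- A separable function `c · T(t) · F₀(x₀) · F₁(x₁) · F₂(x₂)`. -/
def sep (c : ℝ) (T : ℝ → ℝ) (F : Fin 3 → ℝ → ℝ) : ST → ℝ :=
  fun p => c * T p.1 * (F 0 (p.2 0) * F 1 (p.2 1) * F 2 (p.2 2))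

/-! ### Moves -/

/-- The plateau function: `1` on `[lo + δ, hi - δ]`, `0` outside `(lo, hi)`. -/
noncomputable def plateau (lo hi δ : ℚ) (x : ℝ) : ℝ :=
  Real.smoothTransition ((x - lo) / δ) * Real.smoothTransition ((hi - x) / δ)

/-- An elementary move: on the plateau box `∏ (lo i + δ, hi i - δ)` the velocity field is
`(v + c (x_l - o)) e_k` (a translation along `e_k` with speed `v` plus a shear), and it vanishes
outside the support box `∏ [lo i, hi i]`. -/
structure Move where
  k : Fin 3
  l : Fin 3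
  v : ℚ
  c : ℚ
  o : ℚ
  lo : Fin 3 → ℚ
  hi : Fin 3 → ℚ
  δ : ℚ

namespace Move

/-- Well-formedness. -/
def WF (M : Move) : Prop := M.k ≠ M.l ∧ 0 < M.δ

/-- The plateau function of axis `i`. -/
noncomputable def p (M : Move) (i : Fin 3) : ℝ → ℝ := plateau (M.lo i) (M.hi i) M.δ

/-- The polynomial `v (x - o) + (c/2) (x - o)²`. -/
noncomputable def q (M : Move) (x : ℝ) : ℝ := M.v * (x - M.o) + M.c / 2 * (x - M.o) ^ 2

/-- The `l`-factor of the stream function. -/
noncomputable def g (M : Move) (x : ℝ) : ℝ := M.q x * M.p M.l x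

/-- Product of three one-variable functions. -/
def prod3 (F : Fin 3 → ℝ → ℝ) (x : Fin 3 → ℝ) : ℝ := F 0 (x 0) * F 1 (x 1) * F 2 (x 2)

/-- The autonomous velocity field of the move: `∂_l Ψ e_k - ∂_k Ψ e_l` for the stream function
`Ψ(x) = g(x_l) ∏_{i ≠ l} p_i(x_i)`. -/
noncomputable def W (M : Move) (x : Fin 3 → ℝ) : Fin 3 → ℝ := fun i =>
  if i = M.k then prod3 (Function.update M.p M.l (deriv M.g)) x
  else if i = M.l then
    - prod3 (Function.update (Function.update M.p M.k (deriv (M.p M.k))) M.l M.g) x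
  else 0

/-- Open plateau box. -/
def inP (M : Move) (y : Fin 3 → ℝ) : Prop :=
  ∀ i, ((M.lo i : ℝ) + M.δ < y i) ∧ (y i < (M.hi i : ℝ) - M.δ)

/-- Complement of the open support box. -/
def outQ (M : Move) (y : Fin 3 → ℝ) : Prop :=
  ∃ i, y i ≤ (M.lo i : ℝ) ∨ (M.hi i : ℝ) ≤ y i

/-- The affine flow of the move for "time" `s`. -/
noncomputable def flow (M : Move) (s : ℝ) (y : Fin 3 → ℝ) : Fin 3 → ℝ :=
  Function.update y M.k (y M.k + s * ((M.v : ℝ) + M.c * (y M.l - M.o)))

/-- The point `y` is handled correctly by the move: either its whole trajectory stays in the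
plateau box, or it is outside the support box. -/
def ok (M : Move) (y : Fin 3 → ℝ) : Prop :=
  (∀ s ∈ Set.Icc (0 : ℝ) 1, M.inP (M.flow s y)) ∨ M.outQ y

open Classical in
/-- Position after the move. -/
noncomputable def next (M : Move) (y : Fin 3 → ℝ) : Fin 3 → ℝ :=
  if M.inP y then M.flow 1 y else y

/-- The time profile of slot `m` out of `N`: rises from `0` to `1` on
`[1/4 + m/(2N), 1/4 + (m+1)/(2N)]`. -/
noncomputable def slotS (N m : ℕ) (t : ℝ) : ℝ :=
  Real.smoothTransition (2 * (N : ℝ) * (t - 1 / 4) - m)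

/-- The time-dependent velocity field of the move in slot `m` out of `N`. -/
noncomputable def U (M : Move) (N m : ℕ) : Field :=
  fun p => deriv (slotS N m) p.1 • M.W p.2

end Move

/-- A point is handled correctly by a plan (list of moves). -/
def planValid : List Move → (Fin 3 → ℝ) → Prop
  | [], _ => True
  | M :: Ms, y => M.ok y ∧ planValid Ms (M.next y)

/-- Final position of a point under a plan. -/
noncomputable def planFinal : List Move → (Fin 3 → ℝ) → (Fin 3 → ℝ)
  | [], y => y
  | M :: Ms, y => planFinal Ms (M.next y)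

/-- The velocity field of a plan. -/
noncomputable def planU (Ms : List Move) : Field :=
  fun p => ∑ m : Fin Ms.length, (Ms.get m).U Ms.length m p

end Crest.Agent.S0170
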