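import Crest.Agent.S0170Lib.Approx

/-!
# S0170: primitive-recursive approximation of `Real.smoothTransition` at rational points
-/

set_option autoImplicit false

namespace Crest.Agent.S0170

theorem expApprox_primrec_factorial : Primrec Nat.factorial := by
  have h : Primrec (fun n : ℕ => Nat.rec (motive := fun _ => ℕ) 1 (fun i ih => (i + 1) * ih) n) :=
    Primrec.nat_rec' (f := fun n : ℕ => n) (g := fun _ => 1)
      (h := fun (_ : ℕ) (r : ℕ × ℕ) => (r.1 + 1) * r.2) Primrec.id (Primrec.const 1)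
      (Primrec.nat_mul.comp₂ (Primrec.succ.comp₂ (Primrec.fst.comp₂ Primrec₂.right))
        (Primrec.snd.comp₂ Primrec₂.right))
  refine h.of_eq fun n => ?_
  induction n with
  | zero => rfl
  | succ n ih => simp only [ih, Nat.factorial_succ]

/-- Partial sums of the exponential series. -/
def expSum (y : ℚ) (N : ℕ) : ℚ := ∑ j ∈ Finset.range N, y ^ j / (j.factorial : ℚ)

theorem expApprox_primrec_expSum : Primrec₂ expSum := by
  have hterm : Primrec₂ (fun (y : ℚ) (r : ℕ × ℚ) => r.2 + y ^ r.1 / (r.1.factorial : ℚ)) := by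
    refine ratComp_primrec_add.comp₂ (Primrec.snd.comp₂ Primrec₂.right) ?_
    refine ratComp_primrec_div.comp₂ ?_ ?_
    · exact ratComp_primrec_pow.comp₂ Primrec₂.left (Primrec.fst.comp₂ Primrec₂.right)
    · exact ratComp_primrec_natCast.comp₂
        (expApprox_primrec_factorial.comp₂ (Primrec.fst.comp₂ Primrec₂.right))
  have h : Primrec (fun p : ℚ × ℕ =>
      Nat.rec (motive := fun _ => ℚ) 0 (fun i ih => ih + p.1 ^ i / (i.factorial : ℚ)) p.2) :=
    Primrec.nat_rec' (f := fun p : ℚ × ℕ => p.2) (g := fun _ => (0 : ℚ))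
      (h := fun (p : ℚ × ℕ) (r : ℕ × ℚ) => r.2 + p.1 ^ r.1 / (r.1.factorial : ℚ))
      Primrec.snd (Primrec.const 0) (hterm.comp₂ (Primrec.fst.comp₂ Primrec₂.left) Primrec₂.right)
  refine h.of_eq fun p => ?_
  obtain ⟨y, N⟩ := p
  simp only
  induction N with
  | zero => simp [expSum]
  | succ N ih => rw [expSum, Finset.sum_range_succ, ← expSum, ← ih]

/-- Clamp to `[0, 1]`. -/
def clamp01 (y : ℚ) : ℚ := if y ≤ 0 then 0 else if 1 ≤ y then 1 else y

theorem expApprox_primrec_clamp : Primrec clamp01 :=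
  Primrec.ite (ratComp_primrec_le.comp Primrec.id (Primrec.const 0)) (Primrec.const 0)
    (Primrec.ite (ratComp_primrec_le.comp (Primrec.const 1) Primrec.id) (Primrec.const 1)
      Primrec.id)

theorem expApprox_clamp_mem (y : ℚ) : 0 ≤ clamp01 y ∧ clamp01 y ≤ 1 := by
  unfold clamp01
  split_ifs with h1 h2
  · exact ⟨le_rfl, zero_le_one⟩
  · exact ⟨zero_le_one, le_rfl⟩
  · exact ⟨(not_le.mp h1).le, (not_le.mp h2).le⟩

theorem expApprox_clamp_dist {a : ℝ} (ha0 : 0 ≤ a) (ha1 : a ≤ 1) (y : ℚ) :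
    |a - (clamp01 y : ℝ)| ≤ |a - (y : ℝ)| := by
  unfold clamp01
  split_ifs with h1 h2
  · have : (y : ℝ) ≤ 0 := by exact_mod_cast h1
    push_cast
    rw [abs_of_nonneg (by linarith : 0 ≤ a - 0), abs_of_nonneg (by linarith : 0 ≤ a - (y : ℝ))]
    linarith
  · have : (1 : ℝ) ≤ (y : ℝ) := by exact_mod_cast h2
    push_cast
    rw [abs_of_nonpos (by linarith : a - 1 ≤ 0), abs_of_nonpos (by linarith : a - (y : ℝ) ≤ 0)]
    linarith
  · exact le_rfl

theorem expApprox_pow_sub_pow {a c : ℝ} (ha0 : 0 ≤ a) (ha1 : a ≤ 1) (hc0 : 0 ≤ c) (hc1 : c ≤ 1)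
    (m : ℕ) : |a ^ m - c ^ m| ≤ m * |a - c| := by
  induction m with
  | zero => simp
  | succ m ih =>
    have h1 : a ^ (m + 1) - c ^ (m + 1) = a * (a ^ m - c ^ m) + c ^ m * (a - c) := by ring
    have h2 : |a * (a ^ m - c ^ m)| ≤ |a ^ m - c ^ m| := by
      rw [abs_mul, abs_of_nonneg ha0]
      exact mul_le_of_le_one_left (abs_nonneg _) ha1
    have h3 : |c ^ m * (a - c)| ≤ |a - c| := by
      rw [abs_mul, abs_of_nonneg (pow_nonneg hc0 m)]
      exact mul_le_of_le_one_left (abs_nonneg _) (pow_le_one₀ hc0 hc1)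
    rw [h1]
    push_cast
    calc |a * (a ^ m - c ^ m) + c ^ m * (a - c)|
        ≤ |a * (a ^ m - c ^ m)| + |c ^ m * (a - c)| := abs_add_le _ _
      _ ≤ m * |a - c| + |a - c| := by linarith
      _ = (m + 1) * |a - c| := by ring

/-- `exp (-|r|)` is approximable. -/
theorem rapprox_exp_neg_abs : RApprox (fun r : ℚ => Real.exp (-|(r : ℝ)|)) := by
  -- m = ratUB r + 1, N = 2 m (n+1), approximant (clamp (expSum (-|r|/m) N))^m
  refine ⟨fun r n => (clamp01 (expSum (-|r| / ((ratUB r + 1 : ℕ) : ℚ))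
      (2 * (ratUB r + 1) * (n + 1)))) ^ (ratUB r + 1), ?_, fun r n => ?_⟩
  · have hm : Primrec₂ (fun (r : ℚ) (_ : ℕ) => ratUB r + 1) :=
      Primrec.succ.comp₂ (ratComp_primrec_UB.comp₂ Primrec₂.left)
    have hN : Primrec₂ (fun (r : ℚ) (n : ℕ) => 2 * (ratUB r + 1) * (n + 1)) :=
      Primrec.nat_mul.comp₂ (Primrec.nat_double.comp₂ hm) (Primrec.succ.comp₂ Primrec₂.right)
    have hy : Primrec₂ (fun (r : ℚ) (_ : ℕ) => -|r| / ((ratUB r + 1 : ℕ) : ℚ)) :=
      ratComp_primrec_div.comp₂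
        (ratComp_primrec_neg.comp₂ (ratComp_primrec_abs.comp₂ Primrec₂.left))
        (ratComp_primrec_natCast.comp₂ hm)
    exact ratComp_primrec_pow.comp₂
      (expApprox_primrec_clamp.comp₂ (expApprox_primrec_expSum.comp₂ hy hN)) hm
  · beta_reduce
    set m := ratUB r + 1 with hm
    set N := 2 * m * (n + 1) with hN
    have hmpos : (0 : ℝ) < (m : ℝ) := by rw [hm]; positivity
    have hrm : |(r : ℝ)| ≤ (m : ℝ) := by
      have h1 := ratComp_abs_le_UB r
      have h2 : ((|r| : ℚ) : ℝ) ≤ ((ratUB r : ℚ) : ℝ) := by exact_mod_cast h1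
      have h3 : |(r : ℝ)| ≤ (ratUB r : ℝ) := by simpa using h2
      rw [hm]; push_cast; linarith
    set x : ℝ := -|(r : ℝ)| / m with hx
    have hx1 : |x| ≤ 1 := by
      rw [hx, abs_div, abs_neg, abs_abs, abs_of_pos hmpos, div_le_one hmpos]
      exact hrm
    have hNpos : 0 < N := by rw [hN, hm]; positivity
    have hexp : Real.exp (-|(r : ℝ)|) = Real.exp x ^ m := by
      rw [← Real.exp_nat_mul, hx]
      congr 1
      field_simp
    have hsum : ((expSum (-|r| / ((m : ℕ) : ℚ)) N : ℚ) : ℝ)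
        = ∑ j ∈ Finset.range N, x ^ j / (j.factorial : ℝ) := by
      unfold expSum
      push_cast
      rfl
    have hb := Real.exp_bound hx1 hNpos
    rw [← hsum] at hb
    have hxN : |x| ^ N ≤ 1 := pow_le_one₀ (abs_nonneg _) hx1
    have hfac : (N : ℝ) ≤ (N.factorial : ℝ) := by exact_mod_cast Nat.self_le_factorial N
    have hNR : (0 : ℝ) < (N : ℝ) := by exact_mod_cast hNpos
    have hδ : |Real.exp x - (expSum (-|r| / ((m : ℕ) : ℚ)) N : ℝ)| ≤ 2 / N := by
      refine hb.trans ?_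
      have h1 : ((N.succ : ℕ) : ℝ) / ((N.factorial : ℝ) * N) ≤ 2 / N := by
        rw [div_le_div_iff₀ (by positivity) hNR]
        have h2 : ((N.succ : ℕ) : ℝ) ≤ 2 * N := by
          push_cast
          have : (1 : ℝ) ≤ N := by exact_mod_cast hNpos
          linarith
        nlinarith
      calc |x| ^ N * (((N.succ : ℕ) : ℝ) / ((N.factorial : ℝ) * N))
          ≤ 1 * (((N.succ : ℕ) : ℝ) / ((N.factorial : ℝ) * N)) :=
            mul_le_mul_of_nonneg_right hxN (by positivity)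
        _ ≤ 2 / N := by rw [one_mul]; exact h1
    have hex0 : 0 ≤ Real.exp x := (Real.exp_pos x).le
    have hex1 : Real.exp x ≤ 1 := by
      rw [Real.exp_le_one_iff, hx]
      exact div_nonpos_of_nonpos_of_nonneg (neg_nonpos.mpr (abs_nonneg _)) hmpos.le
    obtain ⟨hc0, hc1⟩ := expApprox_clamp_mem (expSum (-|r| / ((m : ℕ) : ℚ)) N)
    have hc0' : (0 : ℝ) ≤ (clamp01 (expSum (-|r| / ((m : ℕ) : ℚ)) N) : ℝ) := by exact_mod_cast hc0
    have hc1' : (clamp01 (expSum (-|r| / ((m : ℕ) : ℚ)) N) : ℝ) ≤ 1 := by exact_mod_cast hc1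
    have hcl := expApprox_clamp_dist hex0 hex1 (expSum (-|r| / ((m : ℕ) : ℚ)) N)
    have hpw := expApprox_pow_sub_pow hex0 hex1 hc0' hc1' m
    rw [hexp]
    push_cast
    have hn : (0 : ℝ) < (n : ℝ) + 1 := by positivity
    calc |Real.exp x ^ m - (clamp01 (expSum (-|r| / ((m : ℕ) : ℚ)) N) : ℝ) ^ m|
        ≤ m * |Real.exp x - (clamp01 (expSum (-|r| / ((m : ℕ) : ℚ)) N) : ℝ)| := hpw
      _ ≤ m * (2 / N) := by
          exact mul_le_mul_of_nonneg_left (hcl.trans hδ) hmpos.le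
      _ = 1 / ((n : ℝ) + 1) := by
          rw [hN]; push_cast; field_simp

/-- `expNegInvGlue` is approximable at rational points. -/
theorem rapprox_expNegInvGlue : RApprox (fun q : ℚ => expNegInvGlue (q : ℝ)) := by
  have h1 : RApprox (fun q : ℚ => Real.exp (-|((q⁻¹ : ℚ) : ℝ)|)) :=
    rapprox_exp_neg_abs.comp ratComp_primrec_inv
  have h2 : RApprox (fun q : ℚ => if q ≤ 0 then ((0 : ℚ) : ℝ) else Real.exp (-|((q⁻¹ : ℚ) : ℝ)|)) :=
    RApprox.ite (ratComp_primrec_le.comp Primrec.id (Primrec.const 0)) (RApprox.const 0) h1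
  refine h2.of_eq fun q => ?_
  by_cases hq : q ≤ 0
  · have : (q : ℝ) ≤ 0 := by exact_mod_cast hq
    rw [if_pos hq, expNegInvGlue.zero_of_nonpos this]; simp
  · have hq' : (0 : ℝ) < (q : ℝ) := by exact_mod_cast (not_le.mp hq)
    rw [if_neg hq]
    unfold expNegInvGlue
    rw [if_neg (not_le.mpr hq')]
    push_cast
    rw [abs_of_pos (inv_pos.mpr hq')]

theorem expApprox_denom_ge (x : ℝ) : (1 / 8 : ℝ) ≤ expNegInvGlue x + expNegInvGlue (1 - x) := by
  have he : Real.exp (-2) ≥ 1 / 8 := by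
    rw [Real.exp_neg, ge_iff_le, one_div, inv_le_inv₀ (by norm_num) (Real.exp_pos 2)]
    have h1 : Real.exp 2 = Real.exp 1 * Real.exp 1 := by rw [← Real.exp_add]; norm_num
    have h2 := Real.exp_one_lt_d9
    have h3 := Real.exp_pos 1
    rw [h1]; nlinarith
  rcases le_or_gt x (1 / 2) with h | h
  · have h1 : (0 : ℝ) < 1 - x := by linarith
    have h2 : expNegInvGlue (1 - x) = Real.exp (-(1 - x)⁻¹) := by
      unfold expNegInvGlue; rw [if_neg (not_le.mpr h1)]
    have h3 : (1 - x)⁻¹ ≤ 2 := by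
      rw [inv_le_comm₀ h1 (by norm_num)]; linarith
    have h4 : Real.exp (-2) ≤ Real.exp (-(1 - x)⁻¹) := Real.exp_le_exp.mpr (by linarith)
    have := expNegInvGlue.nonneg x
    rw [h2]; linarith
  · have h1 : (0 : ℝ) < x := by linarith
    have h2 : expNegInvGlue x = Real.exp (-x⁻¹) := by
      unfold expNegInvGlue; rw [if_neg (not_le.mpr h1)]
    have h3 : x⁻¹ ≤ 2 := by
      rw [inv_le_comm₀ h1 (by norm_num)]; linarith
    have h4 : Real.exp (-2) ≤ Real.exp (-x⁻¹) := Real.exp_le_exp.mpr (by linarith)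
    have := expNegInvGlue.nonneg (1 - x)
    rw [h2]; linarith

theorem rapprox_smoothTransition : RApprox (fun q : ℚ => Real.smoothTransition (q : ℝ)) := by
  have h1 := rapprox_expNegInvGlue
  have h2 : RApprox (fun q : ℚ => expNegInvGlue (((1 - q : ℚ)) : ℝ)) :=
    rapprox_expNegInvGlue.comp (ratComp_primrec_sub.comp (Primrec.const 1) Primrec.id)
  have h3 := RApprox.div_of_le h1 (h1.add h2) (c := 1 / 8) (by norm_num) (fun q => by
    have := expApprox_denom_ge (q : ℝ)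
    push_cast
    linarith)
  refine h3.of_eq fun q => ?_
  unfold Real.smoothTransition
  push_cast
  rfl

end Crest.Agent.S0170
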