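import Crest.Agent.S0170Lib.Approx
import Crest.Agent.S0170Lib.ExpApprox

/-!
# S0170: all derivatives of an effective one-variable function are uniformly approximable
(finite differences; no symbolic differentiation)
-/

set_option autoImplicit false
open scoped ContDiff

namespace Crest.Agent.S0170

/-! ### The analytic error bound for iterated forward differences -/

theorem finDiff_mvt {φ : ℝ → ℝ} (hφ : Differentiable ℝ φ) {C : ℝ} (hC : ∀ x, |deriv φ x| ≤ C)
    (x y : ℝ) : |φ y - φ x| ≤ C * |y - x| := by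
  have := Convex.norm_image_sub_le_of_norm_deriv_le (f := φ) (s := Set.univ) (x := x) (y := y)
    (fun z _ => hφ z) (fun z _ => by simpa using hC z) convex_univ (Set.mem_univ _) (Set.mem_univ _)
  simpa using this

theorem finDiff_iteratedDeriv_differentiable {f : ℝ → ℝ} (hf : ContDiff ℝ ∞ f) (k : ℕ) :
    Differentiable ℝ (iteratedDeriv k f) :=
  hf.differentiable_iteratedDeriv k (by exact_mod_cast ENat.natCast_lt_top k)

theorem finDiff_quot_contDiff {f : ℝ → ℝ} (hf : ContDiff ℝ ∞ f) (h : ℝ) :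
    ContDiff ℝ ∞ (fun y => (f (y + h) - f y) / h) := by
  have h1 : ContDiff ℝ ∞ (fun y : ℝ => f (y + h)) := hf.comp (contDiff_id.add contDiff_const)
  exact (h1.sub hf).div_const h

theorem finDiff_quot_iteratedDeriv {f : ℝ → ℝ} (hf : ContDiff ℝ ∞ f) (h : ℝ) (j : ℕ) (y : ℝ) :
    iteratedDeriv j (fun y => (f (y + h) - f y) / h) y
      = (iteratedDeriv j f (y + h) - iteratedDeriv j f y) / h := by
  have h1 : ContDiff ℝ ∞ (fun y : ℝ => f (y + h)) := hf.comp (contDiff_id.add contDiff_const)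
  rw [iteratedDeriv_div_const]
  have h2 : (fun y : ℝ => f (y + h) - f y) = (fun y : ℝ => f (y + h)) - f := rfl
  rw [h2, iteratedDeriv_sub (h1.contDiffAt.of_le (by exact_mod_cast le_top))
    (hf.contDiffAt.of_le (by exact_mod_cast le_top)), iteratedDeriv_comp_add_const]

theorem finDiff_error (h : ℝ) (hh : 0 < h) : ∀ (k : ℕ) (f : ℝ → ℝ), ContDiff ℝ ∞ f →
    ∀ M : ℝ, (∀ x, |iteratedDeriv (k + 1) f x| ≤ M) →
    ∀ x, |(fwdDiff h)^[k] f x / h ^ k - iteratedDeriv k f x| ≤ k * h * M := by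
  intro k
  induction k with
  | zero =>
    intro f _ M _ x
    simp
  | succ k ih =>
    intro f hf M hM x
    set g : ℝ → ℝ := fun y => (f (y + h) - f y) / h with hg
    have hgs : ContDiff ℝ ∞ g := finDiff_quot_contDiff hf h
    have hM0 : 0 ≤ M := le_trans (abs_nonneg _) (hM x)
    -- derivative identities
    have hd1 : ∀ j, Differentiable ℝ (iteratedDeriv j f) := finDiff_iteratedDeriv_differentiable hf
    have hd2 : ∀ j y, deriv (iteratedDeriv j f) y = iteratedDeriv (j + 1) f y := by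
      intro j y; rw [iteratedDeriv_succ]
    -- bound for g^(k+1)
    have hgM : ∀ y, |iteratedDeriv (k + 1) g y| ≤ M := by
      intro y
      rw [hg, finDiff_quot_iteratedDeriv hf h (k + 1) y, abs_div, abs_of_pos hh, div_le_iff₀ hh]
      have := finDiff_mvt (hd1 (k + 1)) (C := M) (fun z => by rw [hd2]; exact hM z) y (y + h)
      simpa [abs_of_pos hh] using this
    have h1 := ih g hgs M hgM x
    -- g^(k)(x) is close to f^(k+1)(x)
    have h2 : |iteratedDeriv k g x - iteratedDeriv (k + 1) f x| ≤ h * M := by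
      rw [hg, finDiff_quot_iteratedDeriv hf h k x]
      set ψ : ℝ → ℝ := fun y => iteratedDeriv k f y - iteratedDeriv (k + 1) f x * y with hψ
      have hψd : ∀ y, HasDerivAt ψ (iteratedDeriv (k + 1) f y - iteratedDeriv (k + 1) f x) y := by
        intro y
        have h3 : HasDerivAt (iteratedDeriv k f) (iteratedDeriv (k + 1) f y) y := by
          rw [← hd2]; exact (hd1 k y).hasDerivAt
        have h4 : HasDerivAt (fun y : ℝ => iteratedDeriv (k + 1) f x * y)
            (iteratedDeriv (k + 1) f x) y := by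
          simpa using (hasDerivAt_id y).const_mul (iteratedDeriv (k + 1) f x)
        exact h3.sub h4
      have hb : ∀ y ∈ Set.Icc x (x + h), ‖deriv ψ y‖ ≤ M * h := by
        intro y hy
        rw [(hψd y).deriv, Real.norm_eq_abs]
        have := finDiff_mvt (hd1 (k + 1)) (C := M) (fun z => by rw [hd2]; exact hM z) x y
        have hyx : |y - x| ≤ h := by
          rw [abs_of_nonneg (by linarith [hy.1])]; linarith [hy.2]
        calc |iteratedDeriv (k + 1) f y - iteratedDeriv (k + 1) f x| ≤ M * |y - x| := this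
          _ ≤ M * h := mul_le_mul_of_nonneg_left hyx hM0
      have h5 := Convex.norm_image_sub_le_of_norm_deriv_le (f := ψ) (s := Set.Icc x (x + h))
        (x := x) (y := x + h) (fun y _ => (hψd y).differentiableAt) hb (convex_Icc _ _)
        ⟨le_rfl, by linarith⟩ ⟨by linarith, le_rfl⟩
      rw [Real.norm_eq_abs, Real.norm_eq_abs] at h5
      have h6 : ψ (x + h) - ψ x
          = iteratedDeriv k f (x + h) - iteratedDeriv k f x - iteratedDeriv (k + 1) f x * h := by
        simp only [hψ]; ring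
      have h7 : (iteratedDeriv k f (x + h) - iteratedDeriv k f x) / h - iteratedDeriv (k + 1) f x
          = (ψ (x + h) - ψ x) / h := by
        rw [h6]; field_simp
      rw [h7, abs_div, abs_of_pos hh, div_le_iff₀ hh]
      have : |x + h - x| = h := by rw [add_sub_cancel_left, abs_of_pos hh]
      rw [this] at h5
      linarith
    -- combine
    have h8 : (fwdDiff h)^[k + 1] f x / h ^ (k + 1) = (fwdDiff h)^[k] g x / h ^ k := by
      have h9 : g = (1 / h) • (fwdDiff h f) := by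
        funext y; simp [hg, fwdDiff, div_eq_inv_mul]
      rw [Function.iterate_succ_apply, h9, fwdDiff_iter_const_smul]
      simp only [Pi.smul_apply, smul_eq_mul]
      field_simp
      ring
    rw [h8]
    have h10 : (fwdDiff h)^[k] g x / h ^ k - iteratedDeriv (k + 1) f x
        = ((fwdDiff h)^[k] g x / h ^ k - iteratedDeriv k g x)
          + (iteratedDeriv k g x - iteratedDeriv (k + 1) f x) := by ring
    rw [h10]
    push_cast
    calc |((fwdDiff h)^[k] g x / h ^ k - iteratedDeriv k g x)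
          + (iteratedDeriv k g x - iteratedDeriv (k + 1) f x)|
        ≤ |(fwdDiff h)^[k] g x / h ^ k - iteratedDeriv k g x|
          + |iteratedDeriv k g x - iteratedDeriv (k + 1) f x| := abs_add_le _ _
      _ ≤ k * h * M + h * M := add_le_add h1 h2
      _ = (k + 1) * h * M := by ring

/-! ### Primitive recursiveness of the coefficients -/

theorem finDiff_primrec_choose : Primrec₂ Nat.choose := by
  have hfac := expApprox_primrec_factorial
  have h : Primrec₂ (fun (k i : ℕ) =>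
      if i ≤ k then k.factorial / (i.factorial * (k - i).factorial) else 0) :=
    Primrec.ite (Primrec.nat_le.comp Primrec.snd Primrec.fst)
      (Primrec.nat_div.comp (hfac.comp Primrec.fst)
        (Primrec.nat_mul.comp (hfac.comp Primrec.snd)
          (hfac.comp (Primrec.nat_sub.comp Primrec.fst Primrec.snd))))
      (Primrec.const 0)
  refine h.of_eq fun k i => ?_
  split_ifs with hik
  · exact (Nat.choose_eq_factorial_div_factorial hik).symm
  · exact (Nat.choose_eq_zero_of_lt (not_le.mp hik)).symm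

/-- The rational coefficient `(-1)^(k-i) C(k,i) / h^k`. -/
def fdCoef (k i : ℕ) (h : ℚ) : ℚ := (-1 : ℚ) ^ (k - i) * (k.choose i : ℚ) / h ^ k

theorem finDiff_sum_eq (f : ℝ → ℝ) (k : ℕ) (q h : ℚ) :
    (fwdDiff (h : ℝ))^[k] f (q : ℝ) / (h : ℝ) ^ k
      = ∑ i ∈ Finset.range (k + 1), (fdCoef k i h : ℝ) * f (((q + (i : ℚ) * h : ℚ)) : ℝ) := by
  rw [fwdDiff_iter_eq_sum_shift, Finset.sum_div]
  refine Finset.sum_congr rfl fun i _ => ?_
  unfold fdCoef
  push_cast
  simp only [zsmul_eq_mul, nsmul_eq_mul]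
  push_cast
  ring

/-! ### The main theorem -/

theorem rapprox_iteratedDeriv {f : ℝ → ℝ} (hf : ContDiff ℝ ∞ f) {B : ℕ → ℕ} (hB : Primrec B)
    (hfB : ∀ k x, |iteratedDeriv k f x| ≤ (B k : ℝ))
    (hA : RApprox (fun q : ℚ => f (q : ℝ))) :
    RApprox (fun p : ℕ × ℚ => iteratedDeriv p.1 f (p.2 : ℝ)) := by
  -- step size
  let hh : ℕ → ℕ → ℚ := fun k n => (((2 * (n + 1) * (k * B (k + 1) + 1) : ℕ)) : ℚ)⁻¹
  have hhprim : Primrec₂ hh := by
    refine ratComp_primrec_inv.comp₂ (ratComp_primrec_natCast.comp₂ ?_)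
    refine Primrec.nat_mul.comp₂ (Primrec.nat_double.comp₂ (Primrec.succ.comp₂ Primrec₂.right)) ?_
    exact Primrec.succ.comp₂ (Primrec.nat_mul.comp₂ Primrec₂.left
      (hB.comp₂ (Primrec.succ.comp₂ Primrec₂.left)))
  -- the summand
  have hG : RApprox (fun p : (ℕ × ℚ × ℚ) × ℕ =>
      (fdCoef p.1.1 p.2 p.1.2.2 : ℝ) * f (((p.1.2.1 + (p.2 : ℚ) * p.1.2.2 : ℚ)) : ℝ)) := by
    have hk : Primrec (fun p : (ℕ × ℚ × ℚ) × ℕ => p.1.1) := Primrec.fst.comp Primrec.fst
    have hq : Primrec (fun p : (ℕ × ℚ × ℚ) × ℕ => p.1.2.1) :=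
      Primrec.fst.comp (Primrec.snd.comp Primrec.fst)
    have hh' : Primrec (fun p : (ℕ × ℚ × ℚ) × ℕ => p.1.2.2) :=
      Primrec.snd.comp (Primrec.snd.comp Primrec.fst)
    have hi : Primrec (fun p : (ℕ × ℚ × ℚ) × ℕ => p.2) := Primrec.snd
    have hc : Primrec (fun p : (ℕ × ℚ × ℚ) × ℕ => fdCoef p.1.1 p.2 p.1.2.2) := by
      unfold fdCoef
      refine ratComp_primrec_div.comp (ratComp_primrec_mul.comp ?_ ?_) ?_
      · exact ratComp_primrec_pow.comp (Primrec.const (-1)) (Primrec.nat_sub.comp hk hi)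
      · exact ratComp_primrec_natCast.comp (finDiff_primrec_choose.comp hk hi)
      · exact ratComp_primrec_pow.comp hh' hk
    have hpt : Primrec (fun p : (ℕ × ℚ × ℚ) × ℕ => p.1.2.1 + (p.2 : ℚ) * p.1.2.2) :=
      ratComp_primrec_add.comp hq (ratComp_primrec_mul.comp (ratComp_primrec_natCast.comp hi) hh')
    exact (RApprox.of_primrec hc).mul (hA.comp hpt)
  have hS := RApprox.sum_range (f := fun (a : ℕ × ℚ × ℚ) (i : ℕ) =>
      (fdCoef a.1 i a.2.2 : ℝ) * f (((a.2.1 + (i : ℚ) * a.2.2 : ℚ)) : ℝ)) hG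
  -- specialise to the chosen step
  have hmap : Primrec (fun p : (ℕ × ℚ) × ℕ => ((p.1.1, p.1.2, hh p.1.1 p.2), p.1.1 + 1)) := by
    have hk : Primrec (fun p : (ℕ × ℚ) × ℕ => p.1.1) := Primrec.fst.comp Primrec.fst
    have hq : Primrec (fun p : (ℕ × ℚ) × ℕ => p.1.2) := Primrec.snd.comp Primrec.fst
    exact (hk.pair (hq.pair (hhprim.comp hk Primrec.snd))).pair (Primrec.succ.comp hk)
  have hD := hS.comp hmap
  obtain ⟨A', hA', hDA'⟩ := hD
  refine ⟨fun p n => A' (p, n) (2 * n + 1), ?_, fun p n => ?_⟩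
  · exact hA'.comp (Primrec.id) (Primrec.nat_double_succ.comp Primrec.snd)
  · obtain ⟨k, q⟩ := p
    have h1 := hDA' ((k, q), n) (2 * n + 1)
    simp only at h1
    rw [← finDiff_sum_eq f k q (hh k n), approx_aux_half] at h1
    -- the finite difference error
    have hKpos : (0 : ℝ) < ((k * B (k + 1) + 1 : ℕ) : ℝ) := by positivity
    have hn : (0 : ℝ) < (n : ℝ) + 1 := by positivity
    have hhR : ((hh k n : ℚ) : ℝ) = 1 / (2 * ((n : ℝ) + 1) * ((k * B (k + 1) + 1 : ℕ) : ℝ)) := by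
      simp only [hh]; push_cast; rw [one_div]
    have hhpos : (0 : ℝ) < ((hh k n : ℚ) : ℝ) := by rw [hhR]; positivity
    have h2 := finDiff_error ((hh k n : ℚ) : ℝ) hhpos k f hf (B (k + 1)) (hfB (k + 1)) (q : ℝ)
    have h3 : (k : ℝ) * ((hh k n : ℚ) : ℝ) * (B (k + 1) : ℝ) ≤ 1 / ((n : ℝ) + 1) / 2 := by
      rw [hhR]
      rw [div_div, mul_one_div, div_mul_eq_mul_div, div_le_div_iff₀ (by positivity) (by positivity)]
      push_cast
      have hk0 : (0 : ℝ) ≤ (k : ℝ) * (B (k + 1) : ℝ) := by positivity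
      nlinarith
    show |iteratedDeriv k f (q : ℝ) - (A' ((k, q), n) (2 * n + 1) : ℝ)| ≤ 1 / ((n : ℝ) + 1)
    have h4 : iteratedDeriv k f (q : ℝ) - (A' ((k, q), n) (2 * n + 1) : ℝ)
        = -((fwdDiff ((hh k n : ℚ) : ℝ))^[k] f (q : ℝ) / ((hh k n : ℚ) : ℝ) ^ k
              - iteratedDeriv k f (q : ℝ))
          + ((fwdDiff ((hh k n : ℚ) : ℝ))^[k] f (q : ℝ) / ((hh k n : ℚ) : ℝ) ^ k
              - (A' ((k, q), n) (2 * n + 1) : ℝ)) := by ring
    rw [h4]
    calc _ ≤ |-((fwdDiff ((hh k n : ℚ) : ℝ))^[k] f (q : ℝ) / ((hh k n : ℚ) : ℝ) ^ k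
              - iteratedDeriv k f (q : ℝ))|
          + |(fwdDiff ((hh k n : ℚ) : ℝ))^[k] f (q : ℝ) / ((hh k n : ℚ) : ℝ) ^ k
              - (A' ((k, q), n) (2 * n + 1) : ℝ)| := abs_add_le _ _
      _ ≤ 1 / ((n : ℝ) + 1) / 2 + 1 / ((n : ℝ) + 1) / 2 := by
          rw [abs_neg]; exact add_le_add (h2.trans h3) h1
      _ = 1 / ((n : ℝ) + 1) := by ring

end Crest.Agent.S0170
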