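import Crest.Agent.S0170Lib.Approx
import Crest.Agent.S0170Lib.FinDiff

/-!
# S0170: `Eff1` is closed under products and under multiplication by `x - o` (bounded support)

Owner: helper5.  `eff1_mul` and `eff1_sub_mul` have exactly the statements of `Eff1.mul` and
`Eff1.sub_mul` (interface file `Eff1.lean`); this file does not import `Eff1.lean`.
-/

set_option autoImplicit false
open scoped ContDiff

namespace Crest.Agent.S0170

/-! ### Primitive recursive finite sums of natural numbers -/

theorem eff1_primrec_sum {G : ℕ → ℕ → ℕ} (hG : Primrec₂ G) :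
    Primrec₂ (fun k N : ℕ => ∑ i ∈ Finset.range N, G k i) := by
  have h : Primrec (fun x : ℕ × ℕ =>
      Nat.rec (motive := fun _ => ℕ) 0 (fun i ih => ih + G x.1 i) x.2) := by
    refine Primrec.nat_rec' (f := fun x : ℕ × ℕ => x.2) (g := fun _ => (0 : ℕ))
      (h := fun (x : ℕ × ℕ) (r : ℕ × ℕ) => r.2 + G x.1 r.1) Primrec.snd (Primrec.const 0) ?_
    exact Primrec.nat_add.comp₂ (Primrec.snd.comp₂ Primrec₂.right)
      (hG.comp₂ (Primrec.fst.comp₂ Primrec₂.left) (Primrec.fst.comp₂ Primrec₂.right))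
  refine h.of_eq fun x => ?_
  obtain ⟨k, N⟩ := x
  show Nat.rec (motive := fun _ => ℕ) 0 (fun i ih => ih + G k i) N = ∑ i ∈ Finset.range N, G k i
  induction N with
  | zero => simp
  | succ N ih =>
    rw [Finset.sum_range_succ, ← ih]

/-! ### Products -/

theorem eff1_mul {f g : ℝ → ℝ} (hf : Eff1 f) (hg : Eff1 g) : Eff1 (fun x => f x * g x) := by
  obtain ⟨Bf, hBf, hfB⟩ := hf.bound
  obtain ⟨Bg, hBg, hgB⟩ := hg.bound
  refine ⟨hf.smooth.mul hg.smooth, ?_, hf.approx.mul hg.approx⟩
  refine ⟨fun k => ∑ i ∈ Finset.range (k + 1), k.choose i * Bf i * Bg (k - i), ?_, fun k x => ?_⟩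
  · have hG : Primrec₂ (fun k i : ℕ => k.choose i * Bf i * Bg (k - i)) :=
      Primrec.nat_mul.comp₂
        (Primrec.nat_mul.comp₂ finDiff_primrec_choose (hBf.comp₂ Primrec₂.right))
        (hBg.comp₂ (Primrec.nat_sub.comp₂ Primrec₂.left Primrec₂.right))
    exact (eff1_primrec_sum hG).comp Primrec.id Primrec.succ
  · have hfc : ContDiffAt ℝ k f x := hf.smooth.contDiffAt.of_le (by exact_mod_cast le_top)
    have hgc : ContDiffAt ℝ k g x := hg.smooth.contDiffAt.of_le (by exact_mod_cast le_top)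
    rw [iteratedDeriv_fun_mul hfc hgc]
    push_cast
    refine (Finset.abs_sum_le_sum_abs _ _).trans (Finset.sum_le_sum fun i _ => ?_)
    rw [abs_mul, abs_mul, abs_of_nonneg (Nat.cast_nonneg _)]
    have h1 := hfB i x
    have h2 := hgB (k - i) x
    have h3 : (0 : ℝ) ≤ (k.choose i : ℝ) := Nat.cast_nonneg _
    gcongr

/-! ### Multiplication by `x - o` -/

theorem eff1_iteratedDeriv_sub_mul {f : ℝ → ℝ} (hf : ContDiff ℝ ∞ f) (o : ℝ) (k : ℕ) :
    iteratedDeriv (k + 1) (fun x => (x - o) * f x) =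
      fun x => (x - o) * iteratedDeriv (k + 1) f x + (k + 1) * iteratedDeriv k f x := by
  have hd : ∀ j, Differentiable ℝ (iteratedDeriv j f) := finDiff_iteratedDeriv_differentiable hf
  induction k with
  | zero =>
    funext x
    have hf1 : HasDerivAt f (deriv f x) x := (hf.differentiable (by simp) x).hasDerivAt
    have h1 : HasDerivAt (fun y : ℝ => (y - o) * f y) (1 * f x + (x - o) * deriv f x) x :=
      ((hasDerivAt_id x).sub_const o).mul hf1
    rw [iteratedDeriv_one, h1.deriv]
    simp [iteratedDeriv_one]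
    ring
  | succ k ih =>
    funext x
    rw [iteratedDeriv_succ, ih]
    have h1 : HasDerivAt (fun y : ℝ => (y - o) * iteratedDeriv (k + 1) f y)
        (1 * iteratedDeriv (k + 1) f x + (x - o) * iteratedDeriv (k + 1 + 1) f x) x := by
      have := ((hasDerivAt_id x).sub_const o).mul (hd (k + 1) x).hasDerivAt
      rw [← iteratedDeriv_succ] at this
      exact this
    have h2 : HasDerivAt (fun y : ℝ => ((k : ℝ) + 1) * iteratedDeriv k f y)
        (((k : ℝ) + 1) * iteratedDeriv (k + 1) f x) x := by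
      have := (hd k x).hasDerivAt.const_mul ((k : ℝ) + 1)
      rw [← iteratedDeriv_succ] at this
      exact this
    have h3 : HasDerivAt (fun y : ℝ => (y - o) * iteratedDeriv (k + 1) f y +
        ((k : ℝ) + 1) * iteratedDeriv k f y)
        (1 * iteratedDeriv (k + 1) f x + (x - o) * iteratedDeriv (k + 1 + 1) f x +
          ((k : ℝ) + 1) * iteratedDeriv (k + 1) f x) x := h1.add h2
    rw [h3.deriv]
    push_cast
    ring

theorem eff1_sub_mul {f : ℝ → ℝ} (hf : Eff1 f) (o : ℚ) {R : ℕ}
    (h : ∀ x : ℝ, (R : ℝ) < |x| → f x = 0) : Eff1 (fun x => (x - (o : ℝ)) * f x) := by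
  obtain ⟨Bf, hBf, hfB⟩ := hf.bound
  have hsm : ContDiff ℝ ∞ (fun x : ℝ => (x - (o : ℝ)) * f x) :=
    (contDiff_id.sub contDiff_const).mul hf.smooth
  have happ : RApprox (fun q : ℚ => ((q : ℝ) - (o : ℝ)) * f (q : ℝ)) := by
    have h1 : RApprox (fun q : ℚ => (((q - o : ℚ)) : ℝ)) :=
      RApprox.of_primrec (ratComp_primrec_sub.comp Primrec.id (Primrec.const o))
    exact (h1.mul hf.approx).of_eq fun q => by push_cast; ring
  -- derivatives of `f` vanish outside `[-R, R]`
  have hzero : ∀ (j : ℕ) (x : ℝ), (R : ℝ) < |x| → iteratedDeriv j f x = 0 := by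
    intro j x hx
    have hopen : IsOpen {y : ℝ | (R : ℝ) < |y|} := isOpen_lt continuous_const continuous_abs
    have heq : Set.EqOn f (fun _ => (0 : ℝ)) {y : ℝ | (R : ℝ) < |y|} := fun y hy => h y hy
    have := heq.iteratedDeriv_of_isOpen hopen j hx
    rw [this]
    simp
  have ho : |(o : ℝ)| ≤ (ratUB o : ℝ) := by
    have h3 : ((|o| : ℚ) : ℝ) ≤ ((ratUB o : ℚ) : ℝ) := by exact_mod_cast ratComp_abs_le_UB o
    simpa using h3
  -- the basic estimate
  have hkey : ∀ (j : ℕ) (x : ℝ),
      |(x - (o : ℝ)) * iteratedDeriv j f x| ≤ ((R : ℝ) + ratUB o) * Bf j := by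
    intro j x
    have hB0 : (0 : ℝ) ≤ Bf j := Nat.cast_nonneg _
    have hR0 : (0 : ℝ) ≤ (R : ℝ) + ratUB o := by positivity
    by_cases hx : (R : ℝ) < |x|
    · rw [hzero j x hx]
      simp only [mul_zero, abs_zero]
      positivity
    · rw [abs_mul]
      have h1 : |x - (o : ℝ)| ≤ (R : ℝ) + ratUB o := by
        have := abs_sub x (o : ℝ)
        linarith [not_lt.1 hx]
      exact mul_le_mul h1 (hfB j x) (abs_nonneg _) hR0
  refine ⟨hsm, ⟨fun k => (R + ratUB o) * Bf k + k * Bf (k - 1), ?_, fun k x => ?_⟩, happ⟩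
  · exact Primrec.nat_add.comp (Primrec.nat_mul.comp (Primrec.const _) hBf)
      (Primrec.nat_mul.comp Primrec.id (hBf.comp (Primrec.nat_sub.comp Primrec.id (Primrec.const 1))))
  · cases k with
    | zero =>
      rw [iteratedDeriv_zero]
      have := hkey 0 x
      rw [iteratedDeriv_zero] at this
      push_cast
      simpa using this
    | succ k =>
      rw [eff1_iteratedDeriv_sub_mul hf.smooth]
      have h1 := hkey (k + 1) x
      have h2 : |((k : ℝ) + 1) * iteratedDeriv k f x| ≤ ((k : ℝ) + 1) * Bf k := by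
        rw [abs_mul, abs_of_nonneg (by positivity)]
        exact mul_le_mul_of_nonneg_left (hfB k x) (by positivity)
      have h3 := abs_add_le ((x - (o : ℝ)) * iteratedDeriv (k + 1) f x)
        (((k : ℝ) + 1) * iteratedDeriv k f x)
      simp only [Nat.add_sub_cancel]
      push_cast
      linarith

end Crest.Agent.S0170
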