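import Crest.Agent.S0170Lib.Approx

/-!
# S0170: `Eff1` is stable under affine substitution with rational coefficients
(helper file for `Eff1.lean`; owner helper9)
-/

set_option autoImplicit false
open scoped ContDiff

namespace Crest.Agent.S0170

theorem eff1AuxAffine_primrec_pow (c : ℕ) : Primrec (fun k : ℕ => c ^ k) := by
  have h : Primrec (fun k : ℕ => Nat.rec (motive := fun _ => ℕ) 1 (fun _ ih => ih * c) k) :=
    Primrec.nat_rec₁ 1 (Primrec.nat_mul.comp Primrec.snd (Primrec.const c)).to₂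
  refine h.of_eq (fun k => ?_)
  induction k with
  | zero => simp
  | succ k ih => simp only [pow_succ]; rw [← ih]

theorem eff1AuxAffine_iteratedDeriv {f : ℝ → ℝ} (hf : ContDiff ℝ ∞ f) (a b : ℝ) (k : ℕ) (x : ℝ) :
    iteratedDeriv k (fun x => f (a * x + b)) x = a ^ k * iteratedDeriv k f (a * x + b) := by
  have hg : ContDiff ℝ k (fun z => f (z + b)) :=
    (hf.comp (by fun_prop : ContDiff ℝ ∞ (fun z : ℝ => z + b))).of_le (by exact_mod_cast le_top)
  have h1 := iteratedDeriv_comp_const_mul hg a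
  have h2 := iteratedDeriv_comp_add_const k f b
  have h3 := congrFun h1 x
  rw [h3, h2]

theorem eff1_comp_affine {f : ℝ → ℝ} (hf : Eff1 f) (a b : ℚ) :
    Eff1 (fun x => f ((a : ℝ) * x + b)) := by
  refine ⟨?_, ?_, ?_⟩
  · exact hf.smooth.comp (by fun_prop)
  · obtain ⟨B, hB, hBf⟩ := hf.bound
    refine ⟨fun k => ⌈|a|⌉₊ ^ k * B k, ?_, ?_⟩
    · exact Primrec.nat_mul.comp (eff1AuxAffine_primrec_pow _) hB
    · intro k x
      rw [eff1AuxAffine_iteratedDeriv hf.smooth, abs_mul, abs_pow]
      push_cast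
      have h1 : |(a : ℝ)| ≤ ((⌈|a|⌉₊ : ℕ) : ℝ) := by
        have := Nat.le_ceil |a|
        have h2 : ((|a| : ℚ) : ℝ) ≤ ((⌈|a|⌉₊ : ℕ) : ℝ) := by exact_mod_cast this
        simpa using h2
      exact mul_le_mul (pow_le_pow_left₀ (abs_nonneg _) h1 k) (hBf k _) (abs_nonneg _)
        (by positivity)
  · have hp : Primrec (fun q : ℚ => a * q + b) :=
      ratComp_primrec_add.comp (ratComp_primrec_mul.comp (Primrec.const a) Primrec.id)
        (Primrec.const b)
    have := hf.approx.comp hp
    exact this.of_eq (fun q => by push_cast; rfl)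

end Crest.Agent.S0170
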