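import Mathlib

/-!
# S0170: auxiliary lemmas for `StepBound` (owner: helper3)

On `(0,1)`, with `L = Real.smoothTransition x`, `u = x⁻¹`, `v = (1-x)⁻¹`, one has
`L' = L (1-L) (u² + v²)`, so every derivative of `L` of order `k ≥ 1` is a linear combination of
monomials `L^a (1-L)^b u^c v^d` with `a, b ≥ 1`, `a + b ≤ k + 1`, `c + d ≤ 2k` and total weight
`≤ 6^k k!`; each monomial is bounded by `8 · 2^(c+d) · (c+d)!`.
-/

set_option autoImplicit false

open Set Filter Topology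

namespace Crest.Agent.S0170

/-! ### primitive recursion -/

theorem stepBoundAux_primrec_factorial : Primrec Nat.factorial := by
  have h : Primrec (Nat.rec (1 : ℕ) (fun n ih => (n + 1) * ih)) :=
    Primrec.nat_rec₁ 1 (Primrec.nat_mul.comp₂ (Primrec.succ.comp₂ Primrec₂.left) Primrec₂.right)
  refine h.of_eq fun n => ?_
  induction n with
  | zero => rfl
  | succ n ih =>
    show (n + 1) * Nat.rec (1 : ℕ) (fun n ih => (n + 1) * ih) n = (n + 1).factorial
    rw [ih, Nat.factorial_succ]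

theorem stepBoundAux_primrec_pow (c : ℕ) : Primrec (fun k : ℕ => c ^ k) := by
  have h : Primrec (Nat.rec (1 : ℕ) (fun _ ih => c * ih)) :=
    Primrec.nat_rec₁ 1 (Primrec.nat_mul.comp₂ (Primrec₂.const c) Primrec₂.right)
  refine h.of_eq fun n => ?_
  induction n with
  | zero => rfl
  | succ n ih =>
    show c * Nat.rec (1 : ℕ) (fun _ ih => c * ih) n = c ^ (n + 1)
    rw [ih, pow_succ, mul_comm]

theorem stepBoundAux_primrec :
    Primrec (fun k : ℕ => 8 * 24 ^ k * k.factorial * (2 * k).factorial) := by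
  have h1 : Primrec (fun k : ℕ => 8 * 24 ^ k) :=
    Primrec.nat_mul.comp (Primrec.const 8) (stepBoundAux_primrec_pow 24)
  have h2 : Primrec (fun k : ℕ => 8 * 24 ^ k * k.factorial) :=
    Primrec.nat_mul.comp h1 stepBoundAux_primrec_factorial
  have h3 : Primrec (fun k : ℕ => (2 * k).factorial) :=
    stepBoundAux_primrec_factorial.comp Primrec.nat_double
  exact Primrec.nat_mul.comp h2 h3

/-! ### the derivative of `smoothTransition` on `(0,1)` -/

theorem stepBoundAux_eq_on {y : ℝ} (hy : y ∈ Ioo (0 : ℝ) 1) :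
    Real.smoothTransition y =
      Real.exp (-y⁻¹) / (Real.exp (-y⁻¹) + Real.exp (-(1 - y)⁻¹)) := by
  have h1 : ¬ y ≤ 0 := not_le.mpr hy.1
  have h2 : ¬ (1 - y) ≤ 0 := not_le.mpr (by linarith [hy.2])
  simp [Real.smoothTransition, expNegInvGlue, h1, h2]

theorem stepBoundAux_one_sub_eq_on {y : ℝ} (hy : y ∈ Ioo (0 : ℝ) 1) :
    1 - Real.smoothTransition y =
      Real.exp (-(1 - y)⁻¹) / (Real.exp (-y⁻¹) + Real.exp (-(1 - y)⁻¹)) := by
  rw [stepBoundAux_eq_on hy]
  have h1 := Real.exp_pos (-y⁻¹)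
  have h2 := Real.exp_pos (-(1 - y)⁻¹)
  field_simp
  ring

theorem stepBoundAux_hasDerivAt {x : ℝ} (hx : x ∈ Ioo (0 : ℝ) 1) :
    HasDerivAt Real.smoothTransition
      (Real.smoothTransition x * (1 - Real.smoothTransition x) * (x⁻¹ ^ 2 + (1 - x)⁻¹ ^ 2)) x := by
  have hx0 : x ≠ 0 := hx.1.ne'
  have hx1 : 1 - x ≠ 0 := (sub_pos.mpr hx.2).ne'
  have hE1 : HasDerivAt (fun y : ℝ => Real.exp (-y⁻¹)) (Real.exp (-x⁻¹) * (- -(x ^ 2)⁻¹)) x :=
    ((hasDerivAt_inv hx0).neg).exp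
  have hs : HasDerivAt (fun y : ℝ => 1 - y) (-1) x := by
    simpa using (hasDerivAt_id x).const_sub 1
  have hE2 : HasDerivAt (fun y : ℝ => Real.exp (-(1 - y)⁻¹))
      (Real.exp (-(1 - x)⁻¹) * (-(- (-1 : ℝ) / (1 - x) ^ 2))) x :=
    ((hs.fun_inv hx1).neg).exp
  have hpos : Real.exp (-x⁻¹) + Real.exp (-(1 - x)⁻¹) ≠ 0 :=
    (add_pos (Real.exp_pos _) (Real.exp_pos _)).ne'
  have hdiv := hE1.fun_div (hE1.fun_add hE2) hpos
  have hev : Real.smoothTransition =ᶠ[𝓝 x]
      fun y => Real.exp (-y⁻¹) / (Real.exp (-y⁻¹) + Real.exp (-(1 - y)⁻¹)) :=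
    Filter.eventuallyEq_of_mem (Ioo_mem_nhds hx.1 hx.2) (fun y hy => stepBoundAux_eq_on hy)
  refine (hdiv.congr_of_eventuallyEq hev).congr_deriv ?_
  rw [stepBoundAux_one_sub_eq_on hx, stepBoundAux_eq_on hx]
  field_simp
  ring

/-! ### monomials and their derivatives -/

/-- the monomial `L^a (1-L)^b u^c v^d`. -/
noncomputable def sbMono (a b c d : ℕ) (x : ℝ) : ℝ :=
  Real.smoothTransition x ^ a * (1 - Real.smoothTransition x) ^ b * x⁻¹ ^ c * (1 - x)⁻¹ ^ d

theorem stepBoundAux_pow_L {x : ℝ} (hx : x ∈ Ioo (0 : ℝ) 1) (a : ℕ) :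
    HasDerivAt (fun y => Real.smoothTransition y ^ a)
      (a * (Real.smoothTransition x ^ a * (1 - Real.smoothTransition x) *
        (x⁻¹ ^ 2 + (1 - x)⁻¹ ^ 2))) x := by
  cases a with
  | zero => simpa using hasDerivAt_const x (1 : ℝ)
  | succ n =>
    refine ((stepBoundAux_hasDerivAt hx).fun_pow (n + 1)).congr_deriv ?_
    simp only [Nat.add_sub_cancel]
    push_cast
    ring

theorem stepBoundAux_pow_M {x : ℝ} (hx : x ∈ Ioo (0 : ℝ) 1) (b : ℕ) :
    HasDerivAt (fun y => (1 - Real.smoothTransition y) ^ b)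
      (-(b * (Real.smoothTransition x * (1 - Real.smoothTransition x) ^ b *
        (x⁻¹ ^ 2 + (1 - x)⁻¹ ^ 2)))) x := by
  cases b with
  | zero => simpa using hasDerivAt_const x (1 : ℝ)
  | succ n =>
    refine (((stepBoundAux_hasDerivAt hx).const_sub 1).fun_pow (n + 1)).congr_deriv ?_
    simp only [Nat.add_sub_cancel]
    push_cast
    ring

theorem stepBoundAux_pow_u {x : ℝ} (hx : x ∈ Ioo (0 : ℝ) 1) (c : ℕ) :
    HasDerivAt (fun y : ℝ => y⁻¹ ^ c) (-(c * x⁻¹ ^ (c + 1))) x := by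
  have hx0 : x ≠ 0 := hx.1.ne'
  cases c with
  | zero => simpa using hasDerivAt_const x (1 : ℝ)
  | succ n =>
    refine ((hasDerivAt_inv hx0).fun_pow (n + 1)).congr_deriv ?_
    simp only [Nat.add_sub_cancel]
    push_cast
    ring

theorem stepBoundAux_pow_v {x : ℝ} (hx : x ∈ Ioo (0 : ℝ) 1) (d : ℕ) :
    HasDerivAt (fun y : ℝ => (1 - y)⁻¹ ^ d) (d * (1 - x)⁻¹ ^ (d + 1)) x := by
  have hx1 : 1 - x ≠ 0 := (sub_pos.mpr hx.2).ne'
  have hs : HasDerivAt (fun y : ℝ => 1 - y) (-1) x := by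
    simpa using (hasDerivAt_id x).const_sub 1
  have hv : HasDerivAt (fun y : ℝ => (1 - y)⁻¹) ((1 - x)⁻¹ ^ 2) x :=
    (hs.fun_inv hx1).congr_deriv (by rw [neg_neg, one_div, inv_pow])
  cases d with
  | zero => simpa using hasDerivAt_const x (1 : ℝ)
  | succ n =>
    refine (hv.fun_pow (n + 1)).congr_deriv ?_
    simp only [Nat.add_sub_cancel]
    push_cast
    ring

theorem sbMono_hasDerivAt {x : ℝ} (hx : x ∈ Ioo (0 : ℝ) 1) (a b c d : ℕ) :
    HasDerivAt (sbMono a b c d)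
      (a * sbMono a (b + 1) (c + 2) d x + a * sbMono a (b + 1) c (d + 2) x
        + (-(b : ℝ)) * sbMono (a + 1) b (c + 2) d x + (-(b : ℝ)) * sbMono (a + 1) b c (d + 2) x
        + (-(c : ℝ)) * sbMono a b (c + 1) d x + d * sbMono a b c (d + 1) x) x := by
  have h := (((stepBoundAux_pow_L hx a).fun_mul (stepBoundAux_pow_M hx b)).fun_mul
    (stepBoundAux_pow_u hx c)).fun_mul (stepBoundAux_pow_v hx d)
  refine h.congr_deriv ?_
  simp only [sbMono]
  ring

/-! ### bounds for the monomials -/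

theorem stepBoundAux_key (L M u v : ℝ) (a b c d : ℕ) (ha : 1 ≤ a) (hL0 : 0 ≤ L) (hL1 : L ≤ 1)
    (hM0 : 0 ≤ M) (hM1 : M ≤ 1) (hu : 0 ≤ u) (hv0 : 0 ≤ v) (hv : v ≤ 2)
    (hL : L ≤ Real.exp (v - u)) :
    L ^ a * M ^ b * u ^ c * v ^ d ≤ 8 * 2 ^ (c + d) * ((c + d).factorial : ℝ) := by
  have h1 : L ^ a ≤ L := pow_le_of_le_one hL0 hL1 (by omega)
  have h2 : M ^ b ≤ 1 := pow_le_one₀ hM0 hM1
  have h3 : v ^ d ≤ 2 ^ d := pow_le_pow_left₀ hv0 hv d
  have huc : 0 ≤ u ^ c := pow_nonneg hu c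
  have hcf : (0 : ℝ) < (c.factorial : ℝ) := by exact_mod_cast Nat.factorial_pos c
  have h4 : L * u ^ c ≤ 8 * (c.factorial : ℝ) := by
    have e1 : Real.exp (v - u) ≤ Real.exp 2 * Real.exp (-u) := by
      rw [← Real.exp_add]
      exact Real.exp_le_exp.mpr (by linarith)
    have e2 : u ^ c / (c.factorial : ℝ) ≤ Real.exp u := Real.pow_div_factorial_le_exp u hu c
    have e3 : u ^ c ≤ Real.exp u * (c.factorial : ℝ) := by
      rwa [div_le_iff₀ hcf] at e2
    have e4 : Real.exp 2 ≤ 8 := by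
      have e : Real.exp 2 = Real.exp 1 * Real.exp 1 := by
        rw [← Real.exp_add]
        norm_num
      rw [e]
      have h := Real.exp_one_lt_d9
      have h0 := Real.exp_pos 1
      nlinarith
    have e5 : Real.exp (-u) * Real.exp u = 1 := by
      rw [← Real.exp_add]
      simp
    calc L * u ^ c ≤ (Real.exp 2 * Real.exp (-u)) * (Real.exp u * (c.factorial : ℝ)) :=
          mul_le_mul (hL.trans e1) e3 huc (by positivity)
      _ = Real.exp 2 * (c.factorial : ℝ) := by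
          linear_combination (Real.exp 2 * (c.factorial : ℝ)) * e5
      _ ≤ 8 * (c.factorial : ℝ) := mul_le_mul_of_nonneg_right e4 hcf.le
  have h5 : (c.factorial : ℝ) ≤ ((c + d).factorial : ℝ) := by
    exact_mod_cast Nat.factorial_le (Nat.le_add_right c d)
  have h6 : (2 : ℝ) ^ d ≤ 2 ^ (c + d) := pow_le_pow_right₀ (by norm_num) (Nat.le_add_left d c)
  have hLa : 0 ≤ L ^ a := pow_nonneg hL0 a
  have hMb : 0 ≤ M ^ b := pow_nonneg hM0 b
  have hvd : 0 ≤ v ^ d := pow_nonneg hv0 d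
  calc L ^ a * M ^ b * u ^ c * v ^ d = (L ^ a * u ^ c) * (M ^ b * v ^ d) := by ring
    _ ≤ (L * u ^ c) * (1 * 2 ^ d) :=
        mul_le_mul (mul_le_mul_of_nonneg_right h1 huc) (mul_le_mul h2 h3 hvd zero_le_one)
          (mul_nonneg hMb hvd) (mul_nonneg hL0 huc)
    _ ≤ (8 * (c.factorial : ℝ)) * (1 * 2 ^ (c + d)) :=
        mul_le_mul h4 (mul_le_mul_of_nonneg_left h6 zero_le_one) (by positivity) (by positivity)
    _ ≤ (8 * ((c + d).factorial : ℝ)) * (1 * 2 ^ (c + d)) :=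
        mul_le_mul_of_nonneg_right (mul_le_mul_of_nonneg_left h5 (by norm_num)) (by positivity)
    _ = 8 * 2 ^ (c + d) * ((c + d).factorial : ℝ) := by ring

theorem stepBoundAux_L_le {x : ℝ} (hx : x ∈ Ioo (0 : ℝ) 1) :
    Real.smoothTransition x ≤ Real.exp ((1 - x)⁻¹ - x⁻¹) := by
  rw [stepBoundAux_eq_on hx]
  have h1 := Real.exp_pos (-x⁻¹)
  have h2 := Real.exp_pos (-(1 - x)⁻¹)
  calc Real.exp (-x⁻¹) / (Real.exp (-x⁻¹) + Real.exp (-(1 - x)⁻¹))
        ≤ Real.exp (-x⁻¹) / Real.exp (-(1 - x)⁻¹) :=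
        div_le_div_of_nonneg_left h1.le h2 (by linarith)
    _ = Real.exp ((1 - x)⁻¹ - x⁻¹) := by
        rw [← Real.exp_sub]
        congr 1
        ring

theorem stepBoundAux_M_le {x : ℝ} (hx : x ∈ Ioo (0 : ℝ) 1) :
    1 - Real.smoothTransition x ≤ Real.exp (x⁻¹ - (1 - x)⁻¹) := by
  rw [stepBoundAux_one_sub_eq_on hx]
  have h1 := Real.exp_pos (-x⁻¹)
  have h2 := Real.exp_pos (-(1 - x)⁻¹)
  calc Real.exp (-(1 - x)⁻¹) / (Real.exp (-x⁻¹) + Real.exp (-(1 - x)⁻¹))
        ≤ Real.exp (-(1 - x)⁻¹) / Real.exp (-x⁻¹) :=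
        div_le_div_of_nonneg_left h2.le h1 (by linarith)
    _ = Real.exp (x⁻¹ - (1 - x)⁻¹) := by
        rw [← Real.exp_sub]
        congr 1
        ring

theorem sbMono_nonneg {x : ℝ} (hx : x ∈ Ioo (0 : ℝ) 1) (a b c d : ℕ) : 0 ≤ sbMono a b c d x := by
  have h1 : 0 ≤ Real.smoothTransition x := Real.smoothTransition.nonneg x
  have h2 : 0 ≤ 1 - Real.smoothTransition x := sub_nonneg.mpr (Real.smoothTransition.le_one x)
  have h3 : 0 ≤ x⁻¹ := inv_nonneg.mpr hx.1.le
  have h4 : 0 ≤ (1 - x)⁻¹ := inv_nonneg.mpr (sub_pos.mpr hx.2).le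
  unfold sbMono
  positivity

theorem sbMono_le {x : ℝ} (hx : x ∈ Ioo (0 : ℝ) 1) (a b c d : ℕ) (ha : 1 ≤ a) (hb : 1 ≤ b) :
    sbMono a b c d x ≤ 8 * 2 ^ (c + d) * ((c + d).factorial : ℝ) := by
  have h1 : 0 ≤ Real.smoothTransition x := Real.smoothTransition.nonneg x
  have h1' : Real.smoothTransition x ≤ 1 := Real.smoothTransition.le_one x
  have h2 : 0 ≤ 1 - Real.smoothTransition x := sub_nonneg.mpr h1'
  have h2' : 1 - Real.smoothTransition x ≤ 1 := by linarith
  have h3 : 0 ≤ x⁻¹ := inv_nonneg.mpr hx.1.le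
  have h4 : 0 ≤ (1 - x)⁻¹ := inv_nonneg.mpr (sub_pos.mpr hx.2).le
  rcases le_total x (1 / 2) with hx2 | hx2
  · have hv : (1 - x)⁻¹ ≤ 2 := by
      have := inv_anti₀ (by norm_num : (0 : ℝ) < 1 / 2) (by linarith : (1 : ℝ) / 2 ≤ 1 - x)
      norm_num at this
      exact this
    exact stepBoundAux_key _ _ _ _ a b c d ha h1 h1' h2 h2' h3 h4 hv (stepBoundAux_L_le hx)
  · have hu : x⁻¹ ≤ 2 := by
      have := inv_anti₀ (by norm_num : (0 : ℝ) < 1 / 2) hx2
      norm_num at this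
      exact this
    have h := stepBoundAux_key _ _ _ _ b a d c hb h2 h2' h1 h1' h4 h3 hu (stepBoundAux_M_le hx)
    have e : sbMono a b c d x = (1 - Real.smoothTransition x) ^ b * Real.smoothTransition x ^ a *
        (1 - x)⁻¹ ^ d * x⁻¹ ^ c := by
      unfold sbMono
      ring
    rw [e, add_comm c d]
    exact h

/-! ### the class of combinations of monomials -/

/-- `SBCls p q A g`: `g` is a combination of monomials `L^a (1-L)^b u^c v^d` with `a, b ≥ 1`,
`a + b ≤ p`, `c + d ≤ q`, the sum of the absolute values of the coefficients being `≤ A`. -/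
inductive SBCls (p q : ℕ) : ℝ → (ℝ → ℝ) → Prop
  | zero : SBCls p q 0 (fun _ => 0)
  | add (A : ℝ) (g : ℝ → ℝ) (coef : ℝ) (a b c d : ℕ) (ha : 1 ≤ a) (hb : 1 ≤ b)
      (hab : a + b ≤ p) (hcd : c + d ≤ q) (h : SBCls p q A g) :
      SBCls p q (A + |coef|) (fun x => g x + coef * sbMono a b c d x)
  | weaken (A A' : ℝ) (g : ℝ → ℝ) (hA : A ≤ A') (h : SBCls p q A g) : SBCls p q A' g

theorem SBCls.nonneg {p q : ℕ} {A : ℝ} {g : ℝ → ℝ} (h : SBCls p q A g) : 0 ≤ A := by
  induction h with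
  | zero => exact le_rfl
  | add A g coef a b c d ha hb hab hcd h ih => exact add_nonneg ih (abs_nonneg _)
  | weaken A A' g hA h ih => exact ih.trans hA

theorem SBCls.bound {p q : ℕ} {A : ℝ} {g : ℝ → ℝ} (h : SBCls p q A g) :
    ∀ x ∈ Ioo (0 : ℝ) 1, |g x| ≤ A * (8 * 2 ^ q * (q.factorial : ℝ)) := by
  have hK : (0 : ℝ) ≤ 8 * 2 ^ q * (q.factorial : ℝ) := by positivity
  induction h with
  | zero => intro x _; simp
  | add A g coef a b c d ha hb hab hcd h ih =>
    intro x hx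
    have hm0 := sbMono_nonneg hx a b c d
    have hm1 : sbMono a b c d x ≤ 8 * 2 ^ q * (q.factorial : ℝ) := by
      refine (sbMono_le hx a b c d ha hb).trans ?_
      have e1 : (2 : ℝ) ^ (c + d) ≤ 2 ^ q := pow_le_pow_right₀ (by norm_num) hcd
      have e2 : ((c + d).factorial : ℝ) ≤ (q.factorial : ℝ) := by
        exact_mod_cast Nat.factorial_le hcd
      exact mul_le_mul (mul_le_mul_of_nonneg_left e1 (by norm_num)) e2 (by positivity)
        (by positivity)
    calc |g x + coef * sbMono a b c d x| ≤ |g x| + |coef * sbMono a b c d x| := abs_add_le _ _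
      _ = |g x| + |coef| * sbMono a b c d x := by rw [abs_mul, abs_of_nonneg hm0]
      _ ≤ A * (8 * 2 ^ q * (q.factorial : ℝ)) + |coef| * (8 * 2 ^ q * (q.factorial : ℝ)) :=
          add_le_add (ih x hx) (mul_le_mul_of_nonneg_left hm1 (abs_nonneg _))
      _ = (A + |coef|) * (8 * 2 ^ q * (q.factorial : ℝ)) := by ring
  | weaken A A' g hA h ih =>
    intro x hx
    exact (ih x hx).trans (mul_le_mul_of_nonneg_right hA hK)

theorem SBCls.deriv {p q : ℕ} {A : ℝ} {g : ℝ → ℝ} (h : SBCls p q A g) :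
    ∃ g' : ℝ → ℝ, SBCls (p + 1) (q + 2) ((2 * (p : ℝ) + q) * A) g' ∧
      ∀ x ∈ Ioo (0 : ℝ) 1, HasDerivAt g (g' x) x := by
  induction h with
  | zero =>
    refine ⟨fun _ => 0, ?_, fun x _ => hasDerivAt_const x (0 : ℝ)⟩
    rw [mul_zero]
    exact SBCls.zero
  | add A g coef a b c d ha hb hab hcd h ih =>
    obtain ⟨g0, hg0, hd0⟩ := ih
    have s1 := SBCls.add _ _ (coef * a) a (b + 1) (c + 2) d ha (by omega) (by omega) (by omega) hg0
    have s2 := SBCls.add _ _ (coef * a) a (b + 1) c (d + 2) ha (by omega) (by omega) (by omega) s1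
    have s3 := SBCls.add _ _ (coef * (-(b : ℝ))) (a + 1) b (c + 2) d (by omega) hb (by omega)
      (by omega) s2
    have s4 := SBCls.add _ _ (coef * (-(b : ℝ))) (a + 1) b c (d + 2) (by omega) hb (by omega)
      (by omega) s3
    have s5 := SBCls.add _ _ (coef * (-(c : ℝ))) a b (c + 1) d ha hb (by omega) (by omega) s4
    have s6 := SBCls.add _ _ (coef * d) a b c (d + 1) ha hb (by omega) (by omega) s5
    refine ⟨_, SBCls.weaken _ _ _ ?_ s6, ?_⟩
    · have hab' : (a : ℝ) + b ≤ p := by exact_mod_cast hab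
      have hcd' : (c : ℝ) + d ≤ q := by exact_mod_cast hcd
      have hc0 := abs_nonneg coef
      have e : (2 * (p : ℝ) + q) * A + |coef * a| + |coef * a| + |coef * (-(b : ℝ))| +
          |coef * (-(b : ℝ))| + |coef * (-(c : ℝ))| + |coef * d| =
          (2 * (p : ℝ) + q) * A + |coef| * (2 * ((a : ℝ) + b) + ((c : ℝ) + d)) := by
        simp only [abs_mul, abs_neg, Nat.abs_cast]
        ring
      rw [e]
      have : |coef| * (2 * ((a : ℝ) + b) + ((c : ℝ) + d)) ≤ |coef| * (2 * (p : ℝ) + q) :=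
        mul_le_mul_of_nonneg_left (by linarith) hc0
      linarith
    · intro x hx
      refine ((hd0 x hx).add ((sbMono_hasDerivAt hx a b c d).const_mul coef)).congr_deriv ?_
      ring
  | weaken A A' g hA h ih =>
    obtain ⟨g0, hg0, hd0⟩ := ih
    have hpq : (0 : ℝ) ≤ 2 * (p : ℝ) + q := by positivity
    exact ⟨g0, SBCls.weaken _ _ _ (mul_le_mul_of_nonneg_left hA hpq) hg0, hd0⟩

theorem SBCls.mono_pq {p q p' q' : ℕ} {A : ℝ} {g : ℝ → ℝ} (hp : p ≤ p') (hq : q ≤ q')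
    (h : SBCls p q A g) : SBCls p' q' A g := by
  induction h with
  | zero => exact SBCls.zero
  | add A g coef a b c d ha hb hab hcd h ih =>
    exact SBCls.add _ _ coef a b c d ha hb (hab.trans hp) (hcd.trans hq) ih
  | weaken A A' g hA h ih => exact SBCls.weaken _ _ _ hA ih

/-! ### the iterated derivatives on `(0,1)` -/

/-- the weights: `W 0 = 2`, `W (k+1) = (2 (k+2) + (2k+2)) W k`. -/
noncomputable def sbW : ℕ → ℝ
  | 0 => 2
  | (k + 1) => (2 * ((k + 2 : ℕ) : ℝ) + ((2 * k + 2 : ℕ) : ℝ)) * sbW k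

theorem sbW_nonneg (k : ℕ) : 0 ≤ sbW k := by
  induction k with
  | zero => simp [sbW]
  | succ k ih =>
    rw [sbW]
    positivity

theorem sbW_le (k : ℕ) : sbW k ≤ 6 ^ (k + 1) * ((k + 1).factorial : ℝ) := by
  induction k with
  | zero => simp [sbW]; norm_num
  | succ k ih =>
    have h0 := sbW_nonneg k
    have hf : (((k + 1 + 1).factorial : ℕ) : ℝ) = ((k : ℝ) + 2) * ((k + 1).factorial : ℝ) := by
      rw [Nat.factorial_succ (k + 1)]
      push_cast
      ring
    rw [sbW, hf]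
    push_cast
    have hk : (0 : ℝ) ≤ k := Nat.cast_nonneg k
    calc (2 * ((k : ℝ) + 2) + (2 * (k : ℝ) + 2)) * sbW k
        ≤ (6 * ((k : ℝ) + 2)) * sbW k := mul_le_mul_of_nonneg_right (by linarith) h0
      _ ≤ (6 * ((k : ℝ) + 2)) * (6 ^ (k + 1) * ((k + 1).factorial : ℝ)) :=
          mul_le_mul_of_nonneg_left ih (by positivity)
      _ = 6 ^ (k + 1 + 1) * (((k : ℝ) + 2) * ((k + 1).factorial : ℝ)) := by ring

theorem stepBoundAux_rep (k : ℕ) : ∃ g : ℝ → ℝ, SBCls (k + 2) (2 * k + 2) (sbW k) g ∧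
    ∀ x ∈ Ioo (0 : ℝ) 1, iteratedDeriv (k + 1) Real.smoothTransition x = g x := by
  induction k with
  | zero =>
    have s1 := SBCls.add (p := 2) (q := 2) _ _ 1 1 1 2 0 le_rfl le_rfl le_rfl le_rfl SBCls.zero
    have s2 := SBCls.add _ _ 1 1 1 0 2 le_rfl le_rfl le_rfl le_rfl s1
    refine ⟨_, SBCls.weaken _ _ _ ?_ s2, ?_⟩
    · simp [sbW]
      norm_num
    · intro x hx
      rw [zero_add, iteratedDeriv_one, (stepBoundAux_hasDerivAt hx).deriv]
      simp only [sbMono]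
      ring
  | succ k ih =>
    obtain ⟨g, hg, heq⟩ := ih
    obtain ⟨g', hg', hd⟩ := hg.deriv
    refine ⟨g', ?_, ?_⟩
    · rw [sbW]
      exact SBCls.mono_pq (by omega) (by omega) hg'
    · intro x hx
      rw [iteratedDeriv_succ]
      have hev : iteratedDeriv (k + 1) Real.smoothTransition =ᶠ[𝓝 x] g :=
        Filter.eventuallyEq_of_mem (Ioo_mem_nhds hx.1 hx.2) heq
      rw [hev.deriv_eq]
      exact (hd x hx).deriv

theorem stepBoundAux_Ioo (k : ℕ) {x : ℝ} (hx : x ∈ Ioo (0 : ℝ) 1) :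
    |iteratedDeriv (k + 1) Real.smoothTransition x| ≤
      ((8 * 24 ^ (k + 1) * (k + 1).factorial * (2 * (k + 1)).factorial : ℕ) : ℝ) := by
  obtain ⟨g, hg, heq⟩ := stepBoundAux_rep k
  rw [heq x hx]
  refine (hg.bound x hx).trans ?_
  have h1 := sbW_le k
  have e2 : 2 * (k + 1) = 2 * k + 2 := by ring
  rw [e2]
  push_cast
  have e4 : (2 : ℝ) ^ (2 * k + 2) = 4 ^ (k + 1) := by
    rw [show 2 * k + 2 = 2 * (k + 1) by ring, pow_mul]
    norm_num
  have e24 : (24 : ℝ) ^ (k + 1) = 6 ^ (k + 1) * 4 ^ (k + 1) := by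
    rw [← mul_pow]
    norm_num
  calc sbW k * (8 * 2 ^ (2 * k + 2) * ((2 * k + 2).factorial : ℝ))
      ≤ (6 ^ (k + 1) * ((k + 1).factorial : ℝ)) *
          (8 * 2 ^ (2 * k + 2) * ((2 * k + 2).factorial : ℝ)) :=
        mul_le_mul_of_nonneg_right h1 (by positivity)
    _ = 8 * 24 ^ (k + 1) * ((k + 1).factorial : ℝ) * ((2 * k + 2).factorial : ℝ) := by
        rw [e4, e24]
        ring

/-- all derivatives of `Real.smoothTransition` are bounded by `8 · 24^k · k! · (2k)!`. -/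
theorem stepBoundAux_main (k : ℕ) (x : ℝ) :
    |iteratedDeriv k Real.smoothTransition x| ≤
      ((8 * 24 ^ k * k.factorial * (2 * k).factorial : ℕ) : ℝ) := by
  cases k with
  | zero =>
    rw [iteratedDeriv_zero]
    have h1 := Real.smoothTransition.nonneg x
    have h2 := Real.smoothTransition.le_one x
    rw [abs_of_nonneg h1]
    norm_num
    linarith
  | succ k =>
    have hB0 : (0 : ℝ) ≤
        ((8 * 24 ^ (k + 1) * (k + 1).factorial * (2 * (k + 1)).factorial : ℕ) : ℝ) :=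
      Nat.cast_nonneg _
    have hcont : Continuous (iteratedDeriv (k + 1) Real.smoothTransition) :=
      (Real.smoothTransition.contDiff (n := ⊤)).continuous_iteratedDeriv (k + 1)
        (by exact_mod_cast le_top)
    have hclosed : IsClosed {y : ℝ | |iteratedDeriv (k + 1) Real.smoothTransition y| ≤
        ((8 * 24 ^ (k + 1) * (k + 1).factorial * (2 * (k + 1)).factorial : ℕ) : ℝ)} :=
      isClosed_le (continuous_abs.comp hcont) continuous_const
    have hsub : Icc (0 : ℝ) 1 ⊆ {y : ℝ | |iteratedDeriv (k + 1) Real.smoothTransition y| ≤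
        ((8 * 24 ^ (k + 1) * (k + 1).factorial * (2 * (k + 1)).factorial : ℕ) : ℝ)} := by
      rw [← closure_Ioo (zero_ne_one' ℝ)]
      exact closure_minimal (fun y hy => stepBoundAux_Ioo k hy) hclosed
    rcases lt_or_ge x 0 with h0 | h0
    · have hev : Real.smoothTransition =ᶠ[𝓝 x] fun _ => (0 : ℝ) :=
        Filter.eventuallyEq_of_mem (Iio_mem_nhds h0)
          (fun y hy => Real.smoothTransition.zero_of_nonpos (le_of_lt hy))
      rw [hev.iteratedDeriv_eq, iteratedDeriv_const]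
      simpa using hB0
    · rcases le_or_gt x 1 with h1 | h1
      · exact hsub ⟨h0, h1⟩
      · have hev : Real.smoothTransition =ᶠ[𝓝 x] fun _ => (1 : ℝ) :=
          Filter.eventuallyEq_of_mem (Ioi_mem_nhds h1)
            (fun y hy => Real.smoothTransition.one_of_one_le (le_of_lt hy))
        rw [hev.iteratedDeriv_eq, iteratedDeriv_const]
        simpa using hB0

end Crest.Agent.S0170
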