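import Crest.Agent.S0170Lib.Defs
import Crest.Agent.S0170Lib.StepBoundAux

/-!
# S0170: a primitive recursive bound for all derivatives of `Real.smoothTransition`
-/

set_option autoImplicit false

namespace Crest.Agent.S0170

/-- The bound `8 · 24^k · k! · (2k)!`. -/
def stepBound (k : ℕ) : ℕ := 8 * 24 ^ k * k.factorial * (2 * k).factorial

theorem primrec_stepBound : Primrec stepBound :=
  stepBoundAux_primrec

theorem abs_iteratedDeriv_smoothTransition_le (k : ℕ) (x : ℝ) :
    |iteratedDeriv k Real.smoothTransition x| ≤ (stepBound k : ℝ) :=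
  stepBoundAux_main k x

end Crest.Agent.S0170
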