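import Crest.Agent.S0170Lib.Approx
import Crest.Agent.S0170Lib.ExpApprox
import Crest.Agent.S0170Lib.StepBound
import Crest.Agent.S0170Lib.FinDiff
import Crest.Agent.S0170Lib.Eff1Aux
import Crest.Agent.S0170Lib.Eff1AuxAffine

/-!
# S0170: closure properties of `Eff1`
-/

set_option autoImplicit false
open scoped ContDiff

namespace Crest.Agent.S0170

theorem Eff1.approx_iteratedDeriv {f : ℝ → ℝ} (hf : Eff1 f) :
    RApprox (fun p : ℕ × ℚ => iteratedDeriv p.1 f (p.2 : ℝ)) := by
  obtain ⟨B, hB, hfB⟩ := hf.bound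
  exact rapprox_iteratedDeriv hf.smooth hB hfB hf.approx

theorem Eff1.smoothTransition : Eff1 Real.smoothTransition where
  smooth := Real.smoothTransition.contDiff
  bound := ⟨stepBound, primrec_stepBound, abs_iteratedDeriv_smoothTransition_le⟩
  approx := rapprox_smoothTransition

theorem Eff1.deriv {f : ℝ → ℝ} (hf : Eff1 f) : Eff1 (deriv f) where
  smooth := (contDiff_infty_iff_deriv.mp hf.smooth).2
  bound := by
    obtain ⟨B, hB, hfB⟩ := hf.bound
    refine ⟨fun k => B (k + 1), hB.comp Primrec.succ, fun k x => ?_⟩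
    rw [← iteratedDeriv_succ']
    exact hfB (k + 1) x
  approx := by
    have h := hf.approx_iteratedDeriv.comp
      (g := fun q : ℚ => ((1 : ℕ), q)) ((Primrec.const 1).pair Primrec.id)
    refine h.of_eq fun q => ?_
    simp [iteratedDeriv_one]

theorem Eff1.comp_affine {f : ℝ → ℝ} (hf : Eff1 f) (a b : ℚ) :
    Eff1 (fun x => f ((a : ℝ) * x + b)) :=
  eff1_comp_affine hf a b

theorem Eff1.mul {f g : ℝ → ℝ} (hf : Eff1 f) (hg : Eff1 g) : Eff1 (fun x => f x * g x) :=
  eff1_mul hf hg

theorem Eff1.add {f g : ℝ → ℝ} (hf : Eff1 f) (hg : Eff1 g) : Eff1 (fun x => f x + g x) where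
  smooth := hf.smooth.add hg.smooth
  bound := by
    obtain ⟨B, hB, hfB⟩ := hf.bound
    obtain ⟨C, hC, hgC⟩ := hg.bound
    refine ⟨fun k => B k + C k, Primrec.nat_add.comp hB hC, fun k x => ?_⟩
    have h1 : iteratedDeriv k (fun x => f x + g x) x = iteratedDeriv k f x + iteratedDeriv k g x :=
      iteratedDeriv_add (hf.smooth.contDiffAt.of_le (by exact_mod_cast le_top))
        (hg.smooth.contDiffAt.of_le (by exact_mod_cast le_top))
    rw [h1]
    push_cast
    exact (abs_add_le _ _).trans (add_le_add (hfB k x) (hgC k x))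
  approx := hf.approx.add hg.approx

theorem Eff1.const_mul (c : ℚ) {f : ℝ → ℝ} (hf : Eff1 f) : Eff1 (fun x => (c : ℝ) * f x) where
  smooth := contDiff_const.mul hf.smooth
  bound := by
    obtain ⟨B, hB, hfB⟩ := hf.bound
    refine ⟨fun k => ratUB c * B k, Primrec.nat_mul.comp (Primrec.const _) hB, fun k x => ?_⟩
    rw [iteratedDeriv_const_mul_field, abs_mul]
    push_cast
    have h1 : |(c : ℝ)| ≤ (ratUB c : ℝ) := by
      have := ratComp_abs_le_UB c
      exact_mod_cast this
    exact mul_le_mul h1 (hfB k x) (abs_nonneg _) (Nat.cast_nonneg _)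
  approx := (RApprox.const c).mul hf.approx

/-- Multiplication by `x - o` preserves effectiveness for functions of bounded support. -/
theorem Eff1.sub_mul {f : ℝ → ℝ} (hf : Eff1 f) (o : ℚ) {R : ℕ}
    (h : ∀ x : ℝ, (R : ℝ) < |x| → f x = 0) : Eff1 (fun x => (x - (o : ℝ)) * f x) :=
  eff1_sub_mul hf o h

end Crest.Agent.S0170
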