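import Crest.Agent.S0170Lib.Approx

/-!
# S0170: `Eff1` is stable under sums and multiplication by a rational constant
(helper file for `Eff1.lean`; owner helper9)
-/

set_option autoImplicit false
open scoped ContDiff

namespace Crest.Agent.S0170

theorem eff1_add {f g : ℝ → ℝ} (hf : Eff1 f) (hg : Eff1 g) : Eff1 (fun x => f x + g x) := by
  refine ⟨hf.smooth.add hg.smooth, ?_, hf.approx.add hg.approx⟩
  obtain ⟨Bf, hBf, hf'⟩ := hf.bound
  obtain ⟨Bg, hBg, hg'⟩ := hg.bound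
  refine ⟨fun k => Bf k + Bg k, Primrec.nat_add.comp hBf hBg, fun k x => ?_⟩
  have h1 : ContDiffAt ℝ k f x := (hf.smooth.of_le (by exact_mod_cast le_top)).contDiffAt
  have h2 : ContDiffAt ℝ k g x := (hg.smooth.of_le (by exact_mod_cast le_top)).contDiffAt
  have h3 : iteratedDeriv k (fun x => f x + g x) x = iteratedDeriv k f x + iteratedDeriv k g x :=
    iteratedDeriv_fun_add h1 h2
  rw [h3]
  push_cast
  exact (abs_add_le _ _).trans (add_le_add (hf' k x) (hg' k x))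

theorem eff1_const_mul (c : ℚ) {f : ℝ → ℝ} (hf : Eff1 f) : Eff1 (fun x => (c : ℝ) * f x) := by
  refine ⟨contDiff_const.mul hf.smooth, ?_, (RApprox.const c).mul hf.approx⟩
  obtain ⟨Bf, hBf, hf'⟩ := hf.bound
  refine ⟨fun k => ⌈|c|⌉₊ * Bf k, Primrec.nat_mul.comp (Primrec.const _) hBf, fun k x => ?_⟩
  rw [iteratedDeriv_const_mul_field, abs_mul]
  push_cast
  have h1 : |(c : ℝ)| ≤ ((⌈|c|⌉₊ : ℕ) : ℝ) := by
    have := Nat.le_ceil |c|
    have h2 : ((|c| : ℚ) : ℝ) ≤ ((⌈|c|⌉₊ : ℕ) : ℝ) := by exact_mod_cast this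
    simpa using h2
  exact mul_le_mul h1 (hf' k x) (abs_nonneg _) (by positivity)

end Crest.Agent.S0170
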