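import Crest.Agent.S0170Lib.MoveField

/-!
# S0170: auxiliary lemmas for `flow_exists` (owner: helper8)

* `flow_global_solution`: global solutions of the ODE (Picard–Lindelöf) for arbitrary points;
* `flow_traj_spec`: the explicit trajectory of a valid point;
* properties of `planU`.
-/

set_option autoImplicit false
open scoped ContDiff
open Crest.AnalysisR.BoxFlow

namespace Crest.Agent.S0170

/-! ### the ODE for arbitrary initial points -/

/-- Global solutions of the ODE of a smooth compactly supported field that vanishes for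
`t ∉ [1/4, 3/4]`. -/
theorem flow_global_solution (U : Field) (hU : ContDiff ℝ ∞ U) (hc : HasCompactSupport U)
    (h0 : ∀ p : ℝ × (Fin 3 → ℝ), p.1 ∉ Set.Icc (1 / 4 : ℝ) (3 / 4) → U p = 0) (x : Fin 3 → ℝ) :
    ∃ γ : ℝ → (Fin 3 → ℝ), γ 0 = x ∧ ∀ t, HasDerivAt γ (U (t, γ t)) t := by
  obtain ⟨C, hC⟩ := hc.exists_bound_of_continuous hU.continuous
  obtain ⟨K, hK⟩ := ContDiff.lipschitzWith_of_hasCompactSupport hc hU (by simp)
  set L : NNReal := Real.toNNReal C with hL
  have hCL : ∀ p, ‖U p‖ ≤ (L : ℝ) := fun p => (hC p).trans (Real.le_coe_toNNReal C)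
  have hPL : IsPicardLindelof (fun t y => U (t, y)) (tmin := -1) (tmax := 2)
      ⟨0, by norm_num, by norm_num⟩ x (2 * L) 0 L K := by
    refine ⟨?_, ?_, ?_, ?_⟩
    · intro t _
      have h1 : LipschitzWith (K * 1) (fun y => U (t, y)) :=
        hK.comp (LipschitzWith.prodMk_left t)
      rw [mul_one] at h1
      exact h1.lipschitzOnWith
    · intro y _
      exact (hU.continuous.comp (Continuous.prodMk continuous_id continuous_const)).continuousOn
    · intro t _ y _
      exact hCL _
    · show (L : ℝ) * max (2 - (0 : ℝ)) ((0 : ℝ) - -1) ≤ ((2 * L : NNReal) : ℝ) - ((0 : NNReal) : ℝ)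
      have : max (2 - (0 : ℝ)) ((0 : ℝ) - -1) = 2 := by norm_num
      rw [this]
      push_cast
      linarith
  obtain ⟨α, hα0, hα⟩ := hPL.exists_eq_forall_mem_Icc_hasDerivWithinAt₀
  have hα0' : α 0 = x := hα0
  -- honest derivatives inside
  have hder : ∀ t ∈ Set.Ioo (-1 : ℝ) 2, HasDerivAt α (U (t, α t)) t := fun t ht =>
    (hα t ⟨ht.1.le, ht.2.le⟩).hasDerivAt (Icc_mem_nhds ht.1 ht.2)
  -- constant before 1/4
  have hleft : ∀ s ∈ Set.Ico (0 : ℝ) (1 / 4), α s = x := by
    intro s hs
    have hcont : ContinuousOn α (Set.Icc 0 s) := fun y hy =>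
      (hder y ⟨by linarith [hy.1], by linarith [hy.2, hs.2]⟩).continuousAt.continuousWithinAt
    have hz : ∀ y ∈ Set.Ico 0 s, HasDerivWithinAt α 0 (Set.Ici y) y := by
      intro y hy
      have h1 := hder y ⟨by linarith [hy.1], by linarith [hy.2, hs.2]⟩
      rw [h0 (y, α y) (by simp only [Set.mem_Icc, not_and_or, not_le]; left; linarith [hy.2, hs.2])]
        at h1
      exact h1.hasDerivWithinAt
    rw [← hα0']
    exact constant_of_has_deriv_right_zero hcont hz s ⟨hs.1, le_rfl⟩
  -- constant after 3/4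
  have hright : ∀ s ∈ Set.Ioc (3 / 4 : ℝ) 1, α s = α 1 := by
    intro s hs
    have hcont : ContinuousOn α (Set.Icc s 1) := fun y hy =>
      (hder y ⟨by linarith [hy.1, hs.1], by linarith [hy.2]⟩).continuousAt.continuousWithinAt
    have hz : ∀ y ∈ Set.Ico s 1, HasDerivWithinAt α 0 (Set.Ici y) y := by
      intro y hy
      have h1 := hder y ⟨by linarith [hy.1, hs.1], by linarith [hy.2]⟩
      rw [h0 (y, α y) (by simp only [Set.mem_Icc, not_and_or, not_le]; right; linarith [hy.1, hs.1])]
        at h1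
      exact h1.hasDerivWithinAt
    exact (constant_of_has_deriv_right_zero hcont hz 1 ⟨hs.2, le_rfl⟩).symm
  refine ⟨fun t => α (max 0 (min t 1)), ?_, ?_⟩
  · show α (max 0 (min 0 1)) = x
    rw [min_eq_left (by norm_num : (0 : ℝ) ≤ 1), max_self]
    exact hα0'
  · intro t
    rcases lt_or_ge t (1 / 4) with ht | ht
    · -- locally constant `x`
      have hev : (fun s => α (max 0 (min s 1))) =ᶠ[nhds t] fun _ => x := by
        filter_upwards [Iio_mem_nhds ht] with s hs
        have hs' : s < 1 / 4 := hs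
        apply hleft
        rw [min_eq_left (by linarith : s ≤ 1)]
        exact ⟨le_max_left _ _, max_lt (by norm_num) hs'⟩
      rw [h0 (t, _) (by simp only [Set.mem_Icc, not_and_or, not_le]; left; exact ht)]
      exact (hasDerivAt_const t x).congr_of_eventuallyEq hev
    rcases lt_or_ge (3 / 4) t with ht' | ht'
    · have hev : (fun s => α (max 0 (min s 1))) =ᶠ[nhds t] fun _ => α 1 := by
        filter_upwards [Ioi_mem_nhds ht'] with s hs
        have hs' : 3 / 4 < s := hs
        apply hright
        refine ⟨?_, max_le (by norm_num) (min_le_right _ _)⟩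
        exact lt_max_of_lt_right (lt_min hs' (by norm_num))
      rw [h0 (t, _) (by simp only [Set.mem_Icc, not_and_or, not_le]; right; exact ht')]
      exact (hasDerivAt_const t (α 1)).congr_of_eventuallyEq hev
    · have hev : (fun s => α (max 0 (min s 1))) =ᶠ[nhds t] α := by
        filter_upwards [Ioo_mem_nhds (by linarith : (0 : ℝ) < t) (by linarith : t < 1)] with s hs
        rw [min_eq_left hs.2.le, max_eq_right hs.1.le]
      have ht1 : max 0 (min t 1) = t := by
        rw [min_eq_left (by linarith), max_eq_right (by linarith)]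
      show HasDerivAt (fun s => α (max 0 (min s 1))) (U (t, α (max 0 (min t 1)))) t
      rw [ht1]
      exact (hder t ⟨by linarith, by linarith⟩).congr_of_eventuallyEq hev

/-! ### explicit trajectories of valid points -/

/-- planned position after the first `m` moves of the sequence `Mq`. -/
noncomputable def flow_pos (Mq : ℕ → Move) (x : Fin 3 → ℝ) : ℕ → (Fin 3 → ℝ)
  | 0 => x
  | m + 1 => (Mq m).next (flow_pos Mq x m)

open Classical in
/-- the trajectory after the first `m` moves have been taken into account. -/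
noncomputable def flow_traj (Mq : ℕ → Move) (N : ℕ) (x : Fin 3 → ℝ) : ℕ → ℝ → (Fin 3 → ℝ)
  | 0, _ => x
  | m + 1, t =>
    if (Mq m).inP (flow_pos Mq x m) then
      (Mq m).flow (Move.slotS N m t) (flow_traj Mq N x m t)
    else flow_traj Mq N x m t

/-- the field of the first `m` moves. -/
noncomputable def flow_part (Mq : ℕ → Move) (N m : ℕ) : Field :=
  fun p => ∑ i ∈ Finset.range m, (Mq i).U N i p

theorem flow_flow_eq (M : Move) (s : ℝ) (y : Fin 3 → ℝ) :
    M.flow s y = y + (s * ((M.v : ℝ) + M.c * (y M.l - M.o))) • Pi.single M.k (1 : ℝ) := by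
  funext i
  unfold Move.flow
  by_cases hi : i = M.k
  · subst hi; simp
  · simp [Function.update_of_ne hi, Pi.single_eq_of_ne hi]

theorem flow_flow_zero (M : Move) (y : Fin 3 → ℝ) : M.flow 0 y = y := by
  unfold Move.flow; simp

theorem flow_flow_l (M : Move) (hM : M.WF) (s : ℝ) (y : Fin 3 → ℝ) : M.flow s y M.l = y M.l := by
  unfold Move.flow
  exact Function.update_of_ne (Ne.symm hM.1) _ _

theorem flow_ok_inP (M : Move) (hM : M.WF) {y : Fin 3 → ℝ} (hok : M.ok y) (hin : M.inP y) :
    ∀ s ∈ Set.Icc (0 : ℝ) 1, M.inP (M.flow s y) := by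
  rcases hok with h | ⟨i, hi⟩
  · exact h
  · exfalso
    have hδ : (0 : ℝ) < M.δ := by exact_mod_cast hM.2
    have := hin i
    rcases hi with hi | hi <;> linarith [this.1, this.2]

theorem flow_ok_not_inP (M : Move) {y : Fin 3 → ℝ} (hok : M.ok y) (hin : ¬ M.inP y) :
    M.outQ y := by
  rcases hok with h | h
  · exfalso; apply hin
    have := h 0 ⟨le_rfl, zero_le_one⟩
    rwa [flow_flow_zero] at this
  · exact h

theorem flow_part_succ (Mq : ℕ → Move) (N m : ℕ) (p : ST) :
    flow_part Mq N (m + 1) p = flow_part Mq N m p + (Mq m).U N m p := by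
  unfold flow_part; rw [Finset.sum_range_succ]

theorem flow_part_eq_zero (Mq : ℕ → Move) (N m : ℕ) (p : ST)
    (h : (m : ℝ) ≤ 2 * (N : ℝ) * (p.1 - 1 / 4)) : flow_part Mq N m p = 0 := by
  unfold flow_part
  apply Finset.sum_eq_zero
  intro i hi
  have hi' : i < m := Finset.mem_range.mp hi
  have h1 : ((i : ℝ) + 1) ≤ 2 * N * (p.1 - 1 / 4) := by
    have : ((i : ℝ) + 1) ≤ m := by exact_mod_cast hi'
    linarith
  show deriv (Move.slotS N i) p.1 • (Mq i).W p.2 = 0
  rw [Move.deriv_slotS_eq_zero_of_ge h1, zero_smul]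

theorem flow_step_deriv (M : Move) (N m : ℕ) (Ψ : ℝ → Fin 3 → ℝ) (D : Fin 3 → ℝ) (t : ℝ)
    (hΨ : HasDerivAt Ψ D t) :
    HasDerivAt (fun s => M.flow (Move.slotS N m s) (Ψ s))
      (D + (deriv (Move.slotS N m) t * ((M.v : ℝ) + M.c * (Ψ t M.l - M.o)) +
        Move.slotS N m t * (M.c * D M.l)) • Pi.single M.k (1 : ℝ)) t := by
  have hfun : (fun s => M.flow (Move.slotS N m s) (Ψ s)) = fun s => Ψ s +
      (Move.slotS N m s * ((M.v : ℝ) + M.c * (Ψ s M.l - M.o))) • Pi.single M.k (1 : ℝ) := by
    funext s; exact flow_flow_eq M _ _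
  rw [hfun]
  have hσ : HasDerivAt (Move.slotS N m) (deriv (Move.slotS N m) t) t :=
    ((Move.slotS_contDiff N m).differentiable (by simp)).differentiableAt.hasDerivAt
  have hl : HasDerivAt (fun s => Ψ s M.l) (D M.l) t := (hasDerivAt_pi.mp hΨ) M.l
  have h1 : HasDerivAt (fun s => Move.slotS N m s * ((M.v : ℝ) + M.c * (Ψ s M.l - M.o)))
      (deriv (Move.slotS N m) t * ((M.v : ℝ) + M.c * (Ψ t M.l - M.o)) +
        Move.slotS N m t * (M.c * D M.l)) t :=
    hσ.mul (((hl.sub_const (M.o : ℝ)).const_mul (M.c : ℝ)).const_add (M.v : ℝ))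
  exact hΨ.add (h1.smul_const (Pi.single M.k (1 : ℝ) : Fin 3 → ℝ))

theorem flow_traj_spec (Mq : ℕ → Move) (N : ℕ) (x : Fin 3 → ℝ) (m : ℕ)
    (hWF : ∀ i < m, (Mq i).WF) (hok : ∀ i < m, (Mq i).ok (flow_pos Mq x i)) :
    (∀ t, HasDerivAt (flow_traj Mq N x m) (flow_part Mq N m (t, flow_traj Mq N x m t)) t) ∧
    (∀ t, (m : ℝ) ≤ 2 * (N : ℝ) * (t - 1 / 4) → flow_traj Mq N x m t = flow_pos Mq x m) ∧
    (∀ t, t ≤ 1 / 4 → flow_traj Mq N x m t = x) := by
  induction m with
  | zero =>
    refine ⟨fun t => ?_, fun t _ => rfl, fun t _ => rfl⟩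
    have h1 : flow_traj Mq N x 0 = fun _ => x := rfl
    have h2 : flow_part Mq N 0 (t, flow_traj Mq N x 0 t) = 0 := by simp [flow_part]
    rw [h2, h1]
    exact hasDerivAt_const t x
  | succ m ih =>
    obtain ⟨ih1, ih2, ih3⟩ := ih (fun i hi => hWF i (Nat.lt_succ_of_lt hi))
      (fun i hi => hok i (Nat.lt_succ_of_lt hi))
    have hM := hWF m (Nat.lt_succ_self m)
    have hokm := hok m (Nat.lt_succ_self m)
    by_cases hin : (Mq m).inP (flow_pos Mq x m)
    · have htraj : flow_traj Mq N x (m + 1) =
          fun t => (Mq m).flow (Move.slotS N m t) (flow_traj Mq N x m t) := by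
        funext t
        rw [flow_traj, if_pos hin]
      have hplateau := flow_ok_inP (Mq m) hM hokm hin
      refine ⟨fun t => ?_, fun t ht => ?_, fun t ht => ?_⟩
      · have key := flow_step_deriv (Mq m) N m (flow_traj Mq N x m) _ t (ih1 t)
        rw [htraj]
        rw [flow_part_succ]
        rcases le_total (2 * (N : ℝ) * (t - 1 / 4)) m with hle | hge
        · have hs0 : Move.slotS N m t = 0 := Move.slotS_eq_zero hle
          have hd0 : deriv (Move.slotS N m) t = 0 := Move.deriv_slotS_eq_zero_of_le hle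
          convert key using 1
          show flow_part Mq N m (t, (Mq m).flow (Move.slotS N m t) (flow_traj Mq N x m t)) +
            deriv (Move.slotS N m) t •
              (Mq m).W ((Mq m).flow (Move.slotS N m t) (flow_traj Mq N x m t)) = _
          rw [hs0, hd0, flow_flow_zero]
          simp
        · have hΨ : flow_traj Mq N x m t = flow_pos Mq x m := ih2 t hge
          have hD0 : ∀ z, flow_part Mq N m (t, z) = 0 := fun z =>
            flow_part_eq_zero Mq N m (t, z) hge
          have hσ01 : Move.slotS N m t ∈ Set.Icc (0 : ℝ) 1 :=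
            ⟨Real.smoothTransition.nonneg _, Real.smoothTransition.le_one _⟩
          have hW := Move.W_eq_of_inP (Mq m) hM (hplateau _ hσ01)
          convert key using 1
          show flow_part Mq N m (t, (Mq m).flow (Move.slotS N m t) (flow_traj Mq N x m t)) +
            deriv (Move.slotS N m) t •
              (Mq m).W ((Mq m).flow (Move.slotS N m t) (flow_traj Mq N x m t)) = _
          rw [hD0, hD0, hΨ, hW, flow_flow_l (Mq m) hM]
          funext i
          by_cases hi : i = (Mq m).k
          · subst hi; simp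
          · simp [Pi.single_eq_of_ne hi]
      · have ht' : (m : ℝ) ≤ 2 * (N : ℝ) * (t - 1 / 4) := by
          push_cast at ht; linarith
        have hs1 : Move.slotS N m t = 1 := Move.slotS_eq_one (by push_cast at ht; linarith)
        rw [htraj]
        show (Mq m).flow (Move.slotS N m t) (flow_traj Mq N x m t) =
          (Mq m).next (flow_pos Mq x m)
        rw [hs1, ih2 t ht']
        unfold Move.next
        rw [if_pos hin]
      · have hs0 : Move.slotS N m t = 0 := Move.slotS_eq_zero (by
          have : (0 : ℝ) ≤ m := Nat.cast_nonneg m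
          have hN : (0 : ℝ) ≤ N := Nat.cast_nonneg N
          nlinarith)
        rw [htraj]
        show (Mq m).flow (Move.slotS N m t) (flow_traj Mq N x m t) = x
        rw [hs0, flow_flow_zero, ih3 t ht]
    · have htraj : flow_traj Mq N x (m + 1) = flow_traj Mq N x m := by
        funext t
        rw [flow_traj, if_neg hin]
      have hout := flow_ok_not_inP (Mq m) hokm hin
      refine ⟨fun t => ?_, fun t ht => ?_, fun t ht => ?_⟩
      · rw [htraj, flow_part_succ]
        have hU0 : (Mq m).U N m (t, flow_traj Mq N x m t) = 0 := by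
          show deriv (Move.slotS N m) t • (Mq m).W (flow_traj Mq N x m t) = 0
          rcases le_total (2 * (N : ℝ) * (t - 1 / 4)) m with hle | hge
          · rw [Move.deriv_slotS_eq_zero_of_le hle, zero_smul]
          · rw [ih2 t hge, Move.W_eq_zero_of_outQ (Mq m) hM hout, smul_zero]
        rw [hU0, add_zero]
        exact ih1 t
      · have ht' : (m : ℝ) ≤ 2 * (N : ℝ) * (t - 1 / 4) := by
          push_cast at ht; linarith
        rw [htraj, ih2 t ht']
        show flow_pos Mq x m = (Mq m).next (flow_pos Mq x m)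
        unfold Move.next
        rw [if_neg hin]
      · rw [htraj]; exact ih3 t ht

/-! ### from lists to sequences -/

/-- a dummy move. -/
def flow_dummy : Move := ⟨0, 0, 0, 0, 0, 0, 0, 0⟩

/-- the sequence of moves of a list (extended by a dummy). -/
def flow_seq (Ms : List Move) : ℕ → Move := fun i => Ms.getD i flow_dummy

theorem flow_pos_cons (M : Move) (Ms : List Move) (x : Fin 3 → ℝ) (m : ℕ) :
    flow_pos (flow_seq (M :: Ms)) x (m + 1) = flow_pos (flow_seq Ms) (M.next x) m := by
  induction m with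
  | zero => rfl
  | succ m ih =>
    show (flow_seq (M :: Ms) (m + 1)).next (flow_pos (flow_seq (M :: Ms)) x (m + 1)) =
      (flow_seq Ms m).next (flow_pos (flow_seq Ms) (M.next x) m)
    rw [ih]
    rfl

theorem flow_planFinal (Ms : List Move) (x : Fin 3 → ℝ) :
    planFinal Ms x = flow_pos (flow_seq Ms) x Ms.length := by
  induction Ms generalizing x with
  | nil => rfl
  | cons M Ms ih =>
    show planFinal Ms (M.next x) = flow_pos (flow_seq (M :: Ms)) x (Ms.length + 1)
    rw [flow_pos_cons, ih]

theorem flow_planValid (Ms : List Move) (x : Fin 3 → ℝ) (h : planValid Ms x) :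
    ∀ i < Ms.length, (flow_seq Ms i).ok (flow_pos (flow_seq Ms) x i) := by
  induction Ms generalizing x with
  | nil => intro i hi; exact absurd hi (Nat.not_lt_zero _)
  | cons M Ms ih =>
    obtain ⟨h1, h2⟩ := h
    intro i hi
    cases i with
    | zero => exact h1
    | succ j =>
      rw [flow_pos_cons]
      exact ih (M.next x) h2 j (Nat.lt_of_succ_lt_succ hi)

theorem flow_seq_mem (Ms : List Move) (i : ℕ) (hi : i < Ms.length) : flow_seq Ms i ∈ Ms := by
  unfold flow_seq
  rw [List.getD_eq_getElem _ _ hi]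
  exact List.getElem_mem hi

theorem flow_planU (Ms : List Move) (p : ST) :
    planU Ms p = flow_part (flow_seq Ms) Ms.length Ms.length p := by
  unfold planU flow_part
  rw [← Fin.sum_univ_eq_sum_range (fun i => (flow_seq Ms i).U Ms.length i p) Ms.length]
  refine Finset.sum_congr rfl (fun m _ => ?_)
  have : Ms.get m = flow_seq Ms m := by
    unfold flow_seq
    rw [List.getD_eq_getElem _ _ m.isLt]; rfl
  rw [this]

/-! ### properties of the field of a plan -/

theorem flow_planU_effR (Ms : List Move) (hWF : ∀ M ∈ Ms, M.WF) (j : Fin 3) :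
    EffR (fun p => planU Ms p j) := by
  have h := EffR.sum (Finset.univ : Finset (Fin Ms.length))
    (u := fun m p => (Ms.get m).U Ms.length m p j)
    (fun m _ => Move.U_effR (Ms.get m) (hWF _ (List.get_mem Ms m)) Ms.length m j)
  refine h.of_eq (fun p => ?_)
  unfold planU
  rw [Finset.sum_apply]

theorem flow_planU_zero (Ms : List Move) (p : ST) (hp : p.1 ∉ Set.Icc (1 / 4 : ℝ) (3 / 4)) :
    planU Ms p = 0 := by
  unfold planU
  apply Finset.sum_eq_zero
  intro m _
  show deriv (Move.slotS Ms.length m) p.1 • (Ms.get m).W p.2 = 0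
  have hd : deriv (Move.slotS Ms.length m) p.1 = 0 := by
    rw [Set.mem_Icc, not_and_or, not_le, not_le] at hp
    have hN : (0 : ℝ) ≤ Ms.length := Nat.cast_nonneg _
    rcases hp with hp | hp
    · apply Move.deriv_slotS_eq_zero_of_le
      have : (0 : ℝ) ≤ (m : ℕ) := Nat.cast_nonneg _
      nlinarith
    · apply Move.deriv_slotS_eq_zero_of_ge
      have : ((m : ℕ) : ℝ) + 1 ≤ Ms.length := by exact_mod_cast m.isLt
      nlinarith
  rw [hd, zero_smul]

theorem flow_planU_compact (Ms : List Move) (hWF : ∀ M ∈ Ms, M.WF) :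
    HasCompactSupport (planU Ms) := by
  set R : ℝ := ∑ m : Fin Ms.length, ∑ i : Fin 3,
    (|((Ms.get m).lo i : ℝ)| + |((Ms.get m).hi i : ℝ)|) with hR
  have hRb : ∀ (m : Fin Ms.length) (i : Fin 3),
      |((Ms.get m).lo i : ℝ)| ≤ R ∧ |((Ms.get m).hi i : ℝ)| ≤ R := by
    intro m i
    have h1 : |((Ms.get m).lo i : ℝ)| + |((Ms.get m).hi i : ℝ)| ≤
        ∑ i : Fin 3, (|((Ms.get m).lo i : ℝ)| + |((Ms.get m).hi i : ℝ)|) :=
      Finset.single_le_sum (f := fun i => |((Ms.get m).lo i : ℝ)| + |((Ms.get m).hi i : ℝ)|)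
        (fun i _ => by positivity) (Finset.mem_univ i)
    have h2 : ∑ i : Fin 3, (|((Ms.get m).lo i : ℝ)| + |((Ms.get m).hi i : ℝ)|) ≤ R :=
      Finset.single_le_sum (f := fun m : Fin Ms.length =>
        ∑ i : Fin 3, (|((Ms.get m).lo i : ℝ)| + |((Ms.get m).hi i : ℝ)|))
        (fun m _ => by positivity) (Finset.mem_univ m)
    constructor <;>
      linarith [abs_nonneg ((Ms.get m).lo i : ℝ), abs_nonneg ((Ms.get m).hi i : ℝ)]
  have hR0 : 0 ≤ R := by rw [hR]; positivity
  refine HasCompactSupport.intro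
    (K := Set.Icc (1 / 4 : ℝ) (3 / 4) ×ˢ Metric.closedBall (0 : Fin 3 → ℝ) R)
    (isCompact_Icc.prod (isCompact_closedBall _ _)) ?_
  intro p hp
  by_cases ht : p.1 ∈ Set.Icc (1 / 4 : ℝ) (3 / 4)
  · have hx : p.2 ∉ Metric.closedBall (0 : Fin 3 → ℝ) R := fun hx => hp ⟨ht, hx⟩
    rw [mem_closedBall_zero_iff, pi_norm_le_iff_of_nonneg hR0] at hx
    simp only [not_forall, not_le] at hx
    obtain ⟨i, hi⟩ := hx
    unfold planU
    apply Finset.sum_eq_zero
    intro m _
    show deriv (Move.slotS Ms.length m) p.1 • (Ms.get m).W p.2 = 0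
    have hout : (Ms.get m).outQ p.2 := by
      refine ⟨i, ?_⟩
      have := hRb m i
      rw [Real.norm_eq_abs] at hi
      rcases le_or_gt 0 (p.2 i) with h0 | h0
      · right; rw [abs_of_nonneg h0] at hi
        linarith [le_abs_self ((Ms.get m).hi i : ℝ)]
      · left; rw [abs_of_neg h0] at hi
        linarith [neg_abs_le ((Ms.get m).lo i : ℝ)]
    rw [Move.W_eq_zero_of_outQ _ (hWF _ (List.get_mem Ms m)) hout, smul_zero]
  · exact flow_planU_zero Ms p ht

theorem flow_planU_div (Ms : List Move) (hWF : ∀ M ∈ Ms, M.WF) (p : ST) :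
    spaceDiv (planU Ms) p = 0 := by
  have hdiff : ∀ m : Fin Ms.length, DifferentiableAt ℝ ((Ms.get m).U Ms.length m) p := by
    intro m
    have := (effective_of_components (U := (Ms.get m).U Ms.length m)
      (fun j => Move.U_effR (Ms.get m) (hWF _ (List.get_mem Ms m)) Ms.length m j)).1
    exact (this.differentiable (by simp)).differentiableAt
  have hfd : fderiv ℝ (planU Ms) p =
      ∑ m : Fin Ms.length, fderiv ℝ ((Ms.get m).U Ms.length m) p := by
    have : planU Ms = fun p => ∑ m : Fin Ms.length, (Ms.get m).U Ms.length m p := rfl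
    rw [this]
    exact fderiv_fun_sum (fun m _ => hdiff m)
  unfold spaceDiv
  rw [hfd]
  simp only [FunLike.coe_sum, Finset.sum_apply]
  rw [Finset.sum_comm]
  apply Finset.sum_eq_zero
  intro m _
  exact Move.spaceDiv_U (Ms.get m) (hWF _ (List.get_mem Ms m)) Ms.length m p

/-- `flow_exists`, proved here; restated in `Flow.lean`. -/
theorem flow_exists_aux (Ms : List Move) (hWF : ∀ M ∈ Ms, M.WF) :
    ∃ (U : Field) (Φ : ℝ → (Fin 3 → ℝ) → (Fin 3 → ℝ)),
      ContDiff ℝ ∞ U ∧ HasCompactSupport U ∧ Effective U ∧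
      (∀ p : ℝ × (Fin 3 → ℝ), p.1 ∉ Set.Icc (1 / 4 : ℝ) (3 / 4) → U p = 0) ∧
      (∀ p : ℝ × (Fin 3 → ℝ), spaceDiv U p = 0) ∧ IsFlow U Φ ∧
      ∀ x : Fin 3 → ℝ, planValid Ms x → Φ 1 x = planFinal Ms x := by
  classical
  obtain ⟨hsm, heff⟩ := effective_of_components (U := planU Ms)
    (fun j => flow_planU_effR Ms hWF j)
  have hcs := flow_planU_compact Ms hWF
  have hzero : ∀ p : ℝ × (Fin 3 → ℝ), p.1 ∉ Set.Icc (1 / 4 : ℝ) (3 / 4) → planU Ms p = 0 :=
    flow_planU_zero Ms
  have hsol := flow_global_solution (planU Ms) hsm hcs hzero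
  choose γ hγ0 hγ using hsol
  have hspec : ∀ x, planValid Ms x →
      (∀ t, HasDerivAt (flow_traj (flow_seq Ms) Ms.length x Ms.length)
        (planU Ms (t, flow_traj (flow_seq Ms) Ms.length x Ms.length t)) t) ∧
      (∀ t, (Ms.length : ℝ) ≤ 2 * (Ms.length : ℝ) * (t - 1 / 4) →
        flow_traj (flow_seq Ms) Ms.length x Ms.length t = planFinal Ms x) ∧
      (∀ t, t ≤ 1 / 4 → flow_traj (flow_seq Ms) Ms.length x Ms.length t = x) := by
    intro x hv
    have h := flow_traj_spec (flow_seq Ms) Ms.length x Ms.length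
      (fun i hi => hWF _ (flow_seq_mem Ms i hi)) (flow_planValid Ms x hv)
    refine ⟨fun t => ?_, fun t ht => ?_, h.2.2⟩
    · rw [flow_planU]; exact h.1 t
    · rw [flow_planFinal]; exact h.2.1 t ht
  refine ⟨planU Ms, fun t x => if planValid Ms x then
      flow_traj (flow_seq Ms) Ms.length x Ms.length t else γ x t,
    hsm, hcs, heff, hzero, flow_planU_div Ms hWF, ⟨?_, ?_⟩, ?_⟩
  · intro x
    by_cases hv : planValid Ms x
    · show (if planValid Ms x then _ else _) = x
      rw [if_pos hv]
      exact (hspec x hv).2.2 0 (by norm_num)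
    · show (if planValid Ms x then _ else _) = x
      rw [if_neg hv]; exact hγ0 x
  · intro t x
    by_cases hv : planValid Ms x
    · have hfun : (fun s => if planValid Ms x then
          flow_traj (flow_seq Ms) Ms.length x Ms.length s else γ x s) =
          flow_traj (flow_seq Ms) Ms.length x Ms.length := by
        funext s; rw [if_pos hv]
      show HasDerivAt (fun s => if planValid Ms x then
          flow_traj (flow_seq Ms) Ms.length x Ms.length s else γ x s)
        (planU Ms (t, if planValid Ms x then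
          flow_traj (flow_seq Ms) Ms.length x Ms.length t else γ x t)) t
      rw [hfun, if_pos hv]
      exact (hspec x hv).1 t
    · have hfun : (fun s => if planValid Ms x then
          flow_traj (flow_seq Ms) Ms.length x Ms.length s else γ x s) = γ x := by
        funext s; rw [if_neg hv]
      show HasDerivAt (fun s => if planValid Ms x then
          flow_traj (flow_seq Ms) Ms.length x Ms.length s else γ x s)
        (planU Ms (t, if planValid Ms x then
          flow_traj (flow_seq Ms) Ms.length x Ms.length t else γ x t)) t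
      rw [hfun, if_neg hv]
      exact hγ x t
  · intro x hv
    show (if planValid Ms x then _ else _) = _
    rw [if_pos hv]
    refine (hspec x hv).2.1 1 ?_
    have hN : (0 : ℝ) ≤ Ms.length := Nat.cast_nonneg _
    nlinarith

end Crest.Agent.S0170
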