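import Crest.Agent.S0170Lib.Defs

/-!
# S0170: auxiliary lemmas for `MoveField` (owner: helper3)

Analytic facts about `plateau`, the factors of a move, `prod3`, and the divergence computation.
No effectiveness here (see `MoveField.lean`).
-/

set_option autoImplicit false
open scoped ContDiff
open Crest.AnalysisR.BoxFlow

namespace Crest.Agent.S0170

/-! ### the plateau function -/

theorem moveField_plateau_contDiff (lo hi δ : ℚ) : ContDiff ℝ ∞ (plateau lo hi δ) := by
  show ContDiff ℝ ∞ (fun x : ℝ =>
    Real.smoothTransition ((x - lo) / δ) * Real.smoothTransition ((hi - x) / δ))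
  exact (Real.smoothTransition.contDiff.comp (by fun_prop)).mul
    (Real.smoothTransition.contDiff.comp (by fun_prop))

theorem moveField_plateau_nonneg (lo hi δ : ℚ) (x : ℝ) : 0 ≤ plateau lo hi δ x :=
  mul_nonneg (Real.smoothTransition.nonneg _) (Real.smoothTransition.nonneg _)

theorem moveField_plateau_le_one (lo hi δ : ℚ) (x : ℝ) : plateau lo hi δ x ≤ 1 :=
  mul_le_one₀ (Real.smoothTransition.le_one _) (Real.smoothTransition.nonneg _)
    (Real.smoothTransition.le_one _)

theorem moveField_plateau_eq_zero {lo hi δ : ℚ} (hδ : 0 < δ) {x : ℝ}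
    (h : x ≤ (lo : ℝ) ∨ (hi : ℝ) ≤ x) : plateau lo hi δ x = 0 := by
  have hδ' : (0 : ℝ) < δ := by exact_mod_cast hδ
  unfold plateau
  rcases h with h | h
  · have h0 : Real.smoothTransition ((x - (lo : ℝ)) / (δ : ℝ)) = 0 :=
      Real.smoothTransition.zero_of_nonpos (div_nonpos_of_nonpos_of_nonneg (by linarith) hδ'.le)
    rw [h0, zero_mul]
  · have h0 : Real.smoothTransition (((hi : ℝ) - x) / (δ : ℝ)) = 0 :=
      Real.smoothTransition.zero_of_nonpos (div_nonpos_of_nonpos_of_nonneg (by linarith) hδ'.le)
    rw [h0, mul_zero]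

theorem moveField_plateau_eq_one {lo hi δ : ℚ} (hδ : 0 < δ) {x : ℝ}
    (h1 : (lo : ℝ) + δ ≤ x) (h2 : x ≤ (hi : ℝ) - δ) : plateau lo hi δ x = 1 := by
  have hδ' : (0 : ℝ) < δ := by exact_mod_cast hδ
  unfold plateau
  have h3 : Real.smoothTransition ((x - (lo : ℝ)) / (δ : ℝ)) = 1 := by
    apply Real.smoothTransition.one_of_one_le
    rw [le_div_iff₀ hδ']
    linarith
  have h4 : Real.smoothTransition (((hi : ℝ) - x) / (δ : ℝ)) = 1 := by
    apply Real.smoothTransition.one_of_one_le
    rw [le_div_iff₀ hδ']
    linarith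
  rw [h3, h4, one_mul]

theorem moveField_deriv_plateau_of_zero {lo hi δ : ℚ} {x : ℝ} (h : plateau lo hi δ x = 0) :
    deriv (plateau lo hi δ) x = 0 := by
  apply IsLocalMin.deriv_eq_zero
  exact Filter.Eventually.of_forall (fun y => by rw [h]; exact moveField_plateau_nonneg lo hi δ y)

theorem moveField_deriv_plateau_of_one {lo hi δ : ℚ} {x : ℝ} (h : plateau lo hi δ x = 1) :
    deriv (plateau lo hi δ) x = 0 := by
  apply IsLocalMax.deriv_eq_zero
  exact Filter.Eventually.of_forall (fun y => by rw [h]; exact moveField_plateau_le_one lo hi δ y)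

/-! ### `prod3` -/

theorem moveField_prod3_eq_zero {F : Fin 3 → ℝ → ℝ} {x : Fin 3 → ℝ} (i : Fin 3)
    (h : F i (x i) = 0) : Move.prod3 F x = 0 := by
  unfold Move.prod3
  fin_cases i <;> simp_all

theorem moveField_prod3_eq_of_one {F : Fin 3 → ℝ → ℝ} {x : Fin 3 → ℝ} (l : Fin 3)
    (h : ∀ j, j ≠ l → F j (x j) = 1) : Move.prod3 F x = F l (x l) := by
  unfold Move.prod3
  fin_cases l
  · have h1 := h 1 (by decide)
    have h2 := h 2 (by decide)
    simp [h1, h2]
  · have h0 := h 0 (by decide)
    have h2 := h 2 (by decide)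
    simp [h0, h2]
  · have h0 := h 0 (by decide)
    have h1 := h 1 (by decide)
    simp [h0, h1]

theorem moveField_prod3_differentiable {F : Fin 3 → ℝ → ℝ} (hF : ∀ i, Differentiable ℝ (F i)) :
    Differentiable ℝ (Move.prod3 F) := by
  show Differentiable ℝ (fun x : Fin 3 → ℝ => F 0 (x 0) * F 1 (x 1) * F 2 (x 2))
  exact (((hF 0).comp (differentiable_apply 0)).mul ((hF 1).comp (differentiable_apply 1))).mul
    ((hF 2).comp (differentiable_apply 2))

/-- the partial derivative of `prod3 F` in the direction `e_j`. -/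
theorem moveField_prod3_hasDerivAt {F : Fin 3 → ℝ → ℝ} (hF : ∀ i, Differentiable ℝ (F i))
    (x : Fin 3 → ℝ) (j : Fin 3) :
    HasDerivAt (fun s : ℝ => Move.prod3 F (x + s • (Pi.single j (1 : ℝ) : Fin 3 → ℝ)))
      (Move.prod3 (Function.update F j (deriv (F j))) x) 0 := by
  have key : ∀ i : Fin 3,
      HasDerivAt (fun s : ℝ => F i ((x + s • (Pi.single j (1 : ℝ) : Fin 3 → ℝ)) i))
        (deriv (F i) (x i) * (Pi.single j (1 : ℝ) : Fin 3 → ℝ) i) 0 := by
    intro i
    have h1 : HasDerivAt (fun s : ℝ => (x + s • (Pi.single j (1 : ℝ) : Fin 3 → ℝ)) i)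
        ((Pi.single j (1 : ℝ) : Fin 3 → ℝ) i) 0 := by
      have h := ((hasDerivAt_id (0 : ℝ)).mul_const
        ((Pi.single j (1 : ℝ) : Fin 3 → ℝ) i)).const_add (x i)
      simpa using h
    have h2 : HasDerivAt (F i) (deriv (F i) (x i))
        ((x + (0 : ℝ) • (Pi.single j (1 : ℝ) : Fin 3 → ℝ)) i) := by
      simpa using (hF i).differentiableAt.hasDerivAt (x := x i)
    exact h2.comp 0 h1
  have h := ((key 0).fun_mul (key 1)).fun_mul (key 2)
  refine h.congr_deriv ?_
  fin_cases j <;> simp [Move.prod3]

theorem moveField_sum_three (k l : Fin 3) (hkl : k ≠ l) (A : ℝ) :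
    ∑ j : Fin 3, (if j = k then A else if j = l then -A else 0) = 0 := by
  fin_cases k <;> fin_cases l <;> simp_all [Fin.sum_univ_three]

/-! ### smoothness of the factors of a move -/

theorem moveField_contDiff_differentiable {f : ℝ → ℝ} (hf : ContDiff ℝ ∞ f) :
    Differentiable ℝ f :=
  hf.differentiable (by simp)

theorem moveField_contDiff_deriv {f : ℝ → ℝ} (hf : ContDiff ℝ ∞ f) : ContDiff ℝ ∞ (deriv f) :=
  (contDiff_infty_iff_deriv.mp hf).2

theorem moveField_slotS_contDiff (N m : ℕ) : ContDiff ℝ ∞ (Move.slotS N m) := by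
  show ContDiff ℝ ∞ (fun t : ℝ => Real.smoothTransition (2 * (N : ℝ) * (t - 1 / 4) - m))
  exact Real.smoothTransition.contDiff.comp (by fun_prop)

theorem moveField_p_contDiff (M : Move) (i : Fin 3) : ContDiff ℝ ∞ (M.p i) :=
  moveField_plateau_contDiff _ _ _

theorem moveField_q_hasDerivAt (M : Move) (x : ℝ) :
    HasDerivAt M.q ((M.v : ℝ) + M.c * (x - M.o)) x := by
  have h1 : HasDerivAt (fun y : ℝ => y - (M.o : ℝ)) 1 x := (hasDerivAt_id x).sub_const _
  have h := (h1.const_mul (M.v : ℝ)).fun_add ((h1.fun_pow 2).const_mul ((M.c : ℝ) / 2))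
  refine HasDerivAt.congr_deriv (f := M.q) h ?_
  norm_num
  ring

theorem moveField_q_contDiff (M : Move) : ContDiff ℝ ∞ M.q := by
  show ContDiff ℝ ∞ (fun x : ℝ => (M.v : ℝ) * (x - M.o) + M.c / 2 * (x - M.o) ^ 2)
  fun_prop

theorem moveField_g_contDiff (M : Move) : ContDiff ℝ ∞ M.g :=
  (moveField_q_contDiff M).mul (moveField_p_contDiff M M.l)

theorem moveField_deriv_g (M : Move) (x : ℝ) :
    deriv M.g x =
      ((M.v : ℝ) + M.c * (x - M.o)) * M.p M.l x + M.q x * deriv (M.p M.l) x := by
  have hp : HasDerivAt (M.p M.l) (deriv (M.p M.l) x) x :=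
    (moveField_contDiff_differentiable (moveField_p_contDiff M M.l)).differentiableAt.hasDerivAt
  exact HasDerivAt.deriv (f := M.g) ((moveField_q_hasDerivAt M x).fun_mul hp)

theorem moveField_F1_differentiable (M : Move) (i : Fin 3) :
    Differentiable ℝ (Function.update M.p M.l (deriv M.g) i) := by
  by_cases h : i = M.l
  · subst h
    rw [Function.update_self]
    exact moveField_contDiff_differentiable (moveField_contDiff_deriv (moveField_g_contDiff M))
  · rw [Function.update_of_ne h]
    exact moveField_contDiff_differentiable (moveField_p_contDiff M i)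

theorem moveField_F2_differentiable (M : Move) (i : Fin 3) :
    Differentiable ℝ
      (Function.update (Function.update M.p M.k (deriv (M.p M.k))) M.l M.g i) := by
  by_cases h : i = M.l
  · subst h
    rw [Function.update_self]
    exact moveField_contDiff_differentiable (moveField_g_contDiff M)
  · rw [Function.update_of_ne h]
    by_cases h' : i = M.k
    · subst h'
      rw [Function.update_self]
      exact moveField_contDiff_differentiable
        (moveField_contDiff_deriv (moveField_p_contDiff M M.k))
    · rw [Function.update_of_ne h']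
      exact moveField_contDiff_differentiable (moveField_p_contDiff M i)

theorem moveField_W_differentiable (M : Move) : Differentiable ℝ M.W := by
  rw [differentiable_pi]
  intro i
  show Differentiable ℝ (fun x : Fin 3 → ℝ =>
    if i = M.k then Move.prod3 (Function.update M.p M.l (deriv M.g)) x
    else if i = M.l then
      - Move.prod3 (Function.update (Function.update M.p M.k (deriv (M.p M.k))) M.l M.g) x
    else 0)
  by_cases hik : i = M.k
  · simp only [if_pos hik]
    exact moveField_prod3_differentiable (moveField_F1_differentiable M)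
  · simp only [if_neg hik]
    by_cases hil : i = M.l
    · simp only [if_pos hil]
      exact (moveField_prod3_differentiable (moveField_F2_differentiable M)).neg
    · simp only [if_neg hil]
      exact differentiable_const 0

theorem moveField_U_differentiable (M : Move) (N m : ℕ) : Differentiable ℝ (M.U N m) := by
  show Differentiable ℝ (fun p : ST => deriv (Move.slotS N m) p.1 • M.W p.2)
  exact ((moveField_contDiff_differentiable
    (moveField_contDiff_deriv (moveField_slotS_contDiff N m))).comp differentiable_fst).smul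
    ((moveField_W_differentiable M).comp differentiable_snd)

/-! ### the field on the plateau and outside the support -/

theorem moveField_W_eq_zero (M : Move) (hM : M.WF) {y : Fin 3 → ℝ} (h : M.outQ y) :
    M.W y = 0 := by
  obtain ⟨hkl, hδ⟩ := hM
  obtain ⟨i, hi⟩ := h
  have hp0 : M.p i (y i) = 0 := moveField_plateau_eq_zero hδ hi
  have hdp0 : deriv (M.p i) (y i) = 0 := moveField_deriv_plateau_of_zero hp0
  have e1 : Move.prod3 (Function.update M.p M.l (deriv M.g)) y = 0 := by
    apply moveField_prod3_eq_zero i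
    by_cases hil : i = M.l
    · subst hil
      rw [Function.update_self, moveField_deriv_g, hp0, hdp0]
      ring
    · rw [Function.update_of_ne hil]
      exact hp0
  have e2 : Move.prod3
      (Function.update (Function.update M.p M.k (deriv (M.p M.k))) M.l M.g) y = 0 := by
    apply moveField_prod3_eq_zero i
    by_cases hil : i = M.l
    · subst hil
      rw [Function.update_self]
      show M.q (y M.l) * M.p M.l (y M.l) = 0
      rw [hp0, mul_zero]
    · rw [Function.update_of_ne hil]
      by_cases hik : i = M.k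
      · subst hik
        rw [Function.update_self]
        exact hdp0
      · rw [Function.update_of_ne hik]
        exact hp0
  funext j
  show (if j = M.k then Move.prod3 (Function.update M.p M.l (deriv M.g)) y
    else if j = M.l then
      - Move.prod3 (Function.update (Function.update M.p M.k (deriv (M.p M.k))) M.l M.g) y
    else 0) = 0
  rw [e1, e2]
  simp

theorem moveField_W_eq (M : Move) (hM : M.WF) {y : Fin 3 → ℝ} (h : M.inP y) :
    M.W y = Pi.single M.k ((M.v : ℝ) + M.c * (y M.l - M.o)) := by
  obtain ⟨hkl, hδ⟩ := hM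
  have hp1 : ∀ i, M.p i (y i) = 1 := fun i =>
    moveField_plateau_eq_one hδ (h i).1.le (h i).2.le
  have hdp : ∀ i, deriv (M.p i) (y i) = 0 := fun i => moveField_deriv_plateau_of_one (hp1 i)
  have e1 : Move.prod3 (Function.update M.p M.l (deriv M.g)) y =
      (M.v : ℝ) + M.c * (y M.l - M.o) := by
    rw [moveField_prod3_eq_of_one M.l
      (fun j hj => by rw [Function.update_of_ne hj]; exact hp1 j),
      Function.update_self, moveField_deriv_g, hp1, hdp]
    ring
  have e2 : Move.prod3
      (Function.update (Function.update M.p M.k (deriv (M.p M.k))) M.l M.g) y = 0 := by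
    apply moveField_prod3_eq_zero M.k
    rw [Function.update_of_ne hkl, Function.update_self]
    exact hdp M.k
  funext j
  show (if j = M.k then Move.prod3 (Function.update M.p M.l (deriv M.g)) y
    else if j = M.l then
      - Move.prod3 (Function.update (Function.update M.p M.k (deriv (M.p M.k))) M.l M.g) y
    else 0) = _
  rw [e1, e2]
  by_cases hjk : j = M.k
  · rw [if_pos hjk, hjk, Pi.single_eq_same]
  · rw [if_neg hjk, Pi.single_eq_of_ne hjk]
    simp

/-! ### the divergence -/

theorem moveField_fderiv_U (M : Move) (hkl : M.k ≠ M.l) (N m : ℕ) (p : ST) (j : Fin 3) :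
    fderiv ℝ (M.U N m) p (0, Pi.single j 1) j =
      deriv (Move.slotS N m) p.1 *
        (if j = M.k then
          Move.prod3 (Function.update (Function.update M.p M.k (deriv (M.p M.k))) M.l
            (deriv M.g)) p.2
        else if j = M.l then
          - Move.prod3 (Function.update (Function.update M.p M.k (deriv (M.p M.k))) M.l
            (deriv M.g)) p.2
        else 0) := by
  have hU := (moveField_U_differentiable M N m p).hasFDerivAt
  have hL : HasDerivAt (fun t : ℝ => M.U N m (p + t • ((0 : ℝ), (Pi.single j (1 : ℝ) : Fin 3 → ℝ))))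
      (fderiv ℝ (M.U N m) p (0, Pi.single j 1)) 0 := hU.hasLineDerivAt _
  have hLj := hasDerivAt_pi.mp hL j
  have e : (fun t : ℝ => M.U N m (p + t • ((0 : ℝ), (Pi.single j (1 : ℝ) : Fin 3 → ℝ))) j) =
      fun t : ℝ => deriv (Move.slotS N m) p.1 *
        M.W (p.2 + t • (Pi.single j (1 : ℝ) : Fin 3 → ℝ)) j := by
    funext t
    simp [Move.U]
  rw [e] at hLj
  refine hLj.unique (HasDerivAt.const_mul _ ?_)
  by_cases hjk : j = M.k
  · have eW : (fun t : ℝ => M.W (p.2 + t • (Pi.single j (1 : ℝ) : Fin 3 → ℝ)) j) =
        fun t : ℝ => Move.prod3 (Function.update M.p M.l (deriv M.g))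
          (p.2 + t • (Pi.single j (1 : ℝ) : Fin 3 → ℝ)) := by
      funext t
      simp [Move.W, hjk]
    rw [eW, if_pos hjk]
    have h := moveField_prod3_hasDerivAt (moveField_F1_differentiable M) p.2 j
    refine h.congr_deriv ?_
    rw [hjk, Function.update_of_ne hkl, Function.update_comm hkl]
  · rw [if_neg hjk]
    by_cases hjl : j = M.l
    · have eW : (fun t : ℝ => M.W (p.2 + t • (Pi.single j (1 : ℝ) : Fin 3 → ℝ)) j) =
          fun t : ℝ => - Move.prod3
            (Function.update (Function.update M.p M.k (deriv (M.p M.k))) M.l M.g)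
            (p.2 + t • (Pi.single j (1 : ℝ) : Fin 3 → ℝ)) := by
        have hlk : ¬ M.l = M.k := fun h => hkl h.symm
        funext t
        simp [Move.W, hjl, hlk]
      rw [eW, if_pos hjl]
      have h := (moveField_prod3_hasDerivAt (moveField_F2_differentiable M) p.2 j).neg
      refine h.congr_deriv ?_
      rw [hjl, Function.update_self, Function.update_idem]
    · have eW : (fun t : ℝ => M.W (p.2 + t • (Pi.single j (1 : ℝ) : Fin 3 → ℝ)) j) =
          fun _ : ℝ => (0 : ℝ) := by
        funext t
        simp [Move.W, hjk, hjl]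
      rw [eW, if_neg hjl]
      exact hasDerivAt_const 0 (0 : ℝ)

theorem moveField_spaceDiv_U (M : Move) (hM : M.WF) (N m : ℕ) (p : ST) :
    spaceDiv (M.U N m) p = 0 := by
  unfold spaceDiv
  simp only [moveField_fderiv_U M hM.1 N m p]
  rw [← Finset.mul_sum, moveField_sum_three _ _ hM.1, mul_zero]

end Crest.Agent.S0170
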