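import Crest.Agent.S0170Lib.Sep
import Crest.Agent.S0170Lib.MoveFieldAux

/-!
# S0170: the velocity field of one move
-/

set_option autoImplicit false
open scoped ContDiff
open Crest.AnalysisR.BoxFlow

namespace Crest.Agent.S0170

/-! ### effectiveness of the factors (uses the `Eff1` interface) -/

theorem moveField_eff1_slotS (N m : ℕ) : Eff1 (Move.slotS N m) := by
  have e : Move.slotS N m = fun x : ℝ =>
      Real.smoothTransition ((((2 * (N : ℚ) : ℚ)) : ℝ) * x + ((-(N : ℚ) / 2 - m : ℚ) : ℝ)) := by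
    funext t
    unfold Move.slotS
    congr 1
    push_cast
    ring
  rw [e]
  exact Eff1.smoothTransition.comp_affine _ _

theorem moveField_eff1_plateau (lo hi δ : ℚ) : Eff1 (plateau lo hi δ) := by
  have e : plateau lo hi δ = fun x : ℝ =>
      Real.smoothTransition (((δ⁻¹ : ℚ) : ℝ) * x + ((-lo / δ : ℚ) : ℝ)) *
        Real.smoothTransition (((-δ⁻¹ : ℚ) : ℝ) * x + ((hi / δ : ℚ) : ℝ)) := by
    funext x
    unfold plateau
    congr 1
    · congr 1
      push_cast
      ring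
    · congr 1
      push_cast
      ring
  rw [e]
  exact (Eff1.smoothTransition.comp_affine _ _).mul (Eff1.smoothTransition.comp_affine _ _)

theorem moveField_plateau_support (lo hi δ : ℚ) (hδ : 0 < δ) :
    ∃ R : ℕ, ∀ x : ℝ, (R : ℝ) < |x| → plateau lo hi δ x = 0 := by
  refine ⟨⌈|(lo : ℝ)|⌉₊ + ⌈|(hi : ℝ)|⌉₊, fun x hx => moveField_plateau_eq_zero hδ ?_⟩
  have h1 : |(lo : ℝ)| ≤ (⌈|(lo : ℝ)|⌉₊ : ℝ) := Nat.le_ceil _
  have h2 : |(hi : ℝ)| ≤ (⌈|(hi : ℝ)|⌉₊ : ℝ) := Nat.le_ceil _
  have h3 := abs_nonneg (lo : ℝ)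
  have h4 := abs_nonneg (hi : ℝ)
  have h5 := neg_abs_le (lo : ℝ)
  have h6 := le_abs_self (hi : ℝ)
  push_cast at hx
  rcases lt_abs.mp hx with h | h
  · right
    linarith
  · left
    linarith

theorem moveField_eff1_g (M : Move) (hδ : 0 < M.δ) : Eff1 M.g := by
  obtain ⟨R, hR⟩ := moveField_plateau_support (M.lo M.l) (M.hi M.l) M.δ hδ
  have hp : Eff1 (M.p M.l) := moveField_eff1_plateau _ _ _
  have hR' : ∀ x : ℝ, (R : ℝ) < |x| → M.p M.l x = 0 := hR
  have h1 : Eff1 (fun x : ℝ => (x - (M.o : ℝ)) * M.p M.l x) := hp.sub_mul M.o hR'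
  have h1R : ∀ x : ℝ, (R : ℝ) < |x| → (x - (M.o : ℝ)) * M.p M.l x = 0 := by
    intro x hx
    rw [hR' x hx, mul_zero]
  have h2 : Eff1 (fun x : ℝ => (x - (M.o : ℝ)) * ((x - (M.o : ℝ)) * M.p M.l x)) :=
    h1.sub_mul M.o h1R
  have h3 := (h1.const_mul M.v).add (h2.const_mul (M.c / 2))
  have e : M.g = fun x : ℝ => ((M.v : ℚ) : ℝ) * ((x - (M.o : ℝ)) * M.p M.l x) +
      ((M.c / 2 : ℚ) : ℝ) * ((x - (M.o : ℝ)) * ((x - (M.o : ℝ)) * M.p M.l x)) := by
    funext x
    show M.q x * M.p M.l x = _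
    unfold Move.q
    push_cast
    ring
  rw [e]
  exact h3

theorem moveField_eff1_F1 (M : Move) (hδ : 0 < M.δ) (i : Fin 3) :
    Eff1 (Function.update M.p M.l (deriv M.g) i) := by
  by_cases h : i = M.l
  · subst h
    rw [Function.update_self]
    exact (moveField_eff1_g M hδ).deriv
  · rw [Function.update_of_ne h]
    exact moveField_eff1_plateau _ _ _

theorem moveField_eff1_F2 (M : Move) (hδ : 0 < M.δ) (i : Fin 3) :
    Eff1 (Function.update (Function.update M.p M.k (deriv (M.p M.k))) M.l M.g i) := by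
  by_cases h : i = M.l
  · subst h
    rw [Function.update_self]
    exact moveField_eff1_g M hδ
  · rw [Function.update_of_ne h]
    by_cases h' : i = M.k
    · subst h'
      rw [Function.update_self]
      exact (moveField_eff1_plateau _ _ _).deriv
    · rw [Function.update_of_ne h']
      exact moveField_eff1_plateau _ _ _

namespace Move

theorem slotS_contDiff (N m : ℕ) : ContDiff ℝ ∞ (slotS N m) :=
  moveField_slotS_contDiff N m

theorem slotS_eq_zero {N m : ℕ} {t : ℝ} (ht : 2 * (N : ℝ) * (t - 1 / 4) ≤ m) :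
    slotS N m t = 0 :=
  Real.smoothTransition.zero_of_nonpos (by linarith)

theorem slotS_eq_one {N m : ℕ} {t : ℝ} (ht : (m : ℝ) + 1 ≤ 2 * (N : ℝ) * (t - 1 / 4)) :
    slotS N m t = 1 :=
  Real.smoothTransition.one_of_one_le (by linarith)

theorem deriv_slotS_eq_zero_of_le {N m : ℕ} {t : ℝ} (ht : 2 * (N : ℝ) * (t - 1 / 4) ≤ m) :
    deriv (slotS N m) t = 0 := by
  apply IsLocalMin.deriv_eq_zero
  refine Filter.Eventually.of_forall (fun y => ?_)
  rw [slotS_eq_zero ht]
  exact Real.smoothTransition.nonneg _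

theorem deriv_slotS_eq_zero_of_ge {N m : ℕ} {t : ℝ}
    (ht : (m : ℝ) + 1 ≤ 2 * (N : ℝ) * (t - 1 / 4)) : deriv (slotS N m) t = 0 := by
  apply IsLocalMax.deriv_eq_zero
  refine Filter.Eventually.of_forall (fun y => ?_)
  rw [slotS_eq_one ht]
  exact Real.smoothTransition.le_one _

/-- The field vanishes outside the open support box. -/
theorem W_eq_zero_of_outQ (M : Move) (hM : M.WF) {y : Fin 3 → ℝ} (h : M.outQ y) : M.W y = 0 :=
  moveField_W_eq_zero M hM h

/-- On the plateau box the field is the affine field `(v + c (y_l - o)) e_k`. -/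
theorem W_eq_of_inP (M : Move) (hM : M.WF) {y : Fin 3 → ℝ} (h : M.inP y) :
    M.W y = Pi.single M.k ((M.v : ℝ) + M.c * (y M.l - M.o)) :=
  moveField_W_eq M hM h

/-- The components of the field of a move are effective. -/
theorem U_effR (M : Move) (hM : M.WF) (N m : ℕ) (j : Fin 3) : EffR (fun p => M.U N m p j) := by
  obtain ⟨hkl, hδ⟩ := hM
  have hT : Eff1 (deriv (slotS N m)) := (moveField_eff1_slotS N m).deriv
  by_cases hjk : j = M.k
  · refine EffR.of_eq (EffR.sep 1 hT (moveField_eff1_F1 M hδ)) (fun p => ?_)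
    simp [sep, Move.U, Move.W, Move.prod3, hjk]
  · by_cases hjl : j = M.l
    · have hlk : ¬ M.l = M.k := fun h => hkl h.symm
      refine EffR.of_eq (EffR.sep (-1) hT (moveField_eff1_F2 M hδ)) (fun p => ?_)
      simp [sep, Move.U, Move.W, Move.prod3, hjl, hlk]
    · refine EffR.of_eq EffR.zero (fun p => ?_)
      simp [Move.U, Move.W, hjk, hjl]

/-- The field of a move is divergence free. -/
theorem spaceDiv_U (M : Move) (hM : M.WF) (N m : ℕ) (p : ST) : spaceDiv (M.U N m) p = 0 :=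
  moveField_spaceDiv_U M hM N m p

end Move

end Crest.Agent.S0170
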