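import Crest.Agent.S0170Lib.PlanCore

/-!
# S0170 / Plan: generic lemmas about plans (helper7)

* `planActs Ms S F`: the plan `Ms` handles every point of `S` correctly and acts on `S` as `F`.
* built on helper1's `PlanCore.lean` (append lemmas, ignored points, reversal);
* `plan_phase`: the generic phase lemma (one block of moves per box);
* `planTMove`: the translation of an open box along a coordinate axis.
-/

set_option autoImplicit false
open Crest.AnalysisR.BoxFlow

namespace Crest.Agent.S0170

/-! ### lists of moves -/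

/-- The plan `Ms` handles every point of `S` correctly and acts on `S` as `F`. -/
def planActs (Ms : List Move) (S : Set (Fin 3 → ℝ)) (F : (Fin 3 → ℝ) → (Fin 3 → ℝ)) : Prop :=
  ∀ y ∈ S, planValid Ms y ∧ planFinal Ms y = F y

theorem planActs.append {Ms Ms' : List Move} {S S' : Set (Fin 3 → ℝ)}
    {F G : (Fin 3 → ℝ) → (Fin 3 → ℝ)} (h : planActs Ms S F) (h' : planActs Ms' S' G)
    (hS : ∀ y ∈ S, F y ∈ S') : planActs (Ms ++ Ms') S (fun y => G (F y)) := by
  intro y hy
  obtain ⟨h1, h2⟩ := h y hy
  obtain ⟨h3, h4⟩ := h' (F y) (hS y hy)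
  rw [planValid_append, planFinal_append, h2]
  exact ⟨⟨h1, h3⟩, h4⟩

theorem planActs.mono {Ms : List Move} {S S' : Set (Fin 3 → ℝ)}
    {F : (Fin 3 → ℝ) → (Fin 3 → ℝ)} (h : planActs Ms S F) (hS : S' ⊆ S) : planActs Ms S' F :=
  fun y hy => h y (hS hy)

theorem planActs.congr {Ms : List Move} {S : Set (Fin 3 → ℝ)}
    {F G : (Fin 3 → ℝ) → (Fin 3 → ℝ)} (h : planActs Ms S F) (hFG : ∀ y ∈ S, F y = G y) :
    planActs Ms S G :=
  fun y hy => ⟨(h y hy).1, (h y hy).2.trans (hFG y hy)⟩

/-! ### points outside the support of a move -/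

theorem Move.ok_of_outQ {M : Move} {y : Fin 3 → ℝ} (h : M.outQ y) : M.ok y := Or.inr h

theorem planActs_ignore (Ms : List Move) (hWF : ∀ M ∈ Ms, M.WF) (S : Set (Fin 3 → ℝ))
    (h : ∀ y ∈ S, ∀ M ∈ Ms, M.outQ y) : planActs Ms S (fun y => y) :=
  fun y hy => planValid_of_outQ Ms hWF y (h y hy)

/-! ### the generic phase lemma -/

/-- **Phase lemma.** A phase consists of one block of moves `blk i` per index `i` of a list `L`.
Block `i` acts on the region `S i` as `F i`, mapping it into `S' i`; for `i` before `j` in the list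
the block `i` does not touch the old region `S j` and the block `j` does not touch the new region
`S' i`.  Then the whole phase acts on each `S j` as `F j`. -/
theorem plan_phase {ι : Type*} (L : List ι) (blk : ι → List Move)
    (S S' : ι → Set (Fin 3 → ℝ)) (F : ι → (Fin 3 → ℝ) → (Fin 3 → ℝ))
    (hWF : ∀ i ∈ L, ∀ M ∈ blk i, M.WF)
    (hact : ∀ i ∈ L, planActs (blk i) (S i) (F i))
    (hmaps : ∀ i ∈ L, ∀ y ∈ S i, F i y ∈ S' i)
    (hpair : L.Pairwise (fun i j => (∀ y ∈ S j, ∀ M ∈ blk i, M.outQ y) ∧
      (∀ y ∈ S' i, ∀ M ∈ blk j, M.outQ y)))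
    (j : ι) (hj : j ∈ L) : planActs (L.flatMap blk) (S j) (F j) := by
  induction L with
  | nil => simp at hj
  | cons i L ih =>
    rw [List.pairwise_cons] at hpair
    obtain ⟨hhead, htail⟩ := hpair
    have hWFrest : ∀ M ∈ L.flatMap blk, M.WF := by
      intro M hM
      obtain ⟨i', hi', hM'⟩ := List.mem_flatMap.1 hM
      exact hWF i' (by simp [hi']) M hM'
    rw [List.flatMap_cons]
    by_cases hji : j = i
    · subst hji
      -- the head block moves the point, the rest ignores it
      have h1 := hact j (by simp)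
      have h2 : planActs (L.flatMap blk) (S' j) (fun y => y) := by
        apply planActs_ignore _ hWFrest
        intro y hy M hM
        obtain ⟨i', hi', hM'⟩ := List.mem_flatMap.1 hM
        exact (hhead i' hi').2 y hy M hM'
      exact (h1.append h2 (hmaps j (by simp))).congr (fun y _ => rfl)
    · have hjL : j ∈ L := by
        rcases List.mem_cons.1 hj with h | h
        · exact absurd h hji
        · exact h
      have h1 : planActs (blk i) (S j) (fun y => y) := by
        apply planActs_ignore _ (hWF i (by simp))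
        intro y hy M hM
        exact (hhead j hjL).1 y hy M hM
      have h2 := ih (fun i' hi' => hWF i' (by simp [hi'])) (fun i' hi' => hact i' (by simp [hi']))
        (fun i' hi' => hmaps i' (by simp [hi'])) htail hjL
      exact (h1.append h2 (fun y hy => hy)).congr (fun y _ => rfl)

theorem plan_phase_wf {ι : Type*} (L : List ι) (blk : ι → List Move)
    (hWF : ∀ i ∈ L, ∀ M ∈ blk i, M.WF) : ∀ M ∈ L.flatMap blk, M.WF := by
  intro M hM
  obtain ⟨i', hi', hM'⟩ := List.mem_flatMap.1 hM
  exact hWF i' hi' M hM'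

/-! ### open boxes and translation moves -/

/-- The open box with rational centre `p` and half-widths `r`. -/
def planBox (p r : Fin 3 → ℚ) : Set (Fin 3 → ℝ) := {y | ∀ m, |y m - (p m : ℝ)| < (r m : ℝ)}

/-- The move translating the open box `planBox p r` along the axis `k` by `v`:
support = swept box enlarged by `2δ`, plateau = swept box enlarged by `δ`. -/
def planTMove (p r : Fin 3 → ℚ) (k : Fin 3) (v δ : ℚ) : Move where
  k := k
  l := k + 1
  v := v
  c := 0
  o := 0
  lo := fun m => if m = k then min (p k) (p k + v) - r k - 2 * δ else p m - r m - 2 * δ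
  hi := fun m => if m = k then max (p k) (p k + v) + r k + 2 * δ else p m + r m + 2 * δ
  δ := δ

theorem planTMove_WF (p r : Fin 3 → ℚ) (k : Fin 3) (v : ℚ) {δ : ℚ} (hδ : 0 < δ) :
    (planTMove p r k v δ).WF := by
  refine ⟨?_, hδ⟩
  show k ≠ k + 1
  fin_cases k <;> decide

theorem planTMove_flow (p r : Fin 3 → ℚ) (k : Fin 3) (v δ : ℚ) (s : ℝ) (y : Fin 3 → ℝ) :
    (planTMove p r k v δ).flow s y = Function.update y k (y k + s * (v : ℝ)) := by
  unfold Move.flow planTMove
  simp

/-- The translation move moves the points of its box. -/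
theorem planTMove_active (p r : Fin 3 → ℚ) (k : Fin 3) (v : ℚ) {δ : ℚ} (hδ : 0 < δ)
    {y : Fin 3 → ℝ} (hy : y ∈ planBox p r) :
    (planTMove p r k v δ).ok y ∧
      (planTMove p r k v δ).next y = Function.update y k (y k + (v : ℝ)) := by
  have hδ' : (0 : ℝ) < (δ : ℝ) := by exact_mod_cast hδ
  have key : ∀ s ∈ Set.Icc (0 : ℝ) 1, (planTMove p r k v δ).inP
      ((planTMove p r k v δ).flow s y) := by
    intro s hs m
    rw [planTMove_flow]
    have hym := abs_lt.1 (hy m)
    by_cases hmk : m = k
    · subst hmk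
      simp only [planTMove, if_true, Function.update_self]
      push_cast
      have h1 : min (p m : ℝ) ((p m : ℝ) + (v : ℝ)) ≤ (p m : ℝ) + s * (v : ℝ) := by
        rcases le_total 0 (v : ℝ) with hv | hv
        · rw [min_eq_left (by linarith)]
          nlinarith [hs.1, hs.2]
        · rw [min_eq_right (by linarith)]
          nlinarith [hs.1, hs.2]
      have h2 : (p m : ℝ) + s * (v : ℝ) ≤ max (p m : ℝ) ((p m : ℝ) + (v : ℝ)) := by
        rcases le_total 0 (v : ℝ) with hv | hv
        · rw [max_eq_right (by linarith)]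
          nlinarith [hs.1, hs.2]
        · rw [max_eq_left (by linarith)]
          nlinarith [hs.1, hs.2]
      constructor <;> linarith [hym.1, hym.2]
    · simp only [planTMove, if_neg hmk, Function.update_of_ne hmk]
      push_cast
      constructor <;> linarith [hym.1, hym.2]
  refine ⟨Or.inl key, ?_⟩
  rw [Move.next_of_active _ key, planTMove_flow, one_mul]

/-- The box `planBox p' r'` misses the support of the translation move of `planBox p r`. -/
def planMiss (p r : Fin 3 → ℚ) (k : Fin 3) (v δ : ℚ) (p' r' : Fin 3 → ℚ) : Prop :=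
  ∃ m, p' m + r' m ≤ (planTMove p r k v δ).lo m ∨ (planTMove p r k v δ).hi m ≤ p' m - r' m

theorem planMiss_outQ {p r : Fin 3 → ℚ} {k : Fin 3} {v δ : ℚ} {p' r' : Fin 3 → ℚ}
    (h : planMiss p r k v δ p' r') {y : Fin 3 → ℝ} (hy : y ∈ planBox p' r') :
    (planTMove p r k v δ).outQ y := by
  obtain ⟨m, hm⟩ := h
  have hym := abs_lt.1 (hy m)
  refine ⟨m, ?_⟩
  rcases hm with hm | hm
  · left
    have : ((p' m + r' m : ℚ) : ℝ) ≤ (((planTMove p r k v δ).lo m : ℚ) : ℝ) := by exact_mod_cast hm
    push_cast at this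
    linarith [hym.2]
  · right
    have : (((planTMove p r k v δ).hi m : ℚ) : ℝ) ≤ ((p' m - r' m : ℚ) : ℝ) := by exact_mod_cast hm
    push_cast at this
    linarith [hym.1]

/-- A cube-supported move ignores the points of a box separated from the cube along an axis. -/
theorem plan_cube_outQ {M : Move} {P : Fin 3 → ℚ} {ρ : ℚ}
    (hM : ∀ m, P m - ρ ≤ M.lo m ∧ M.hi m ≤ P m + ρ) {p' r' : Fin 3 → ℚ}
    (h : ∃ m, p' m + r' m ≤ P m - ρ ∨ P m + ρ ≤ p' m - r' m) {y : Fin 3 → ℝ}
    (hy : y ∈ planBox p' r') : M.outQ y := by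
  obtain ⟨m, hm⟩ := h
  have hym := abs_lt.1 (hy m)
  refine ⟨m, ?_⟩
  rcases hm with hm | hm
  · left
    have : ((p' m + r' m : ℚ) : ℝ) ≤ ((M.lo m : ℚ) : ℝ) := by exact_mod_cast hm.trans (hM m).1
    push_cast at this
    linarith [hym.2]
  · right
    have : ((M.hi m : ℚ) : ℝ) ≤ ((p' m - r' m : ℚ) : ℝ) := by exact_mod_cast (hM m).2.trans hm
    push_cast at this
    linarith [hym.1]

theorem planBox_update {p r : Fin 3 → ℚ} {y : Fin 3 → ℝ} (hy : y ∈ planBox p r) (k : Fin 3)
    (v : ℚ) : Function.update y k (y k + (v : ℝ)) ∈ planBox (Function.update p k (p k + v)) r := by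
  intro m
  by_cases hmk : m = k
  · subst hmk
    simp only [Function.update_self]
    push_cast
    have := hy m
    rwa [show y m + (v : ℝ) - ((p m : ℝ) + (v : ℝ)) = y m - (p m : ℝ) by ring]
  · simp only [Function.update_of_ne hmk]
    exact hy m

/-- **Translation phase** (in index order): box `i` is translated along `k` by `v i`. -/
theorem plan_tphase (n : ℕ) (P r : Fin n → Fin 3 → ℚ) (k : Fin 3) (v : Fin n → ℚ) {δ : ℚ}
    (hδ : 0 < δ)
    (h1 : ∀ i j, i < j → planMiss (P i) (r i) k (v i) δ (P j) (r j))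
    (h2 : ∀ i j, i < j →
      planMiss (P j) (r j) k (v j) δ (Function.update (P i) k (P i k + v i)) (r i))
    (j : Fin n) :
    planActs ((List.finRange n).flatMap fun i => [planTMove (P i) (r i) k (v i) δ])
      (planBox (P j) (r j)) (fun y => Function.update y k (y k + (v j : ℝ))) := by
  apply plan_phase (List.finRange n) (fun i => [planTMove (P i) (r i) k (v i) δ])
    (fun i => planBox (P i) (r i))
    (fun i => planBox (Function.update (P i) k (P i k + v i)) (r i))
    (fun i y => Function.update y k (y k + (v i : ℝ)))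
  · intro i _ M hM
    rw [List.mem_singleton] at hM
    rw [hM]
    exact planTMove_WF _ _ _ _ hδ
  · intro i _ y hy
    have := planTMove_active (P i) (r i) k (v i) hδ hy
    simp only [planValid, planFinal]
    exact ⟨⟨this.1, trivial⟩, this.2⟩
  · intro i _ y hy
    exact planBox_update hy k (v i)
  · have hlt : (List.finRange n).Pairwise (· < ·) := List.pairwise_lt_finRange n
    refine hlt.imp ?_
    intro i j hij
    refine ⟨?_, ?_⟩
    · intro y hy M hM
      rw [List.mem_singleton] at hM
      rw [hM]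
      exact planMiss_outQ (h1 i j hij) hy
    · intro y hy M hM
      rw [List.mem_singleton] at hM
      rw [hM]
      exact planMiss_outQ (h2 i j hij) hy
  · exact List.mem_finRange j

theorem plan_tphase_wf (n : ℕ) (P r : Fin n → Fin 3 → ℚ) (k : Fin 3) (v : Fin n → ℚ) {δ : ℚ}
    (hδ : 0 < δ) :
    ∀ M ∈ (List.finRange n).flatMap fun i => [planTMove (P i) (r i) k (v i) δ], M.WF := by
  apply plan_phase_wf
  intro i _ M hM
  rw [List.mem_singleton] at hM
  rw [hM]
  exact planTMove_WF _ _ _ _ hδ

end Crest.Agent.S0170
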