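import Crest.Agent.S0170Lib.PlanAux

/-!
# S0170 / Plan: translation phases with an axis of separation, and the lifting phase (helper7)
-/

set_option autoImplicit false
open Crest.AnalysisR.BoxFlow

namespace Crest.Agent.S0170

theorem planTMove_lo_of_ne (p r : Fin 3 → ℚ) (k : Fin 3) (v δ : ℚ) {m : Fin 3} (hm : m ≠ k) :
    (planTMove p r k v δ).lo m = p m - r m - 2 * δ := by
  simp [planTMove, hm]

theorem planTMove_hi_of_ne (p r : Fin 3 → ℚ) (k : Fin 3) (v δ : ℚ) {m : Fin 3} (hm : m ≠ k) :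
    (planTMove p r k v δ).hi m = p m + r m + 2 * δ := by
  simp [planTMove, hm]

theorem planTMove_lo_self (p r : Fin 3 → ℚ) (k : Fin 3) (v δ : ℚ) :
    (planTMove p r k v δ).lo k = min (p k) (p k + v) - r k - 2 * δ := by
  simp [planTMove]

theorem planTMove_hi_self (p r : Fin 3 → ℚ) (k : Fin 3) (v δ : ℚ) :
    (planTMove p r k v δ).hi k = max (p k) (p k + v) + r k + 2 * δ := by
  simp [planTMove]

/-- A box separated from `planBox p r` along an axis `m ≠ k` misses the translation move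
along `k`. -/
theorem planMiss_of_sep {p r : Fin 3 → ℚ} {k : Fin 3} {v δ : ℚ} {p' r' : Fin 3 → ℚ} {m : Fin 3}
    (hm : m ≠ k) (h : r m + r' m + 2 * δ ≤ |p m - p' m|) : planMiss p r k v δ p' r' := by
  refine ⟨m, ?_⟩
  rw [planTMove_lo_of_ne _ _ _ _ _ hm, planTMove_hi_of_ne _ _ _ _ _ hm]
  rcases le_total 0 (p m - p' m) with h0 | h0
  · rw [abs_of_nonneg h0] at h
    left
    linarith
  · rw [abs_of_nonpos h0] at h
    right
    linarith

/-- **Translation phase with an axis of separation**: if the boxes are pairwise separated along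
an axis `m ≠ k`, every box may be translated along `k` by an arbitrary amount. -/
theorem plan_tphase_sep (n : ℕ) (P r : Fin n → Fin 3 → ℚ) (k m : Fin 3) (hm : m ≠ k)
    (v : Fin n → ℚ) {δ : ℚ} (hδ : 0 < δ)
    (hsep : ∀ i j, i ≠ j → r i m + r j m + 2 * δ ≤ |P i m - P j m|) (j : Fin n) :
    planActs ((List.finRange n).flatMap fun i => [planTMove (P i) (r i) k (v i) δ])
      (planBox (P j) (r j)) (fun y => Function.update y k (y k + (v j : ℝ))) := by
  apply plan_tphase n P r k v hδ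
  · intro i j hij
    exact planMiss_of_sep hm (hsep i j hij.ne)
  · intro i j hij
    apply planMiss_of_sep hm
    rw [Function.update_of_ne hm]
    have := hsep j i hij.ne'
    linarith

/-- **Lifting phase, sorted case**: the tops of the boxes decrease with the index; box `i` is
lifted to the height `Z₀ + H (n - i)`. -/
theorem plan_lift_sorted (n : ℕ) (p r : Fin n → Fin 3 → ℚ) (hr : ∀ i m, 0 < r i m)
    (δ H Z₀ : ℚ) (hδ : 0 < δ)
    (hsep : ∀ i j, i ≠ j → ∃ m, p i m + r i m + 2 * δ ≤ p j m - r j m ∨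
      p j m + r j m + 2 * δ ≤ p i m - r i m)
    (hH : ∀ i j, r i 2 + r j 2 + 2 * δ ≤ H) (hZ : ∀ i, p i 2 ≤ Z₀)
    (hsort : ∀ i j : Fin n, i < j → p j 2 + r j 2 ≤ p i 2 + r i 2) (j : Fin n) :
    planActs ((List.finRange n).flatMap fun i : Fin n =>
        [planTMove (p i) (r i) 2 (Z₀ + H * ((n : ℚ) - (i : ℕ)) - p i 2) δ])
      (planBox (p j) (r j))
      (fun y => Function.update y 2
        (y 2 + ((Z₀ + H * ((n : ℚ) - (j : ℕ)) - p j 2 : ℚ) : ℝ))) := by
  have hH0 : ∀ i : Fin n, 0 < H := fun i => by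
    have := hH i i
    have := hr i 2
    linarith
  have hv : ∀ i : Fin n, 0 ≤ Z₀ + H * ((n : ℚ) - (i : ℕ)) - p i 2 := by
    intro i
    have h1 : ((i : ℕ) : ℚ) ≤ (n : ℚ) := by exact_mod_cast i.2.le
    have h2 := hH0 i
    have h3 := hZ i
    nlinarith
  apply plan_tphase n p r 2 (fun i : Fin n => Z₀ + H * ((n : ℚ) - (i : ℕ)) - p i 2) hδ
  · intro i j hij
    obtain ⟨m, hm⟩ := hsep i j hij.ne
    by_cases hm2 : m = 2
    · subst hm2
      rcases hm with hm | hm
      · exfalso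
        have := hsort i j hij
        have := hr j 2
        linarith
      · refine ⟨2, Or.inl ?_⟩
        rw [planTMove_lo_self, min_eq_left (by linarith [hv i])]
        linarith
    · refine ⟨m, ?_⟩
      rw [planTMove_lo_of_ne _ _ _ _ _ hm2, planTMove_hi_of_ne _ _ _ _ _ hm2]
      rcases hm with hm | hm
      · right
        linarith
      · left
        linarith
  · intro i j hij
    refine ⟨2, Or.inr ?_⟩
    rw [planTMove_hi_self, max_eq_right (by linarith [hv j]), Function.update_self]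
    have h1 : ((i : ℕ) : ℚ) + 1 ≤ ((j : ℕ) : ℚ) := by exact_mod_cast hij
    have h2 := hH i j
    have h3 := hH0 i
    nlinarith

/-- **Lifting phase**: pairwise separated boxes can be lifted (translated along the axis `2`) to
heights `Z i ≥ Z₀` which are pairwise at distance at least `H`. -/
theorem plan_lift (n : ℕ) (p r : Fin n → Fin 3 → ℚ) (hr : ∀ i m, 0 < r i m)
    (δ H Z₀ : ℚ) (hδ : 0 < δ)
    (hsep : ∀ i j, i ≠ j → ∃ m, p i m + r i m + 2 * δ ≤ p j m - r j m ∨
      p j m + r j m + 2 * δ ≤ p i m - r i m)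
    (hH : ∀ i j, r i 2 + r j 2 + 2 * δ ≤ H) (hZ : ∀ i, p i 2 ≤ Z₀) :
    ∃ (Ms : List Move) (Z : Fin n → ℚ), (∀ M ∈ Ms, M.WF) ∧
      (∀ i j, i ≠ j → H ≤ |Z i - Z j|) ∧
      ∀ i, planActs Ms (planBox (p i) (r i))
        (fun y => Function.update y 2 (y 2 + ((Z i - p i 2 : ℚ) : ℝ))) := by
  set σ : Equiv.Perm (Fin n) := Tuple.sort (fun i => -(p i 2 + r i 2)) with hσ
  have hmono : Monotone ((fun i => -(p i 2 + r i 2)) ∘ σ) := Tuple.monotone_sort _
  have hsort : ∀ i j : Fin n, i < j → p (σ j) 2 + r (σ j) 2 ≤ p (σ i) 2 + r (σ i) 2 := by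
    intro i j hij
    have := hmono hij.le
    simp only [Function.comp] at this
    linarith
  have key := plan_lift_sorted n (fun i => p (σ i)) (fun i => r (σ i)) (fun i m => hr (σ i) m)
    δ H Z₀ hδ
    (fun i j hij => hsep (σ i) (σ j) (fun h => hij (σ.injective h)))
    (fun i j => hH (σ i) (σ j)) (fun i => hZ (σ i)) hsort
  refine ⟨(List.finRange n).flatMap fun i : Fin n =>
      [planTMove (p (σ i)) (r (σ i)) 2 (Z₀ + H * ((n : ℚ) - (i : ℕ)) - p (σ i) 2) δ],
    fun i => Z₀ + H * ((n : ℚ) - ((σ.symm i : Fin n) : ℕ)), ?_, ?_, ?_⟩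
  · exact plan_tphase_wf n (fun i => p (σ i)) (fun i => r (σ i)) 2 _ hδ
  · intro i j hij
    have hne : ((σ.symm i : Fin n) : ℕ) ≠ ((σ.symm j : Fin n) : ℕ) := by
      intro h
      exact hij (σ.symm.injective (Fin.ext h))
    have hH0 : 0 < H := by
      have := hH i i
      have := hr i 2
      linarith
    have h1 : Z₀ + H * ((n : ℚ) - ((σ.symm i : Fin n) : ℕ)) -
        (Z₀ + H * ((n : ℚ) - ((σ.symm j : Fin n) : ℕ))) =
        H * ((((σ.symm j : Fin n) : ℕ) : ℚ) - (((σ.symm i : Fin n) : ℕ) : ℚ)) := by ring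
    rw [h1, abs_mul, abs_of_pos hH0]
    have h2 : (1 : ℚ) ≤ |(((σ.symm j : Fin n) : ℕ) : ℚ) - (((σ.symm i : Fin n) : ℕ) : ℚ)| := by
      have h3 : (((σ.symm j : Fin n) : ℕ) : ℤ) - (((σ.symm i : Fin n) : ℕ) : ℤ) ≠ 0 := by
        intro h
        apply hne
        have : (((σ.symm i : Fin n) : ℕ) : ℤ) = (((σ.symm j : Fin n) : ℕ) : ℤ) := by linarith
        exact_mod_cast this
      have h4 : (1 : ℤ) ≤ |(((σ.symm j : Fin n) : ℕ) : ℤ) - (((σ.symm i : Fin n) : ℕ) : ℤ)| :=
        Int.one_le_abs h3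
      have h5 : ((1 : ℤ) : ℚ) ≤
          ((|(((σ.symm j : Fin n) : ℕ) : ℤ) - (((σ.symm i : Fin n) : ℕ) : ℤ)| : ℤ) : ℚ) := by
        exact_mod_cast h4
      push_cast at h5
      exact h5
    nlinarith
  · intro i
    have := key (σ.symm i)
    simp only [Equiv.apply_symm_apply] at this
    exact this

end Crest.Agent.S0170
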