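import Crest.Agent.S0170Lib.Defs

/-!
# S0170: reshaping a box about its centre by ten shears (owner: helper8)

`plan_reshape`: inside a cube of half-size `ρ` about `P`, the diagonal map
`y ↦ P + d (y - P)` (`d 0 * d 1 * d 2 = 1`) is realised by ten shear moves.
-/

set_option autoImplicit false
open Crest.AnalysisR.BoxFlow

namespace Crest.Agent.S0170

/-- shear move about `P` in the cube of half-size `ρ`: `x_k += c (x_l - P_l)`. -/
def planReshape_shear (P : Fin 3 → ℚ) (ρ : ℚ) (k l : Fin 3) (c : ℚ) : Move :=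
  { k := k, l := l, v := 0, c := c, o := P l, lo := fun m => P m - ρ, hi := fun m => P m + ρ,
    δ := 1 / 2 }

theorem planReshape_shear_WF (P : Fin 3 → ℚ) (ρ : ℚ) (k l : Fin 3) (c : ℚ) (hkl : k ≠ l) :
    (planReshape_shear P ρ k l c).WF :=
  ⟨hkl, by show (0 : ℚ) < 1 / 2; norm_num⟩

/-- the action of a shear on points. -/
def planReshape_act (P : Fin 3 → ℚ) (k l : Fin 3) (c : ℚ) (y : Fin 3 → ℝ) : Fin 3 → ℝ :=
  Function.update y k (y k + (c : ℝ) * (y l - (P l : ℝ)))

theorem planReshape_step (P : Fin 3 → ℚ) (ρ : ℚ) (k l : Fin 3) (c : ℚ) (B : ℝ)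
    (y : Fin 3 → ℝ) (hy : ∀ m, |y m - (P m : ℝ)| ≤ B)
    (hB : (1 + |(c : ℝ)|) * B + 1 / 2 < (ρ : ℝ)) :
    (planReshape_shear P ρ k l c).ok y ∧
      (planReshape_shear P ρ k l c).next y = planReshape_act P k l c y ∧
      ∀ m, |planReshape_act P k l c y m - (P m : ℝ)| ≤ (1 + |(c : ℝ)|) * B := by
  have hB0 : 0 ≤ B := le_trans (abs_nonneg _) (hy k)
  have hc0 : 0 ≤ |(c : ℝ)| := abs_nonneg _
  -- the trajectory
  have hflow : ∀ s : ℝ, (planReshape_shear P ρ k l c).flow s y =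
      Function.update y k (y k + s * ((c : ℝ) * (y l - (P l : ℝ)))) := by
    intro s
    unfold Move.flow planReshape_shear
    simp
  have hbound : ∀ s ∈ Set.Icc (0 : ℝ) 1, ∀ m,
      |(Function.update y k (y k + s * ((c : ℝ) * (y l - (P l : ℝ))))) m - (P m : ℝ)| ≤
        (1 + |(c : ℝ)|) * B := by
    intro s hs m
    by_cases hm : m = k
    · subst hm
      rw [Function.update_self]
      have h1 : |y m - (P m : ℝ)| ≤ B := hy m
      have h2 : |s * ((c : ℝ) * (y l - (P l : ℝ)))| ≤ |(c : ℝ)| * B := by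
        rw [abs_mul, abs_mul, abs_of_nonneg hs.1]
        have h3 : |(c : ℝ)| * |y l - (P l : ℝ)| ≤ |(c : ℝ)| * B :=
          mul_le_mul_of_nonneg_left (hy l) hc0
        have h4 : 0 ≤ |(c : ℝ)| * |y l - (P l : ℝ)| := by positivity
        nlinarith [hs.2]
      have h5 : y m + s * ((c : ℝ) * (y l - (P l : ℝ))) - (P m : ℝ) =
          (y m - (P m : ℝ)) + s * ((c : ℝ) * (y l - (P l : ℝ))) := by ring
      rw [h5]
      calc |(y m - (P m : ℝ)) + s * ((c : ℝ) * (y l - (P l : ℝ)))|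
          ≤ |y m - (P m : ℝ)| + |s * ((c : ℝ) * (y l - (P l : ℝ)))| := abs_add_le _ _
        _ ≤ B + |(c : ℝ)| * B := add_le_add h1 h2
        _ = (1 + |(c : ℝ)|) * B := by ring
    · rw [Function.update_of_ne hm]
      have h1 : |y m - (P m : ℝ)| ≤ B := hy m
      nlinarith
  have hin : ∀ s ∈ Set.Icc (0 : ℝ) 1,
      (planReshape_shear P ρ k l c).inP ((planReshape_shear P ρ k l c).flow s y) := by
    intro s hs m
    rw [hflow s]
    have h1 := hbound s hs m
    rw [abs_le] at h1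
    show ((((P m - ρ : ℚ)) : ℝ) + ((1 / 2 : ℚ) : ℝ) < _) ∧ (_ < (((P m + ρ : ℚ)) : ℝ) - ((1 / 2 : ℚ) : ℝ))
    push_cast
    constructor <;> linarith [h1.1, h1.2]
  have hnext : (planReshape_shear P ρ k l c).next y = planReshape_act P k l c y := by
    have h0 := hin 0 ⟨le_rfl, zero_le_one⟩
    have hf0 : (planReshape_shear P ρ k l c).flow 0 y = y := by
      rw [hflow 0]; simp
    rw [hf0] at h0
    unfold Move.next
    rw [if_pos h0, hflow 1]
    unfold planReshape_act
    rw [one_mul]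
  refine ⟨Or.inl hin, hnext, fun m => ?_⟩
  have := hbound 1 ⟨zero_le_one, le_rfl⟩ m
  rw [one_mul] at this
  exact this

/-- the list of shear moves of a list of `(k, l, c)`. -/
def planReshape_moves (P : Fin 3 → ℚ) (ρ : ℚ) (cs : List (Fin 3 × Fin 3 × ℚ)) : List Move :=
  cs.map (fun t => planReshape_shear P ρ t.1 t.2.1 t.2.2)

/-- the action of a list of shears. -/
def planReshape_acts (P : Fin 3 → ℚ) : List (Fin 3 × Fin 3 × ℚ) → (Fin 3 → ℝ) → (Fin 3 → ℝ)
  | [], y => y
  | t :: cs, y => planReshape_acts P cs (planReshape_act P t.1 t.2.1 t.2.2 y)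

/-- growth factor of the sup-norm of the offset. -/
def planReshape_growth : List (Fin 3 × Fin 3 × ℚ) → ℚ
  | [] => 1
  | t :: cs => (1 + |t.2.2|) * planReshape_growth cs

theorem planReshape_one_le_growth (cs : List (Fin 3 × Fin 3 × ℚ)) :
    1 ≤ planReshape_growth cs := by
  induction cs with
  | nil => exact le_rfl
  | cons t cs ih =>
    show 1 ≤ (1 + |t.2.2|) * planReshape_growth cs
    have : 0 ≤ |t.2.2| := abs_nonneg _
    nlinarith

theorem planReshape_valid (P : Fin 3 → ℚ) (ρ : ℚ) (cs : List (Fin 3 × Fin 3 × ℚ)) (B : ℝ)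
    (y : Fin 3 → ℝ) (hy : ∀ m, |y m - (P m : ℝ)| ≤ B)
    (hB : (planReshape_growth cs : ℝ) * B + 1 / 2 < (ρ : ℝ)) :
    planValid (planReshape_moves P ρ cs) y ∧
      planFinal (planReshape_moves P ρ cs) y = planReshape_acts P cs y := by
  induction cs generalizing y B with
  | nil => exact ⟨trivial, rfl⟩
  | cons t cs ih =>
    have hB0 : 0 ≤ B := le_trans (abs_nonneg _) (hy 0)
    have hg : (1 : ℝ) ≤ (planReshape_growth cs : ℝ) := by
      exact_mod_cast planReshape_one_le_growth cs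
    have hgr : (planReshape_growth (t :: cs) : ℝ) =
        (1 + |(t.2.2 : ℝ)|) * (planReshape_growth cs : ℝ) := by
      show (((1 + |t.2.2|) * planReshape_growth cs : ℚ) : ℝ) = _
      push_cast
      ring
    rw [hgr] at hB
    have hc0 : 0 ≤ |(t.2.2 : ℝ)| := abs_nonneg _
    have hstepB : (1 + |(t.2.2 : ℝ)|) * B + 1 / 2 < (ρ : ℝ) := by
      have : (1 + |(t.2.2 : ℝ)|) * B ≤ (1 + |(t.2.2 : ℝ)|) * (planReshape_growth cs : ℝ) * B := by
        have h1 : 0 ≤ (1 + |(t.2.2 : ℝ)|) * B := by positivity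
        nlinarith
      linarith
    obtain ⟨hok, hnext, hbd⟩ := planReshape_step P ρ t.1 t.2.1 t.2.2 B y hy hstepB
    have hIH := ih ((1 + |(t.2.2 : ℝ)|) * B) (planReshape_act P t.1 t.2.1 t.2.2 y) hbd
      (by linarith [mul_assoc (planReshape_growth cs : ℝ) (1 + |(t.2.2 : ℝ)|) B,
        mul_comm (planReshape_growth cs : ℝ) (1 + |(t.2.2 : ℝ)|)])
    show ((planReshape_shear P ρ t.1 t.2.1 t.2.2).ok y ∧
        planValid (planReshape_moves P ρ cs) ((planReshape_shear P ρ t.1 t.2.1 t.2.2).next y)) ∧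
      planFinal (planReshape_moves P ρ cs) ((planReshape_shear P ρ t.1 t.2.1 t.2.2).next y) =
        planReshape_acts P cs (planReshape_act P t.1 t.2.1 t.2.2 y)
    rw [hnext]
    exact ⟨⟨hok, hIH.1⟩, hIH.2⟩

/-- the ten shears realising `diag d`. -/
def planReshape_list (d : Fin 3 → ℚ) : List (Fin 3 × Fin 3 × ℚ) :=
  [(0, 1, -1), (1, 0, 1), (0, 1, d 0 - 1), (1, 0, -(1 / d 0)), (0, 1, d 0),
   (1, 2, -1), (2, 1, 1), (1, 2, d 0 * d 1 - 1), (2, 1, -(1 / (d 0 * d 1))), (1, 2, d 0 * d 1)]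

theorem planReshape_acts_list (P d : Fin 3 → ℚ) (hd : ∀ m, 0 < d m)
    (hprod : d 0 * d 1 * d 2 = 1) (y : Fin 3 → ℝ) :
    planReshape_acts P (planReshape_list d) y =
      fun m => (P m : ℝ) + (d m : ℝ) * (y m - (P m : ℝ)) := by
  have h0 : (0 : ℝ) < (d 0 : ℝ) := by exact_mod_cast hd 0
  have h1 : (0 : ℝ) < (d 1 : ℝ) := by exact_mod_cast hd 1
  have h2 : (0 : ℝ) < (d 2 : ℝ) := by exact_mod_cast hd 2
  have hp : (d 0 : ℝ) * (d 1 : ℝ) * (d 2 : ℝ) = 1 := by exact_mod_cast hprod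
  funext m
  simp only [planReshape_list, planReshape_acts, planReshape_act]
  fin_cases m
  · simp [Function.update]
    field_simp
    ring
  · simp [Function.update]
    field_simp
    ring
  · have hd2 : (d 2 : ℝ) = 1 / ((d 0 : ℝ) * (d 1 : ℝ)) := by
      field_simp
      linarith
    simp [Function.update]
    rw [hd2]
    field_simp
    ring

/-- the half-size of the cube used for reshaping a box of half-widths `r` by `diag d`
(independent of the centre). -/
def planReshape_rho (r d : Fin 3 → ℚ) : ℚ :=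
  planReshape_growth (planReshape_list d) * (r 0 + r 1 + r 2) + 1

theorem planReshape_rho_pos (r d : Fin 3 → ℚ) (hr : ∀ m, 0 < r m) : 0 < planReshape_rho r d := by
  have hg := planReshape_one_le_growth (planReshape_list d)
  have hr0 := hr 0
  have hr1 := hr 1
  have hr2 := hr 2
  have : 0 ≤ planReshape_growth (planReshape_list d) * (r 0 + r 1 + r 2) :=
    mul_nonneg (by linarith) (by linarith)
  unfold planReshape_rho
  linarith

/-- `r m ≤ ρ` and `d m * r m ≤ ρ`: the box and its image lie in the cube. -/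
theorem planReshape_le_rho (r d : Fin 3 → ℚ) (hr : ∀ m, 0 < r m) (m : Fin 3) :
    r m ≤ planReshape_rho r d := by
  have hg := planReshape_one_le_growth (planReshape_list d)
  have hr0 := hr 0
  have hr1 := hr 1
  have hr2 := hr 2
  have h1 : r 0 + r 1 + r 2 ≤ planReshape_growth (planReshape_list d) * (r 0 + r 1 + r 2) := by
    nlinarith
  have h2 : r m ≤ r 0 + r 1 + r 2 := by
    fin_cases m <;> simp <;> linarith
  unfold planReshape_rho
  linarith

/-- The ten shear moves about `P` (cube of half-size `planReshape_rho r d`): all facts. -/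
theorem planReshape_main (P r d : Fin 3 → ℚ) (hr : ∀ m, 0 < r m) (hd : ∀ m, 0 < d m)
    (hprod : d 0 * d 1 * d 2 = 1) :
    (∀ M ∈ planReshape_moves P (planReshape_rho r d) (planReshape_list d), M.WF) ∧
    (∀ M ∈ planReshape_moves P (planReshape_rho r d) (planReshape_list d),
      (M.lo = fun m => P m - planReshape_rho r d) ∧ (M.hi = fun m => P m + planReshape_rho r d)) ∧
    ∀ y : Fin 3 → ℝ, (∀ m, |y m - (P m : ℝ)| < (r m : ℝ)) →
      planValid (planReshape_moves P (planReshape_rho r d) (planReshape_list d)) y ∧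
        planFinal (planReshape_moves P (planReshape_rho r d) (planReshape_list d)) y =
          fun m => (P m : ℝ) + (d m : ℝ) * (y m - (P m : ℝ)) := by
  have hr0 := hr 0
  have hr1 := hr 1
  have hr2 := hr 2
  refine ⟨?_, ?_, ?_⟩
  · intro M hM
    simp only [planReshape_moves, planReshape_list, List.map_cons, List.map_nil,
      List.mem_cons, List.not_mem_nil, or_false] at hM
    rcases hM with rfl | rfl | rfl | rfl | rfl | rfl | rfl | rfl | rfl | rfl <;>
      exact planReshape_shear_WF _ _ _ _ _ (by decide)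
  · intro M hM
    simp only [planReshape_moves, List.mem_map] at hM
    obtain ⟨t, -, rfl⟩ := hM
    exact ⟨rfl, rfl⟩
  · intro y hy
    have hyB : ∀ m, |y m - (P m : ℝ)| ≤ ((r 0 + r 1 + r 2 : ℚ) : ℝ) := by
      intro m
      have hr0' : (0 : ℝ) < (r 0 : ℝ) := by exact_mod_cast hr0
      have hr1' : (0 : ℝ) < (r 1 : ℝ) := by exact_mod_cast hr1
      have hr2' : (0 : ℝ) < (r 2 : ℝ) := by exact_mod_cast hr2
      have := hy m
      push_cast
      fin_cases m <;> simp at this ⊢ <;> linarith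
    have hB : (planReshape_growth (planReshape_list d) : ℝ) * ((r 0 + r 1 + r 2 : ℚ) : ℝ) + 1 / 2 <
        (planReshape_rho r d : ℝ) := by
      unfold planReshape_rho; push_cast; linarith
    obtain ⟨hv, hf⟩ := planReshape_valid P (planReshape_rho r d) (planReshape_list d) _ y hyB hB
    exact ⟨hv, hf.trans (planReshape_acts_list P d hd hprod y)⟩

/-- **Reshape**: inside a cube about `P` whose half-size `ρ` does not depend on `P`, the diagonal
map `y ↦ P + d (y - P)` with `d 0 * d 1 * d 2 = 1` is realised by ten shear moves. -/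
theorem plan_reshape' (r d : Fin 3 → ℚ) (hr : ∀ m, 0 < r m) (hd : ∀ m, 0 < d m)
    (hprod : d 0 * d 1 * d 2 = 1) :
    ∃ ρ : ℚ, 0 < ρ ∧ ∀ P : Fin 3 → ℚ, ∃ Ms : List Move, (∀ M ∈ Ms, M.WF) ∧
      (∀ M ∈ Ms, ∀ m, P m - ρ ≤ M.lo m ∧ M.hi m ≤ P m + ρ) ∧
      ∀ y : Fin 3 → ℝ, (∀ m, |y m - (P m : ℝ)| < (r m : ℝ)) →
        planValid Ms y ∧
          planFinal Ms y = fun m => (P m : ℝ) + (d m : ℝ) * (y m - (P m : ℝ)) := by
  refine ⟨planReshape_rho r d, planReshape_rho_pos r d hr, fun P => ?_⟩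
  obtain ⟨h1, h2, h3⟩ := planReshape_main P r d hr hd hprod
  refine ⟨_, h1, fun M hM m => ?_, h3⟩
  obtain ⟨hlo, hhi⟩ := h2 M hM
  rw [hlo, hhi]
  exact ⟨le_rfl, le_rfl⟩

/-- **Reshape** (centre fixed in advance). -/
theorem plan_reshape (P r d : Fin 3 → ℚ) (hr : ∀ m, 0 < r m) (hd : ∀ m, 0 < d m)
    (hprod : d 0 * d 1 * d 2 = 1) :
    ∃ (Ms : List Move) (ρ : ℚ), 0 < ρ ∧ (∀ M ∈ Ms, M.WF) ∧
      (∀ M ∈ Ms, ∀ m, P m - ρ ≤ M.lo m ∧ M.hi m ≤ P m + ρ) ∧
      ∀ y : Fin 3 → ℝ, (∀ m, |y m - (P m : ℝ)| < (r m : ℝ)) →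
        planValid Ms y ∧
          planFinal Ms y = fun m => (P m : ℝ) + (d m : ℝ) * (y m - (P m : ℝ)) := by
  obtain ⟨ρ, hρ, h⟩ := plan_reshape' r d hr hd hprod
  obtain ⟨Ms, h1, h2, h3⟩ := h P
  exact ⟨Ms, ρ, hρ, h1, h2, h3⟩

end Crest.Agent.S0170
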