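import Crest.Agent.S0170Lib.Defs

/-!
# S0170: generic lemmas on plans (lists of moves)
-/

set_option autoImplicit false
open Crest.AnalysisR.BoxFlow

namespace Crest.Agent.S0170

theorem planValid_append (Ms Ns : List Move) (x : Fin 3 → ℝ) :
    planValid (Ms ++ Ns) x ↔ planValid Ms x ∧ planValid Ns (planFinal Ms x) := by
  induction Ms generalizing x with
  | nil => simp [planValid, planFinal]
  | cons M Ms ih => simp [planValid, planFinal, ih, and_assoc]

theorem planFinal_append (Ms Ns : List Move) (x : Fin 3 → ℝ) :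
    planFinal (Ms ++ Ns) x = planFinal Ns (planFinal Ms x) := by
  induction Ms generalizing x with
  | nil => simp [planFinal]
  | cons M Ms ih => simp [planFinal, ih]

theorem Move.not_inP_of_outQ (M : Move) (hM : M.WF) {y : Fin 3 → ℝ} (h : M.outQ y) : ¬ M.inP y := by
  intro hin
  obtain ⟨i, hi⟩ := h
  have hδ : (0 : ℝ) < (M.δ : ℝ) := by exact_mod_cast hM.2
  rcases hi with hi | hi
  · linarith [(hin i).1]
  · linarith [(hin i).2]

theorem Move.next_of_outQ (M : Move) (hM : M.WF) {y : Fin 3 → ℝ} (h : M.outQ y) : M.next y = y := by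
  unfold Move.next
  rw [if_neg (M.not_inP_of_outQ hM h)]

theorem Move.next_of_active (M : Move) {y : Fin 3 → ℝ}
    (h : ∀ s ∈ Set.Icc (0 : ℝ) 1, M.inP (M.flow s y)) : M.next y = M.flow 1 y := by
  have h0 : M.inP y := by
    have := h 0 ⟨le_rfl, zero_le_one⟩
    simpa [Move.flow] using this
  unfold Move.next
  rw [if_pos h0]

/-- A plan none of whose moves touches the point. -/
theorem planValid_of_outQ (Ms : List Move) (hWF : ∀ M ∈ Ms, M.WF) (x : Fin 3 → ℝ)
    (h : ∀ M ∈ Ms, M.outQ x) : planValid Ms x ∧ planFinal Ms x = x := by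
  induction Ms with
  | nil => exact ⟨trivial, rfl⟩
  | cons M Ms ih =>
    have hM := hWF M List.mem_cons_self
    have hq := h M List.mem_cons_self
    have hn := M.next_of_outQ hM hq
    obtain ⟨h1, h2⟩ := ih (fun N hN => hWF N (List.mem_cons_of_mem _ hN))
      (fun N hN => h N (List.mem_cons_of_mem _ hN))
    refine ⟨⟨Or.inr hq, ?_⟩, ?_⟩
    · show planValid Ms (M.next x)
      rw [hn]; exact h1
    · show planFinal Ms (M.next x) = x
      rw [hn]; exact h2

theorem planCore_mem_flatten_ofFn {n : ℕ} (blk : Fin n → List Move) (M : Move)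
    (hM : M ∈ (List.ofFn blk).flatten) : ∃ r, M ∈ blk r := by
  obtain ⟨l, hl, hMl⟩ := List.mem_flatten.mp hM
  obtain ⟨r, rfl⟩ := List.mem_ofFn.mp hl
  exact ⟨r, hMl⟩

/-- Ordered blocks: the point is outside the support of all moves of the earlier blocks, is
moved from `x` to `y` by block `r₀`, and `y` is outside the support of all later moves. -/
theorem planValid_blocks {n : ℕ} (blk : Fin n → List Move) (hWF : ∀ r, ∀ M ∈ blk r, M.WF)
    (r₀ : Fin n) (x y : Fin 3 → ℝ)
    (h1 : ∀ r, r < r₀ → ∀ M ∈ blk r, M.outQ x)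
    (h2 : planValid (blk r₀) x ∧ planFinal (blk r₀) x = y)
    (h3 : ∀ r, r₀ < r → ∀ M ∈ blk r, M.outQ y) :
    planValid (List.ofFn blk).flatten x ∧ planFinal (List.ofFn blk).flatten x = y := by
  induction n generalizing x with
  | zero => exact r₀.elim0
  | succ n ih =>
    rw [List.ofFn_succ, List.flatten_cons, planValid_append, planFinal_append]
    rcases Fin.eq_zero_or_eq_succ r₀ with rfl | ⟨r₁, rfl⟩
    · -- the first block is the active one
      rw [h2.2]
      have hrest := planValid_of_outQ (List.ofFn fun i : Fin n => blk i.succ).flatten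
        (fun M hM => by
          obtain ⟨r, hr⟩ := planCore_mem_flatten_ofFn _ M hM
          exact hWF _ M hr) y
        (fun M hM => by
          obtain ⟨r, hr⟩ := planCore_mem_flatten_ofFn _ M hM
          exact h3 r.succ (Fin.succ_pos r) M hr)
      exact ⟨⟨h2.1, hrest.1⟩, hrest.2⟩
    · -- the first block does not touch the point
      have hfirst := planValid_of_outQ (blk 0) (hWF 0) x (h1 0 (Fin.succ_pos r₁))
      rw [hfirst.2]
      have hrest := ih (fun i : Fin n => blk i.succ) (fun r => hWF r.succ) r₁ x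
        (fun r hr => h1 r.succ (Fin.succ_lt_succ_iff.mpr hr)) h2
        (fun r hr => h3 r.succ (Fin.succ_lt_succ_iff.mpr hr))
      exact ⟨⟨hfirst.1, hrest.1⟩, hrest.2⟩

/-- The reversed move. -/
def Move.rev (M : Move) : Move := { M with v := -M.v, c := -M.c }

theorem Move.rev_WF (M : Move) (hM : M.WF) : M.rev.WF := hM

theorem Move.rev_flow (M : Move) (hM : M.WF) (s : ℝ) (x : Fin 3 → ℝ) :
    M.rev.flow s (M.flow 1 x) = M.flow (1 - s) x := by
  have hkl : M.l ≠ M.k := fun h => hM.1 h.symm
  unfold Move.flow Move.rev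
  simp only [Function.update_idem, Function.update_self, Function.update_of_ne hkl]
  congr 1
  push_cast
  ring

theorem Move.rev_ok (M : Move) (hM : M.WF) (x : Fin 3 → ℝ) (h : M.ok x) :
    M.rev.ok (M.next x) ∧ M.rev.next (M.next x) = x := by
  rcases h with h | h
  · have hn := M.next_of_active h
    rw [hn]
    have hact : ∀ s ∈ Set.Icc (0 : ℝ) 1, M.rev.inP (M.rev.flow s (M.flow 1 x)) := by
      intro s hs
      rw [M.rev_flow hM]
      exact h (1 - s) ⟨by linarith [hs.2], by linarith [hs.1]⟩
    refine ⟨Or.inl hact, ?_⟩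
    rw [M.rev.next_of_active hact, M.rev_flow hM]
    simp [Move.flow]
  · have hn := M.next_of_outQ hM h
    rw [hn]
    have hq : M.rev.outQ x := h
    exact ⟨Or.inr hq, M.rev.next_of_outQ (M.rev_WF hM) hq⟩

/-- The reversed plan undoes the plan on valid points. -/
theorem planValid_reverse (Ms : List Move) (hWF : ∀ M ∈ Ms, M.WF) (x y : Fin 3 → ℝ)
    (hv : planValid Ms x) (hf : planFinal Ms x = y) :
    planValid (Ms.reverse.map Move.rev) y ∧ planFinal (Ms.reverse.map Move.rev) y = x := by
  induction Ms generalizing x with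
  | nil => subst hf; exact ⟨trivial, rfl⟩
  | cons M Ms ih =>
    obtain ⟨hok, hv'⟩ := hv
    have hM := hWF M List.mem_cons_self
    obtain ⟨h1, h2⟩ := ih (fun N hN => hWF N (List.mem_cons_of_mem _ hN)) (M.next x) hv' hf
    obtain ⟨h3, h4⟩ := M.rev_ok hM x hok
    rw [List.reverse_cons, List.map_append, planValid_append, planFinal_append, h2]
    refine ⟨⟨h1, ⟨h3, trivial⟩⟩, ?_⟩
    show planFinal [M.rev] (M.next x) = x
    exact h4

end Crest.Agent.S0170
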