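import Crest.Agent.S0170Lib.PlanCore
import Crest.Agent.S0170Lib.PlanAuxLift

/-!
# S0170: parking the boxes

Boxes with centres `a i` and open half-widths `w i`, pairwise separated along some axis with gap
`δ`, are translated to the parking positions `parkPos D i = (i * D, 0, 0)` by `4 n` translation
moves:
1. *lift* along `e₂`, in order of decreasing top `a i 2 + w i 2` (`Tuple.sort`), the box of rank `r`
   to the height `Z₀ + (n - r) * D` (`Z₀ ≥ a i 2` for all `i`): private `z`-slabs;
2. *slide* along `e₀` to `x = i * D` (inside the private slab);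
3. *slide* along `e₁` to `y = 0` (inside the private slab);
4. *lower* along `e₂` to `z = 0` (inside the private `x`-column).
The translation of the box (centre `c`, half-widths `w`) along `e_k` by `τ` is the move
`planTMove` of `PlanAux.lean` (plateau box = hull of the old and the new open box enlarged by
`δ/2`, support box = the hull enlarged by `δ`).  The phases are instances of `plan_lift` and
`plan_tphase_sep` (`PlanAuxLift.lean`), chained by `planActs.append`.  (helper7)
-/

set_option autoImplicit false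
open Crest.AnalysisR.BoxFlow

namespace Crest.Agent.S0170

/-- Parking position of box number `i`: `(i * D, 0, 0)`. -/
def parkPos (D : ℚ) (i : ℕ) : Fin 3 → ℚ := ![(i : ℚ) * D, 0, 0]

theorem park_exists (n : ℕ) (a w : Fin n → Fin 3 → ℚ) (δ D : ℚ)
    (hw : ∀ i j, 0 < w i j) (hδ : 0 < δ)
    (hsep : ∀ i i', i ≠ i' → ∃ j, w i j + w i' j + δ ≤ |a i j - a i' j|)
    (hD : ∀ i i' j, w i j + w i' j + δ ≤ D) :
    ∃ Ms : List Move, (∀ M ∈ Ms, M.WF) ∧
      ∀ (i : Fin n) (ξ : Fin 3 → ℝ), (∀ j, |ξ j| < (w i j : ℝ)) →
        planValid Ms (fun j => (a i j : ℝ) + ξ j) ∧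
        planFinal Ms (fun j => (a i j : ℝ) + ξ j) = fun j => (parkPos D i j : ℝ) + ξ j := by
  have hδ2 : 0 < δ / 2 := by positivity
  -- phase 1: lift
  obtain ⟨Ms1, Z, hWF1, hZ, hact1⟩ := plan_lift n a w hw (δ / 2) D (∑ i, |a i 2|) hδ2
    (by
      intro i j hij
      obtain ⟨m, hm⟩ := hsep i j hij
      refine ⟨m, ?_⟩
      rcases le_total 0 (a i m - a j m) with h0 | h0
      · rw [abs_of_nonneg h0] at hm
        right
        linarith
      · rw [abs_of_nonpos h0] at hm
        left
        linarith)
    (by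
      intro i j
      have := hD i j 2
      linarith)
    (by
      intro i
      exact (le_abs_self _).trans
        (Finset.single_le_sum (f := fun i => |a i 2|) (fun j _ => abs_nonneg _) (Finset.mem_univ i)))
  -- the centres after each phase
  set P1 : Fin n → Fin 3 → ℚ := fun i => Function.update (a i) 2 (a i 2 + (Z i - a i 2)) with hP1
  set v2 : Fin n → ℚ := fun i => ((i : ℕ) : ℚ) * D - a i 0 with hv2
  set P2 : Fin n → Fin 3 → ℚ := fun i => Function.update (P1 i) 0 (P1 i 0 + v2 i) with hP2
  set v3 : Fin n → ℚ := fun i => - a i 1 with hv3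
  set P3 : Fin n → Fin 3 → ℚ := fun i => Function.update (P2 i) 1 (P2 i 1 + v3 i) with hP3
  set v4 : Fin n → ℚ := fun i => - Z i with hv4
  have hP1z : ∀ i, P1 i 2 = Z i := by
    intro i
    simp [hP1]
  have hP2z : ∀ i, P2 i 2 = Z i := by
    intro i
    simp [hP2, hP1]
  have hP3x : ∀ i, P3 i 0 = ((i : ℕ) : ℚ) * D := by
    intro i
    simp [hP3, hP2, hP1, hv2]
  have hDpos : ∀ i : Fin n, 0 < D := fun i => by
    have := hD i i 0
    have := hw i 0
    linarith
  -- phase 2: slide along the axis 0 (separated along the axis 2)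
  have hact2 := plan_tphase_sep n P1 w 0 2 (by decide) v2 hδ2
    (by
      intro i j hij
      rw [hP1z, hP1z]
      have := hZ i j hij
      have := hD i j 2
      linarith)
  -- phase 3: slide along the axis 1 (separated along the axis 2)
  have hact3 := plan_tphase_sep n P2 w 1 2 (by decide) v3 hδ2
    (by
      intro i j hij
      rw [hP2z, hP2z]
      have := hZ i j hij
      have := hD i j 2
      linarith)
  -- phase 4: lower along the axis 2 (separated along the axis 0)
  have hact4 := plan_tphase_sep n P3 w 2 0 (by decide) v4 hδ2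
    (by
      intro i j hij
      rw [hP3x, hP3x]
      have hne : ((i : ℕ) : ℤ) - ((j : ℕ) : ℤ) ≠ 0 := by
        intro h
        apply hij
        apply Fin.ext
        have : ((i : ℕ) : ℤ) = ((j : ℕ) : ℤ) := by linarith
        exact_mod_cast this
      have h1 : (1 : ℤ) ≤ |((i : ℕ) : ℤ) - ((j : ℕ) : ℤ)| := Int.one_le_abs hne
      have h2 : ((1 : ℤ) : ℚ) ≤ ((|((i : ℕ) : ℤ) - ((j : ℕ) : ℤ)| : ℤ) : ℚ) := by exact_mod_cast h1
      push_cast at h2
      have h3 : ((i : ℕ) : ℚ) * D - ((j : ℕ) : ℚ) * D = (((i : ℕ) : ℚ) - ((j : ℕ) : ℚ)) * D := by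
        ring
      rw [h3, abs_mul, abs_of_pos (hDpos i)]
      have := hD i j 0
      have := hDpos i
      nlinarith)
  set Ms2 : List Move :=
    (List.finRange n).flatMap fun i => [planTMove (P1 i) (w i) 0 (v2 i) (δ / 2)] with hMs2
  set Ms3 : List Move :=
    (List.finRange n).flatMap fun i => [planTMove (P2 i) (w i) 1 (v3 i) (δ / 2)] with hMs3
  set Ms4 : List Move :=
    (List.finRange n).flatMap fun i => [planTMove (P3 i) (w i) 2 (v4 i) (δ / 2)] with hMs4
  refine ⟨Ms1 ++ (Ms2 ++ (Ms3 ++ Ms4)), ?_, ?_⟩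
  · intro M hM
    simp only [List.mem_append] at hM
    rcases hM with hM | hM | hM | hM
    · exact hWF1 M hM
    · exact plan_tphase_wf n P1 w 0 v2 hδ2 M hM
    · exact plan_tphase_wf n P2 w 1 v3 hδ2 M hM
    · exact plan_tphase_wf n P3 w 2 v4 hδ2 M hM
  · intro i ξ hξ
    have hy : (fun j => (a i j : ℝ) + ξ j) ∈ planBox (a i) (w i) := by
      intro m
      simpa using hξ m
    have h34 := (hact3 i).append (hact4 i) (fun y hy => planBox_update hy 1 (v3 i))
    have h234 := (hact2 i).append h34 (fun y hy => planBox_update hy 0 (v2 i))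
    have h1234 := (hact1 i).append h234 (fun y hy => planBox_update hy 2 (Z i - a i 2))
    obtain ⟨hv, hf⟩ := h1234 _ hy
    refine ⟨hv, ?_⟩
    rw [hf]
    funext m
    fin_cases m
    · simp [hv2, parkPos]
      ring
    · simp [hv3, parkPos]
    · simp [hv4, parkPos]
      ring

end Crest.Agent.S0170
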