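import Crest.Agent.S0170Lib.PlanPark
import Crest.Agent.S0170Lib.PlanAuxReshape

/-!
# S0170: rescaling at the parking positions (owner: helper8)

At `P = parkPos D i` the linear map `diag (d 0, d 1, d 2)` (`d 0 * d 1 * d 2 = 1`) about `P` is a
product of ten shears (`PlanAuxReshape.lean`), all supported in the cube of half-size
`planReshape_rho (w i) (d i)` about `P`.  For `D` large the cubes of different boxes are
separated along the `x`-axis, and `planValid_blocks` glues the blocks of ten moves.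
-/

set_option autoImplicit false
open Crest.AnalysisR.BoxFlow

namespace Crest.Agent.S0170

theorem rescale_exists (n : ℕ) (w d : Fin n → Fin 3 → ℚ)
    (hw : ∀ i j, 0 < w i j) (hd : ∀ i j, 0 < d i j) (hvol : ∀ i, d i 0 * d i 1 * d i 2 = 1) :
    ∃ D₀ : ℚ, ∀ D : ℚ, D₀ ≤ D → ∃ Ms : List Move, (∀ M ∈ Ms, M.WF) ∧
      ∀ (i : Fin n) (ξ : Fin 3 → ℝ), (∀ j, |ξ j| < (w i j : ℝ)) →
        planValid Ms (fun j => (parkPos D i j : ℝ) + ξ j) ∧
        planFinal Ms (fun j => (parkPos D i j : ℝ) + ξ j)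
          = fun j => (parkPos D i j : ℝ) + (d i j : ℝ) * ξ j := by
  have hρ0 : ∀ i, 0 < planReshape_rho (w i) (d i) := fun i =>
    planReshape_rho_pos (w i) (d i) (hw i)
  have hT0 : ∀ i, 0 < w i 0 + d i 0 * w i 0 := fun i =>
    add_pos (hw i 0) (mul_pos (hd i 0) (hw i 0))
  refine ⟨∑ i, planReshape_rho (w i) (d i) + ∑ i, (w i 0 + d i 0 * w i 0), fun D hD => ?_⟩
  have hS1 : 0 ≤ ∑ i, planReshape_rho (w i) (d i) :=
    Finset.sum_nonneg (fun i _ => (hρ0 i).le)
  have hS2 : 0 ≤ ∑ i, (w i 0 + d i 0 * w i 0) := Finset.sum_nonneg (fun i _ => (hT0 i).le)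
  have hD0 : 0 ≤ D := by linarith
  have hDρ : ∀ r i : Fin n, planReshape_rho (w r) (d r) + w i 0 ≤ D ∧
      planReshape_rho (w r) (d r) + d i 0 * w i 0 ≤ D := by
    intro r i
    have h1 : planReshape_rho (w r) (d r) ≤ ∑ i, planReshape_rho (w i) (d i) :=
      Finset.single_le_sum (f := fun i => planReshape_rho (w i) (d i))
        (fun i _ => (hρ0 i).le) (Finset.mem_univ r)
    have h2 : w i 0 + d i 0 * w i 0 ≤ ∑ i, (w i 0 + d i 0 * w i 0) :=
      Finset.single_le_sum (f := fun i => w i 0 + d i 0 * w i 0)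
        (fun i _ => (hT0 i).le) (Finset.mem_univ i)
    have h3 : 0 < w i 0 := hw i 0
    have h4 : 0 < d i 0 * w i 0 := mul_pos (hd i 0) (hw i 0)
    constructor <;> linarith
  have hDR : (0 : ℝ) ≤ (D : ℝ) := by exact_mod_cast hD0
  have hpark0 : ∀ i : Fin n, (parkPos D i 0 : ℝ) = ((i : ℕ) : ℝ) * (D : ℝ) := by
    intro i
    show (((![((i : ℕ) : ℚ) * D, 0, 0] : Fin 3 → ℚ) 0 : ℚ) : ℝ) = _
    simp
  have hmain := fun i : Fin n =>
    planReshape_main (parkPos D i) (w i) (d i) (hw i) (hd i) (hvol i)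
  refine ⟨(List.ofFn fun i : Fin n => planReshape_moves (parkPos D i)
    (planReshape_rho (w i) (d i)) (planReshape_list (d i))).flatten, ?_, ?_⟩
  · intro M hM
    rw [List.mem_flatten] at hM
    obtain ⟨l, hl, hMl⟩ := hM
    rw [List.mem_ofFn] at hl
    obtain ⟨i, rfl⟩ := hl
    exact (hmain i).1 M hMl
  · intro i ξ hξ
    have hξ0 := abs_lt.mp (hξ 0)
    have hd0 : (0 : ℝ) < (d i 0 : ℝ) := by exact_mod_cast hd i 0
    refine planValid_blocks (fun i : Fin n => planReshape_moves (parkPos D i)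
      (planReshape_rho (w i) (d i)) (planReshape_list (d i))) (fun r => (hmain r).1) i _ _
      ?_ ?_ ?_
    · -- earlier blocks: the point is to the right of their cubes
      intro r hr M hM
      obtain ⟨-, hhi⟩ := (hmain r).2.1 M hM
      refine ⟨0, Or.inr ?_⟩
      rw [hhi]
      show (((parkPos D r 0 + planReshape_rho (w r) (d r) : ℚ)) : ℝ) ≤ (parkPos D i 0 : ℝ) + ξ 0
      push_cast
      rw [hpark0 r, hpark0 i]
      have h1 : ((planReshape_rho (w r) (d r) + w i 0 : ℚ) : ℝ) ≤ (D : ℝ) := by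
        exact_mod_cast (hDρ r i).1
      push_cast at h1
      have h2 : ((r : ℕ) : ℝ) + 1 ≤ ((i : ℕ) : ℝ) := by
        exact_mod_cast Nat.succ_le_of_lt (Fin.lt_def.mp hr)
      nlinarith [mul_nonneg (sub_nonneg.mpr h2) hDR]
    · -- the block of the box
      obtain ⟨hv, hf⟩ := (hmain i).2.2 (fun j => (parkPos D i j : ℝ) + ξ j) (by
        intro m
        have : (parkPos D i m : ℝ) + ξ m - (parkPos D i m : ℝ) = ξ m := by ring
        rw [this]
        exact hξ m)
      refine ⟨hv, hf.trans ?_⟩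
      funext m
      have : (parkPos D i m : ℝ) + ξ m - (parkPos D i m : ℝ) = ξ m := by ring
      rw [this]
    · -- later blocks: the image point is to the left of their cubes
      intro r hr M hM
      obtain ⟨hlo, -⟩ := (hmain r).2.1 M hM
      refine ⟨0, Or.inl ?_⟩
      rw [hlo]
      show (parkPos D i 0 : ℝ) + (d i 0 : ℝ) * ξ 0 ≤
        (((parkPos D r 0 - planReshape_rho (w r) (d r) : ℚ)) : ℝ)
      push_cast
      rw [hpark0 r, hpark0 i]
      have h1 : ((planReshape_rho (w r) (d r) + d i 0 * w i 0 : ℚ) : ℝ) ≤ (D : ℝ) := by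
        exact_mod_cast (hDρ r i).2
      push_cast at h1
      have h2 : ((i : ℕ) : ℝ) + 1 ≤ ((r : ℕ) : ℝ) := by
        exact_mod_cast Nat.succ_le_of_lt (Fin.lt_def.mp hr)
      have h3 : (d i 0 : ℝ) * ξ 0 < (d i 0 : ℝ) * (w i 0 : ℝ) :=
        mul_lt_mul_of_pos_left hξ0.2 hd0
      nlinarith [mul_nonneg (sub_nonneg.mpr h2) hDR]

end Crest.Agent.S0170
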