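import Crest.Agent.S0170Lib.Eff1

/-!
# S0170: separable functions on space-time are effective; assembling `Effective`

Owner: helper5.  Helper lemmas are prefixed `sep_`.
-/

set_option autoImplicit false
open scoped ContDiff
open Crest.AnalysisR.BoxFlow

namespace Crest.Agent.S0170

/-! ### Calculus of `mixedDerivR` -/

theorem sep_contDiff_mixedDerivR {u : ST → ℝ} (hu : ContDiff ℝ ∞ u) (ds : List (Fin 4)) :
    ContDiff ℝ ∞ (mixedDerivR ds u) := by
  induction ds with
  | nil => exact hu
  | cons d ds ih =>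
    show ContDiff ℝ ∞ (fun p => fderiv ℝ (mixedDerivR ds u) p (direction d))
    exact (ih.fderiv_right (m := ∞) (by simp)).clm_apply contDiff_const

theorem sep_differentiable_mixedDerivR {u : ST → ℝ} (hu : ContDiff ℝ ∞ u) (ds : List (Fin 4)) :
    Differentiable ℝ (mixedDerivR ds u) :=
  (sep_contDiff_mixedDerivR hu ds).differentiable (by simp)

theorem sep_mixedDerivR_add {u v : ST → ℝ} (hu : ContDiff ℝ ∞ u) (hv : ContDiff ℝ ∞ v)
    (ds : List (Fin 4)) :
    mixedDerivR ds (fun p => u p + v p) = fun p => mixedDerivR ds u p + mixedDerivR ds v p := by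
  induction ds with
  | nil => rfl
  | cons d ds ih =>
    funext p
    show fderiv ℝ (mixedDerivR ds (fun p => u p + v p)) p (direction d) =
      fderiv ℝ (mixedDerivR ds u) p (direction d) + fderiv ℝ (mixedDerivR ds v) p (direction d)
    rw [ih, fderiv_fun_add (sep_differentiable_mixedDerivR hu ds p)
      (sep_differentiable_mixedDerivR hv ds p)]
    rfl

theorem sep_mixedDerivR_neg (u : ST → ℝ) (ds : List (Fin 4)) :
    mixedDerivR ds (fun p => - u p) = fun p => - mixedDerivR ds u p := by
  induction ds with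
  | nil => rfl
  | cons d ds ih =>
    funext p
    show fderiv ℝ (mixedDerivR ds (fun p => - u p)) p (direction d) =
      - fderiv ℝ (mixedDerivR ds u) p (direction d)
    rw [ih, fderiv_fun_neg]
    rfl

theorem sep_mixedDerivR_zero (ds : List (Fin 4)) :
    mixedDerivR ds (fun _ : ST => (0 : ℝ)) = fun _ => 0 := by
  induction ds with
  | nil => rfl
  | cons d ds ih =>
    funext p
    show fderiv ℝ (mixedDerivR ds (fun _ : ST => (0 : ℝ))) p (direction d) = 0
    rw [ih]
    simp

/-! ### Derivatives of separable functions -/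

theorem sep_differentiable (c : ℝ) {T : ℝ → ℝ} {F : Fin 3 → ℝ → ℝ} (hT : Differentiable ℝ T)
    (hF : ∀ i, Differentiable ℝ (F i)) : Differentiable ℝ (sep c T F) := by
  have h0 := hF 0
  have h1 := hF 1
  have h2 := hF 2
  unfold sep
  fun_prop

theorem sep_contDiff (c : ℝ) {T : ℝ → ℝ} {F : Fin 3 → ℝ → ℝ} (hT : ContDiff ℝ ∞ T)
    (hF : ∀ i, ContDiff ℝ ∞ (F i)) : ContDiff ℝ ∞ (sep c T F) := by
  have h0 := hF 0
  have h1 := hF 1
  have h2 := hF 2
  unfold sep
  fun_prop

theorem sep_hasDerivAt_line (f : ST → ℝ) (p v : ST) (hf : DifferentiableAt ℝ f p) :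
    HasDerivAt (fun s : ℝ => f (p + s • v)) (fderiv ℝ f p v) 0 := by
  have hγ : HasDerivAt (fun s : ℝ => p + s • v) v 0 := by
    simpa using ((hasDerivAt_id (0 : ℝ)).smul_const v).const_add p
  have hf' : HasFDerivAt f (fderiv ℝ f p) (p + (0 : ℝ) • v) := by
    simpa using hf.hasFDerivAt
  exact HasFDerivAt.comp_hasDerivAt (0 : ℝ) hf' hγ

theorem sep_hasDerivAt_arg (G : ℝ → ℝ) (hG : Differentiable ℝ G) (a e : ℝ) :
    HasDerivAt (fun s : ℝ => G (a + s * e)) (deriv G a * e) 0 := by
  have h1 : HasDerivAt (fun s : ℝ => a + s * e) e 0 := by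
    simpa using ((hasDerivAt_id (0 : ℝ)).mul_const e).const_add a
  have h2 : HasDerivAt G (deriv G a) (a + 0 * e) := by
    simpa using (hG a).hasDerivAt
  exact HasDerivAt.comp (0 : ℝ) h2 h1

theorem sep_fderiv_time (c : ℝ) {T : ℝ → ℝ} {F : Fin 3 → ℝ → ℝ} (hT : Differentiable ℝ T)
    (hF : ∀ i, Differentiable ℝ (F i)) (p : ST) :
    fderiv ℝ (sep c T F) p (direction 0) = sep c (deriv T) F p := by
  have h1 := sep_hasDerivAt_line (sep c T F) p (direction 0) (sep_differentiable c hT hF p)
  have h2 : HasDerivAt (fun s : ℝ => sep c T F (p + s • direction 0)) (sep c (deriv T) F p) 0 := by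
    have hdir : direction 0 = ((1 : ℝ), (0 : Fin 3 → ℝ)) := by simp [direction]
    have hfun : (fun s : ℝ => sep c T F (p + s • direction 0)) =
        fun s => c * T (p.1 + s * 1) * (F 0 (p.2 0) * F 1 (p.2 1) * F 2 (p.2 2)) := by
      funext s
      simp [sep, hdir]
    rw [hfun]
    have hT' := sep_hasDerivAt_arg T hT p.1 1
    have := (hT'.const_mul c).mul_const (F 0 (p.2 0) * F 1 (p.2 1) * F 2 (p.2 2))
    simpa [sep] using this
  exact h1.unique h2

theorem sep_fderiv_space (c : ℝ) {T : ℝ → ℝ} {F : Fin 3 → ℝ → ℝ} (hT : Differentiable ℝ T)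
    (hF : ∀ i, Differentiable ℝ (F i)) (p : ST) (j : Fin 3) :
    fderiv ℝ (sep c T F) p (direction j.succ) =
      sep c T (Function.update F j (deriv (F j))) p := by
  have h1 := sep_hasDerivAt_line (sep c T F) p (direction j.succ) (sep_differentiable c hT hF p)
  have h2 : HasDerivAt (fun s : ℝ => sep c T F (p + s • direction j.succ))
      (sep c T (Function.update F j (deriv (F j))) p) 0 := by
    have hdir : direction j.succ = ((0 : ℝ), (Pi.single j 1 : Fin 3 → ℝ)) := by
      simp [direction]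
    have hfun : (fun s : ℝ => sep c T F (p + s • direction j.succ)) =
        fun s => c * T p.1 * (F 0 (p.2 0 + s * (Pi.single j 1 : Fin 3 → ℝ) 0) *
          F 1 (p.2 1 + s * (Pi.single j 1 : Fin 3 → ℝ) 1) *
          F 2 (p.2 2 + s * (Pi.single j 1 : Fin 3 → ℝ) 2)) := by
      funext s
      simp [sep, hdir]
    rw [hfun]
    have g0 := sep_hasDerivAt_arg (F 0) (hF 0) (p.2 0) ((Pi.single j 1 : Fin 3 → ℝ) 0)
    have g1 := sep_hasDerivAt_arg (F 1) (hF 1) (p.2 1) ((Pi.single j 1 : Fin 3 → ℝ) 1)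
    have g2 := sep_hasDerivAt_arg (F 2) (hF 2) (p.2 2) ((Pi.single j 1 : Fin 3 → ℝ) 2)
    have := ((g0.mul g1).mul g2).const_mul (c * T p.1)
    refine HasDerivAt.congr_deriv this ?_
    fin_cases j <;> simp [sep, Function.update, Pi.single]
  exact h1.unique h2

theorem sep_contDiff_iteratedDeriv {f : ℝ → ℝ} (hf : ContDiff ℝ ∞ f) (n : ℕ) :
    ContDiff ℝ ∞ (iteratedDeriv n f) := by
  rw [iteratedDeriv_eq_iterate]
  exact hf.iterate_deriv n

theorem sep_mixedDerivR_sep (c : ℝ) {T : ℝ → ℝ} {F : Fin 3 → ℝ → ℝ} (hT : ContDiff ℝ ∞ T)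
    (hF : ∀ i, ContDiff ℝ ∞ (F i)) (ds : List (Fin 4)) :
    mixedDerivR ds (sep c T F) =
      sep c (iteratedDeriv (ds.count 0) T) (fun i => iteratedDeriv (ds.count i.succ) (F i)) := by
  induction ds with
  | nil => simp [mixedDerivR, iteratedDeriv_zero]
  | cons d ds ih =>
    funext p
    show fderiv ℝ (mixedDerivR ds (sep c T F)) p (direction d) = _
    rw [ih]
    have hT' : Differentiable ℝ (iteratedDeriv (ds.count 0) T) :=
      (sep_contDiff_iteratedDeriv hT _).differentiable (by simp)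
    have hF' : ∀ i : Fin 3, Differentiable ℝ (iteratedDeriv (ds.count i.succ) (F i)) :=
      fun i => (sep_contDiff_iteratedDeriv (hF i) _).differentiable (by simp)
    by_cases hd : d = 0
    · subst hd
      rw [sep_fderiv_time c hT' hF']
      have h0 : ∀ i : Fin 3, (0 :: ds).count i.succ = ds.count i.succ := fun i => by
        rw [List.count_cons_of_ne (Fin.succ_ne_zero i).symm]
      simp only [List.count_cons_self, iteratedDeriv_succ, h0]
    · obtain ⟨j, rfl⟩ := Fin.exists_succ_eq.2 hd
      rw [sep_fderiv_space c hT' hF' p j]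
      have h0 : (j.succ :: ds).count 0 = ds.count 0 := by
        rw [List.count_cons_of_ne (Fin.succ_ne_zero j)]
      have hfun : Function.update (fun i : Fin 3 => iteratedDeriv (ds.count i.succ) (F i)) j
          (deriv (iteratedDeriv (ds.count j.succ) (F j))) =
          fun i : Fin 3 => iteratedDeriv ((j.succ :: ds).count i.succ) (F i) := by
        funext i
        by_cases hij : i = j
        · subst hij
          simp [iteratedDeriv_succ]
        · have : (j.succ :: ds).count i.succ = ds.count i.succ := by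
            rw [List.count_cons_of_ne]
            intro h
            exact hij (Fin.succ_injective _ h).symm
          rw [Function.update_of_ne hij, this]
      rw [hfun, h0]

/-! ### Vector-valued fields versus their components -/

theorem sep_contDiff_mixedDeriv {U : Field} (hU : ContDiff ℝ ∞ U) (ds : List (Fin 4)) :
    ContDiff ℝ ∞ (mixedDeriv ds U) := by
  induction ds with
  | nil => exact hU
  | cons d ds ih =>
    show ContDiff ℝ ∞ (fun p => fderiv ℝ (mixedDeriv ds U) p (direction d))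
    exact (ih.fderiv_right (m := ∞) (by simp)).clm_apply contDiff_const

theorem sep_mixedDeriv_apply {U : Field} (hU : ContDiff ℝ ∞ U) (ds : List (Fin 4)) (j : Fin 3) :
    (fun p => mixedDeriv ds U p j) = mixedDerivR ds (fun p => U p j) := by
  induction ds with
  | nil => rfl
  | cons d ds ih =>
    funext p
    show fderiv ℝ (mixedDeriv ds U) p (direction d) j =
      fderiv ℝ (mixedDerivR ds (fun p => U p j)) p (direction d)
    rw [← ih, fderiv_apply ((sep_contDiff_mixedDeriv hU ds).differentiable (by simp) p) j]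
    rfl

/-! ### `EffR` in terms of `RApprox` -/

theorem sep_primrec_count (d : Fin 4) : Primrec (fun l : List (Fin 4) => l.count d) := by
  have h : Primrec (fun l : List (Fin 4) => (l.filter (fun a => a = d)).length) :=
    Primrec.list_length.comp
      (Primrec.listFilter (Primrec.eq.comp Primrec.id (Primrec.const d)))
  exact h.of_eq fun l => by
    rw [List.count, List.countP_eq_length_filter]
    congr 1

theorem sep_effR_iff {u : ST → ℝ} :
    EffR u ↔ ContDiff ℝ ∞ u ∧
      RApprox (fun x : List (Fin 4) × (ℚ × (Fin 3 → ℚ)) =>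
        mixedDerivR x.1 u ((x.2.1 : ℝ), ratPoint x.2.2)) ∧
      ∃ B : List (Fin 4) → ℕ, Primrec B ∧ ∀ ds p, |mixedDerivR ds u p| ≤ (B ds : ℝ) := by
  constructor
  · intro hu
    obtain ⟨E, B, hE, hB, h1, h2⟩ := hu.eff
    refine ⟨hu.smooth, ⟨fun x n => E (x.1, x.2, n), ?_, fun x n => h1 x.1 x.2.1 x.2.2 n⟩,
      B, hB, h2⟩
    exact (hE.comp (Primrec.pair (Primrec.fst.comp Primrec.fst)
      (Primrec.pair (Primrec.snd.comp Primrec.fst) Primrec.snd))).to₂
  · rintro ⟨hs, ⟨A, hA, hAe⟩, B, hB, h2⟩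
    refine ⟨hs, fun y => A (y.1, y.2.1) y.2.2, B, ?_, hB, fun ds t q n => hAe (ds, (t, q)) n, h2⟩
    exact hA.comp (Primrec.pair Primrec.fst (Primrec.fst.comp Primrec.snd))
      (Primrec.snd.comp Primrec.snd)

/-! ### The interface -/

theorem EffR.of_eq {u v : ST → ℝ} (hu : EffR u) (h : ∀ p, u p = v p) : EffR v := by
  have : u = v := funext h
  rw [← this]
  exact hu

theorem EffR.zero : EffR (fun _ => 0) := by
  rw [sep_effR_iff]
  refine ⟨contDiff_const, ?_, fun _ => 0, Primrec.const 0, fun ds p => ?_⟩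
  · exact (RApprox.const (0 : ℚ)).of_eq fun x => by rw [sep_mixedDerivR_zero]; simp
  · rw [sep_mixedDerivR_zero]; simp

theorem EffR.add {u v : ST → ℝ} (hu : EffR u) (hv : EffR v) : EffR (fun p => u p + v p) := by
  rw [sep_effR_iff] at hu hv ⊢
  obtain ⟨hus, hua, Bu, hBu, hub⟩ := hu
  obtain ⟨hvs, hva, Bv, hBv, hvb⟩ := hv
  refine ⟨hus.add hvs, ?_, fun ds => Bu ds + Bv ds, Primrec.nat_add.comp hBu hBv, fun ds p => ?_⟩
  · exact (hua.add hva).of_eq fun x => by rw [sep_mixedDerivR_add hus hvs]
  · rw [sep_mixedDerivR_add hus hvs]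
    push_cast
    exact (abs_add_le _ _).trans (add_le_add (hub ds p) (hvb ds p))

theorem EffR.neg {u : ST → ℝ} (hu : EffR u) : EffR (fun p => - u p) := by
  rw [sep_effR_iff] at hu ⊢
  obtain ⟨hus, hua, Bu, hBu, hub⟩ := hu
  refine ⟨hus.neg, ?_, Bu, hBu, fun ds p => ?_⟩
  · exact hua.neg.of_eq fun x => by rw [sep_mixedDerivR_neg]
  · rw [sep_mixedDerivR_neg, abs_neg]
    exact hub ds p

theorem EffR.sum {ι : Type*} (s : Finset ι) {u : ι → ST → ℝ} (h : ∀ i ∈ s, EffR (u i)) :
    EffR (fun p => ∑ i ∈ s, u i p) := by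
  classical
  induction s using Finset.induction_on with
  | empty => exact EffR.zero.of_eq fun p => by simp
  | insert a s ha ih =>
    have h1 : EffR (u a) := h a (Finset.mem_insert_self a s)
    have h2 : EffR (fun p => ∑ i ∈ s, u i p) := ih fun i hi => h i (Finset.mem_insert_of_mem hi)
    exact (h1.add h2).of_eq fun p => by rw [Finset.sum_insert ha]

theorem EffR.sep (c : ℚ) {T : ℝ → ℝ} {F : Fin 3 → ℝ → ℝ} (hT : Eff1 T) (hF : ∀ i, Eff1 (F i)) :
    EffR (sep (c : ℝ) T F) := by
  rw [sep_effR_iff]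
  have hFs : ∀ i, ContDiff ℝ ∞ (F i) := fun i => (hF i).smooth
  refine ⟨sep_contDiff _ hT.smooth hFs, ?_, ?_⟩
  · have hgT : Primrec (fun x : List (Fin 4) × (ℚ × (Fin 3 → ℚ)) => (x.1.count 0, x.2.1)) :=
      Primrec.pair ((sep_primrec_count 0).comp Primrec.fst) (Primrec.fst.comp Primrec.snd)
    have hgF : ∀ i : Fin 3, Primrec (fun x : List (Fin 4) × (ℚ × (Fin 3 → ℚ)) =>
        (x.1.count i.succ, x.2.2 i)) := fun i =>
      Primrec.pair ((sep_primrec_count i.succ).comp Primrec.fst)
        (Primrec.fin_app.comp (Primrec.snd.comp Primrec.snd) (Primrec.const i))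
    have aT := hT.approx_iteratedDeriv.comp hgT
    have a0 := (hF 0).approx_iteratedDeriv.comp (hgF 0)
    have a1 := (hF 1).approx_iteratedDeriv.comp (hgF 1)
    have a2 := (hF 2).approx_iteratedDeriv.comp (hgF 2)
    refine (((RApprox.const c).mul aT).mul ((a0.mul a1).mul a2)).of_eq fun x => ?_
    rw [sep_mixedDerivR_sep _ hT.smooth hFs]
    rfl
  · obtain ⟨BT, hBT, hBT'⟩ := hT.bound
    choose BF hBF hBF' using fun i => (hF i).bound
    refine ⟨fun ds => ratUB c * BT (ds.count 0) *
      (BF 0 (ds.count (0 : Fin 3).succ) * BF 1 (ds.count (1 : Fin 3).succ) *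
        BF 2 (ds.count (2 : Fin 3).succ)), ?_, fun ds p => ?_⟩
    · exact Primrec.nat_mul.comp
        (Primrec.nat_mul.comp (Primrec.const _) (hBT.comp (sep_primrec_count 0)))
        (Primrec.nat_mul.comp
          (Primrec.nat_mul.comp ((hBF 0).comp (sep_primrec_count _))
            ((hBF 1).comp (sep_primrec_count _)))
          ((hBF 2).comp (sep_primrec_count _)))
    · rw [sep_mixedDerivR_sep _ hT.smooth hFs]
      have hc : |(c : ℝ)| ≤ (ratUB c : ℝ) := by
        have h3 : ((|c| : ℚ) : ℝ) ≤ ((ratUB c : ℚ) : ℝ) := by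
          exact_mod_cast ratComp_abs_le_UB c
        simpa using h3
      simp only [Crest.Agent.S0170.sep, abs_mul]
      push_cast
      have e0 := hBT' (ds.count 0) p.1
      gcongr
      all_goals exact hBF' _ _ _

/-- A field whose components are effective scalar functions is smooth and `Effective`. -/
theorem effective_of_components {U : Field} (h : ∀ j, EffR (fun p => U p j)) :
    ContDiff ℝ ∞ U ∧ Effective U := by
  have hU : ContDiff ℝ ∞ U := contDiff_pi.2 fun j => (h j).smooth
  refine ⟨hU, ?_⟩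
  choose E B hE hB h1 h2 using fun j => (h j).eff
  refine ⟨fun x j => E j x, fun ds => B 0 ds + B 1 ds + B 2 ds, ?_, ?_, ?_, ?_⟩
  · apply Primrec.to_comp
    rw [Primrec.fin_curry]
    exact (Primrec.fin_curry₁.2 hE).swap
  · exact (Primrec.nat_add.comp (Primrec.nat_add.comp (hB 0) (hB 1)) (hB 2)).to_comp
  · intro ds t q n j
    have := h1 j ds t q n
    rw [← sep_mixedDeriv_apply hU ds j] at this
    exact this
  · intro ds p j
    have := h2 j ds p
    rw [← sep_mixedDeriv_apply hU ds j] at this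
    refine this.trans ?_
    push_cast
    have n0 : (0 : ℝ) ≤ B 0 ds := Nat.cast_nonneg _
    have n1 : (0 : ℝ) ≤ B 1 ds := Nat.cast_nonneg _
    have n2 : (0 : ℝ) ≤ B 2 ds := Nat.cast_nonneg _
    fin_cases j <;> simp <;> linarith

end Crest.Agent.S0170
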